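import Vale.Agent.P369.Diag.Evolve

/-!
Bounds on the entropy of a noisy weight at large noise strength.
-/

namespace Vale.Agent.P369.Diag

open Finset Filter Topology Real

theorem negMulLog_le_gibbs {x y : ℝ} (hx : 0 ≤ x) (hy : 0 < y) :
    negMulLog x ≤ -x * Real.log y + y - x := by
  rcases hx.eq_or_lt with h | h
  · simp [← h, hy.le]
  · have h1 := Real.log_le_sub_one_of_pos (div_pos hy h)
    rw [Real.log_div hy.ne' h.ne'] at h1
    have h2 := mul_le_mul_of_nonneg_left h1 h.le
    have h3 : x * (y / x - 1) = y - x := by field_simp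
    rw [negMulLog]; nlinarith

theorem negMulLog_mixture {W a r : ℝ} (hW0 : 0 ≤ W) (hW1 : W ≤ 1) (ha0 : 0 ≤ a)
    (hr0 : 0 ≤ r) (hr1 : r ≤ 1 - W) : W * negMulLog a ≤ negMulLog (W * a + r) := by
  rcases hW1.eq_or_lt with h | h
  · subst h; have : r = 0 := by linarith
    simp [this]
  · have hW : (1 - W) ≠ 0 := by linarith
    have hb0 : 0 ≤ r / (1 - W) := div_nonneg hr0 (by linarith)
    have hb1 : r / (1 - W) ≤ 1 := (div_le_one (by linarith)).2 hr1
    have h2 := concaveOn_negMulLog.2 (Set.mem_Ici.2 ha0) (Set.mem_Ici.2 hb0) hW0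
      (by linarith : (0 : ℝ) ≤ 1 - W) (by ring)
    simp only [smul_eq_mul] at h2
    rw [mul_div_cancel₀ r hW] at h2
    have := mul_nonneg (by linarith : (0 : ℝ) ≤ 1 - W) (negMulLog_nonneg hb0 hb1)
    linarith

/-- The product geometric weight of mean `r` per mode. -/
noncomputable def geo {n : ℕ} (r : ℝ) (k : Fin n → ℕ) : ℝ := ∏ i, nz r 0 (k i)

theorem geo_pos {n : ℕ} {r : ℝ} (hr : 0 < r) (k : Fin n → ℕ) : 0 < geo r k :=
  prod_pos fun _ _ => nz_pos hr _ _

theorem log_geo {n : ℕ} {r : ℝ} (hr : 0 < r) (k : Fin n → ℕ) :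
    Real.log (geo r k) = (tot k : ℝ) * Real.log r - ((tot k : ℝ) + n) * Real.log (1 + r) := by
  rw [geo, Real.log_prod fun i _ => (nz_pos hr _ _).ne']
  simp only [nz_zero_left]
  have h1 : (1 + r : ℝ) ≠ 0 := by linarith
  simp only [Real.log_div (pow_ne_zero _ hr.ne') (pow_ne_zero _ h1), Real.log_pow, sum_sub_distrib,
    ← sum_mul, tot, Nat.cast_sum, Nat.cast_add, Nat.cast_one, sum_add_distrib, sum_const, card_univ,
    Fintype.card_fin, nsmul_eq_mul, mul_one]

theorem hasSum_geo {n : ℕ} {r : ℝ} (hr : 0 ≤ r) : HasSum (geo r : (Fin n → ℕ) → ℝ) 1 := by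
  have h := hasSum_prod (n := n) (f := fun _ => nz r 0) (a := fun _ => 1)
    (fun _ j => nz_nonneg hr _ _) fun _ => hasSum_nz hr 0
  simp only [prod_const_one] at h
  exact h

theorem Fin1.entropy_le {n R : ℕ} {p : (Fin n → ℕ) → ℝ} (h : Fin1 R p) (hn : 0 < n) {t : ℝ}
    (ht : 0 < t) (hs : Summable fun k => negMulLog (noise t p k)) :
    diagEntropy (noise t p) ≤ n * thermalS ((∑ k ∈ box n R, (tot k : ℝ) * p k) / n + t) := by
  have hn' : (0 : ℝ) < n := by exact_mod_cast hn
  set N := ∑ k ∈ box n R, (tot k : ℝ) * p k with hN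
  set r := N / n + t with hr
  have hN0 : 0 ≤ N := sum_nonneg fun k _ => mul_nonneg (Nat.cast_nonneg _) (h.nonneg k)
  have hr0 : 0 < r := by positivity
  have h1 : HasSum (fun k => (Real.log (1 + r) - Real.log r) * ((tot k : ℝ) * noise t p k) +
      (n * Real.log (1 + r)) * noise t p k + (geo r k - noise t p k))
      ((Real.log (1 + r) - Real.log r) * (N + n * t) + (n * Real.log (1 + r)) * 1 + (1 - 1)) :=
    (((h.hasSum_tot_noise ht.le).mul_left _).add ((h.hasSum_noise ht.le).mul_left _)).add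
      ((hasSum_geo hr0.le).sub (h.hasSum_noise ht.le))
  have e : (Real.log (1 + r) - Real.log r) * (N + n * t) + (n * Real.log (1 + r)) * 1 + (1 - 1) =
      n * thermalS r := by
    have : N + n * t = n * r := by rw [hr]; field_simp
    rw [this, thermalS, add_comm r 1]; ring
  rw [e] at h1
  refine hasSum_le (fun k => ?_) hs.hasSum h1
  refine (negMulLog_le_gibbs (h.noise_nonneg ht.le k) (geo_pos hr0 k)).trans_eq ?_
  rw [log_geo hr0]; ring

theorem Fin1.le_entropy {n R : ℕ} {p : (Fin n → ℕ) → ℝ} (h : Fin1 R p) {t : ℝ}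
    (ht : 0 < t) (hs : Summable fun k => negMulLog (noise t p k)) :
    (1 - (∑ k ∈ box n R, (tot k : ℝ) * p k) / (1 + t)) * (n * thermalS t) ≤
      diagEntropy (noise t p) := by
  set x := t / (1 + t) with hx
  have hx0 : 0 ≤ x := by positivity
  have hx1 : x ≤ 1 := by rw [hx, div_le_one (by linarith)]; linarith
  set W := ∑ m ∈ box n R, p m * x ^ tot m with hW
  have hW0 : 0 ≤ W := sum_nonneg fun m _ => mul_nonneg (h.nonneg m) (pow_nonneg hx0 _)
  have hlow : ∀ k, W * geo t k ≤ noise t p k := by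
    intro k
    rw [noise_fin h.inBox, hW, sum_mul]
    refine sum_le_sum fun m _ => ?_
    rw [mul_assoc]
    refine mul_le_mul_of_nonneg_left ?_ (h.nonneg m)
    rw [geo, tot, ← prod_pow_eq_pow_sum, ← prod_mul_distrib]
    refine prod_le_prod (fun i _ => mul_nonneg (pow_nonneg hx0 _) (nz_nonneg ht.le _ _)) fun i _ => ?_
    refine le_trans (le_of_eq ?_) (single_le_sum (f := fun j => ((m i).choose j : ℝ) *
      ((k i).choose j : ℝ) * t ^ (m i + k i - 2 * j) / (1 + t) ^ (m i + k i + 1))
      (fun j _ => by positivity) (show 0 ∈ range (min (m i) (k i) + 1) by simp))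
    simp only [nz_zero_left, hx, div_pow, Nat.choose_zero_right, Nat.cast_one, one_mul, mul_zero,
      Nat.sub_zero]
    rw [div_mul_div_comm, pow_add t, show m i + k i + 1 = m i + (k i + 1) by omega, pow_add (1 + t) (m i)]
  have hW1 : W ≤ 1 := by
    refine (sum_le_sum fun m _ => mul_le_of_le_one_right (h.nonneg m) (pow_le_one₀ hx0 hx1)).trans_eq ?_
    exact h.mass
  have hrest : ∀ k, noise t p k - W * geo t k ≤ 1 - W := fun k => by
    have := (h.hasSum_noise ht.le).sub ((hasSum_geo (n := n) ht.le).mul_left W)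
    rw [mul_one] at this
    exact le_hasSum this k fun j _ => sub_nonneg.2 (hlow j)
  have hgeo : HasSum (fun k : Fin n → ℕ => negMulLog (geo t k)) (n * thermalS t) := by
    have hp0 : Fin1 1 (fun k : Fin n → ℕ => if k = 0 then (1 : ℝ) else 0) :=
      ⟨fun k hk => if_neg fun hk0 => hk (mem_box.2 fun i => by simp [hk0]),
        fun k => by split_ifs <;> norm_num, by
          rw [sum_ite_eq', if_pos (mem_box.2 fun i => by simp)]⟩
    have e : ∀ k : Fin n → ℕ, noise t (fun k => if k = 0 then (1 : ℝ) else 0) k = geo t k := fun k => by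
      rw [noise, tsum_eq_single (0 : Fin n → ℕ)]
      · simp [geo]
      · intro m hm; simp [hm]
    have a := (hp0.hasSum_tot_noise ht.le).mul_left (Real.log (1 + t) - Real.log t)
    have b := (hp0.hasSum_noise ht.le).mul_left ((n : ℝ) * Real.log (1 + t))
    have c := a.add b
    simp only [e] at c
    have v : (Real.log (1 + t) - Real.log t) *
        ((∑ k ∈ box n 1, (tot k : ℝ) * if k = 0 then (1 : ℝ) else 0) + n * t) +
        n * Real.log (1 + t) * 1 = n * thermalS t := by
      rw [sum_eq_zero fun k _ => by by_cases hk : k = 0 <;> simp [hk, tot], thermalS, add_comm t 1]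
      ring
    rw [v] at c
    refine c.congr_fun fun k => ?_
    rw [negMulLog, log_geo ht]; ring
  have hB : 1 - (∑ k ∈ box n R, (tot k : ℝ) * p k) / (1 + t) ≤ W := by
    nth_rewrite 1 [← h.mass]
    rw [sum_div, ← sum_sub_distrib, hW]
    refine sum_le_sum fun m _ => ?_
    have hb := one_add_mul_le_pow (a := -(1 / (1 + t))) (by
      rw [neg_le_neg_iff, div_le_iff₀ (by linarith)]; linarith) (tot m)
    rw [show 1 + -(1 / (1 + t)) = x by rw [hx]; field_simp; ring] at hb
    refine le_trans (le_of_eq ?_) (mul_le_mul_of_nonneg_left hb (h.nonneg m))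
    ring
  refine (mul_le_mul_of_nonneg_right hB (mul_nonneg (Nat.cast_nonneg n) (thermalS_nonneg ht.le))).trans ?_
  refine hasSum_le (fun k => ?_) (hgeo.mul_left W) hs.hasSum
  have := negMulLog_mixture hW0 hW1 (geo_pos ht k).le (sub_nonneg.2 (hlow k)) (hrest k)
  rwa [add_sub_cancel] at this

theorem thermalS_ge {x : ℝ} (hx : 0 < x) : Real.log x + 1 ≤ thermalS x := by
  have h := Real.log_le_sub_one_of_pos (div_pos hx (show 0 < x + 1 by linarith))
  rw [Real.log_div hx.ne' (by linarith)] at h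
  have h2 := mul_le_mul_of_nonneg_left h (show 0 ≤ x + 1 by linarith)
  have h3 : (x + 1) * (x / (x + 1) - 1) = -1 := by
    have : x + 1 ≠ 0 := by linarith
    field_simp; ring
  rw [h3] at h2
  unfold thermalS
  linarith

theorem thermalS_le {x : ℝ} (hx : 0 < x) : thermalS x ≤ Real.log (x + 1) + 1 := by
  have h := Real.log_le_sub_one_of_pos (div_pos (show 0 < x + 1 by linarith) hx)
  rw [Real.log_div (by linarith) hx.ne'] at h
  have h2 := mul_le_mul_of_nonneg_left h hx.le
  have h3 : x * ((x + 1) / x - 1) = 1 := by field_simp; ring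
  rw [h3] at h2
  unfold thermalS
  linarith

end Vale.Agent.P369.Diag
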