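import Vale.Agent.P369.Diag.Defs

/-!
The one-mode beam-splitter kernel: recurrence, total mass, mean, symmetry, the two-sided sum
identity and the positivity of box sums of its drops.
-/

namespace Vale.Agent.P369.Diag

open Polynomial Finset

/-! ### The coefficients in the amplitude -/

/-- Coefficient of `X ^ k` in `(√η X - √(1-η)) ^ m (√(1-η) X + √η) ^ l`. -/
noncomputable def bcf (η : ℝ) (m l k : ℕ) : ℝ :=
  ((C (Real.sqrt η) * X - C (Real.sqrt (1 - η))) ^ m *
    (C (Real.sqrt (1 - η)) * X + C (Real.sqrt η)) ^ l).coeff k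

variable {η : ℝ}

lemma bcf_high {m l k : ℕ} (h : m + l < k) : bcf η m l k = 0 := by
  refine coeff_eq_zero_of_natDegree_lt (lt_of_le_of_lt ?_ h)
  have hp : (C (Real.sqrt η) * X - C (Real.sqrt (1 - η))).natDegree ≤ 1 := by compute_degree
  have hq : (C (Real.sqrt (1 - η)) * X + C (Real.sqrt η)).natDegree ≤ 1 := by compute_degree
  calc _ ≤ _ := natDegree_mul_le
    _ ≤ m * 1 + l * 1 :=
      add_le_add (natDegree_pow_le_of_le m hp) (natDegree_pow_le_of_le l hq)
    _ = m + l := by ring

lemma bcf_succ_left (m l k : ℕ) :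
    bcf η (m + 1) l (k + 1) =
      Real.sqrt η * bcf η m l k - Real.sqrt (1 - η) * bcf η m l (k + 1) := by
  unfold bcf
  rw [pow_succ', mul_assoc, sub_mul, coeff_sub, mul_assoc, coeff_C_mul, coeff_X_mul, coeff_C_mul]

lemma bcf_succ_left_zero (m l : ℕ) :
    bcf η (m + 1) l 0 = -(Real.sqrt (1 - η) * bcf η m l 0) := by
  unfold bcf
  rw [pow_succ', mul_assoc, sub_mul, coeff_sub, mul_assoc, coeff_C_mul, coeff_X_mul_zero,
    coeff_C_mul, mul_zero, zero_sub]

lemma bcf_succ_right (m l k : ℕ) :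
    bcf η m (l + 1) (k + 1) =
      Real.sqrt (1 - η) * bcf η m l k + Real.sqrt η * bcf η m l (k + 1) := by
  unfold bcf
  rw [pow_succ', mul_left_comm, add_mul, coeff_add, mul_assoc, coeff_C_mul, coeff_X_mul,
    coeff_C_mul]

lemma bcf_succ_right_zero (m l : ℕ) :
    bcf η m (l + 1) 0 = Real.sqrt η * bcf η m l 0 := by
  unfold bcf
  rw [pow_succ', mul_left_comm, add_mul, coeff_add, mul_assoc, coeff_C_mul, coeff_X_mul_zero,
    coeff_C_mul, mul_zero, zero_add]

lemma coeff_X_mul_derivative (p : ℝ[X]) (j : ℕ) :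
    (X * derivative p).coeff j = (j : ℝ) * p.coeff j := by
  cases j with
  | zero => simp
  | succ j => rw [coeff_X_mul, coeff_derivative]; push_cast; ring

lemma C_sq_add (e0 : 0 ≤ η) (e1 : η ≤ 1) :
    C (Real.sqrt η) * C (Real.sqrt η) + C (Real.sqrt (1 - η)) * C (Real.sqrt (1 - η)) = 1 := by
  rw [← map_mul, ← map_mul, ← map_add, Real.mul_self_sqrt e0,
    Real.mul_self_sqrt (sub_nonneg.2 e1), add_sub_cancel, map_one]

lemma bcf_deriv_right (e0 : 0 ≤ η) (e1 : η ≤ 1) (m l j : ℕ) :
    Real.sqrt η * ((m : ℝ) + l - j) * bcf η m l j +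
        Real.sqrt (1 - η) * ((j : ℝ) + 1) * bcf η m l (j + 1) = (l : ℝ) * bcf η m (l - 1) j := by
  have h2 := C_sq_add e0 e1
  unfold bcf
  set a := Real.sqrt η
  set b := Real.sqrt (1 - η)
  set P := C a * X - C b with hP
  set Q := C b * X + C a with hQ
  have key : C a * (C ((m : ℝ) + l) * (P ^ m * Q ^ l) - X * derivative (P ^ m * Q ^ l)) +
      C b * derivative (P ^ m * Q ^ l) = C (l : ℝ) * (P ^ m * Q ^ (l - 1)) := by
    have hdP : derivative P = C a := by simp [hP]
    have hdQ : derivative Q = C b := by simp [hQ]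
    rw [derivative_mul, derivative_pow, derivative_pow, hdP, hdQ]
    rcases m with _ | m <;> rcases l with _ | l <;> push_cast <;>
      simp only [map_add, map_one, map_zero, hP, hQ, pow_succ, pow_zero]
    · ring
    · linear_combination ((C (l : ℝ) + 1) * (C b * X + C a) ^ l) * h2
    · ring
    · linear_combination ((C (l : ℝ) + 1) * ((C a * X - C b) ^ m * (C a * X - C b)) *
        (C b * X + C a) ^ l) * h2
  have := congrArg (fun p : ℝ[X] => p.coeff j) key
  simp only [coeff_add, coeff_C_mul, coeff_sub, coeff_X_mul_derivative, coeff_derivative] at this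
  linear_combination this

lemma bcf_deriv_left (e0 : 0 ≤ η) (e1 : η ≤ 1) (m l j : ℕ) :
    Real.sqrt η * ((j : ℝ) + 1) * bcf η m l (j + 1) -
        Real.sqrt (1 - η) * ((m : ℝ) + l - j) * bcf η m l j = (m : ℝ) * bcf η (m - 1) l j := by
  have h2 := C_sq_add e0 e1
  unfold bcf
  set a := Real.sqrt η
  set b := Real.sqrt (1 - η)
  set P := C a * X - C b with hP
  set Q := C b * X + C a with hQ
  have key : C a * derivative (P ^ m * Q ^ l) -
      C b * (C ((m : ℝ) + l) * (P ^ m * Q ^ l) - X * derivative (P ^ m * Q ^ l)) =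
        C (m : ℝ) * (P ^ (m - 1) * Q ^ l) := by
    have hdP : derivative P = C a := by simp [hP]
    have hdQ : derivative Q = C b := by simp [hQ]
    rw [derivative_mul, derivative_pow, derivative_pow, hdP, hdQ]
    rcases m with _ | m <;> rcases l with _ | l <;> push_cast <;>
      simp only [map_add, map_one, map_zero, hP, hQ, pow_succ, pow_zero]
    · ring
    · ring
    · linear_combination ((C (m : ℝ) + 1) * (C a * X - C b) ^ m) * h2
    · linear_combination ((C (m : ℝ) + 1) * ((C b * X + C a) ^ l * (C b * X + C a)) *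
        (C a * X - C b) ^ m) * h2
  have := congrArg (fun p : ℝ[X] => p.coeff j) key
  simp only [coeff_sub, coeff_C_mul, coeff_X_mul_derivative, coeff_derivative] at this
  linear_combination this

lemma kerN_mul_factorial (η : ℝ) {m l k : ℕ} (h : k ≤ m + l) :
    kerN η m l k * ((m.factorial : ℝ) * l.factorial) =
      (k.factorial : ℝ) * (m + l - k).factorial * bcf η m l k ^ 2 := by
  rw [kerN, amp, if_pos (by omega), mul_pow, Real.sq_sqrt (by positivity)]
  unfold bcf
  field_simp

/-! ### The recurrence -/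

/-- Value at the vacuum. -/
lemma kerN_zero_zero (η : ℝ) (k : ℕ) : kerN η 0 0 k = if k = 0 then 1 else 0 := by
  rcases k with _ | k
  · simp [kerN, amp]
  · rw [kerN_high (by omega), if_neg (by omega)]

lemma kerN_nonneg (η : ℝ) (m l k : ℕ) : 0 ≤ kerN η m l k := sq_nonneg _

lemma two_step_identity {η a b m l k e u A α α' β β' : ℝ} (ha : a * a = η) (hb : b * b = 1 - η)
    (hn : m + l = k + e) (hpos : 0 < m + l) (hu1 : u = a * α - b * α') (hu2 : u = b * β + a * β')
    (hA1 : l * A = b * k * α' + a * e * α) (hA2 : m * A = a * k * β' - b * e * β) :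
    k * e * u ^ 2 + m * l * A ^ 2 =
      (1 - η) * (m * k * α' ^ 2 + l * e * β ^ 2) + η * (l * k * β' ^ 2 + m * e * α ^ 2) := by
  have h1 : k * e * u ^ 2 + (l * A) ^ 2 = (k + e) * (e * η * α ^ 2 + k * (1 - η) * α' ^ 2) := by
    rw [hA1, hu1, ← hb, ← ha]; ring
  have h2 : k * e * u ^ 2 + (m * A) ^ 2 = (k + e) * (k * η * β' ^ 2 + e * (1 - η) * β ^ 2) := by
    rw [hA2, hu2, ← hb, ← ha]; ring
  rw [← hn] at h1 h2
  refine mul_left_cancel₀ hpos.ne' ?_
  linear_combination m * h1 + l * h2

lemma kerN_rec (e0 : 0 ≤ η) (e1 : η ≤ 1) (m l k : ℕ) :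
    kerN η (m + 1) (l + 1) (k + 1) + kerN η m l k =
      (1 - η) * (kerN η m (l + 1) (k + 1) + kerN η (m + 1) l k) +
        η * (kerN η (m + 1) l (k + 1) + kerN η m (l + 1) k) := by
  rcases lt_trichotomy (k + 1) (m + l + 2) with h | h | h
  · obtain ⟨e, he⟩ : ∃ e, m + l = k + e := ⟨m + l - k, by omega⟩
    have hid := two_step_identity (a := Real.sqrt η) (b := Real.sqrt (1 - η))
      (m := ((m : ℝ) + 1)) (l := ((l : ℝ) + 1)) (k := ((k : ℝ) + 1)) (e := ((e : ℝ) + 1))
      (A := bcf η m l k)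
      (Real.mul_self_sqrt e0) (Real.mul_self_sqrt (sub_nonneg.2 e1))
      (by have : (m : ℝ) + l = k + e := by exact_mod_cast he
          linarith) (by positivity) (bcf_succ_left m (l + 1) k) (bcf_succ_right (m + 1) l k)
      (by have := bcf_deriv_right e0 e1 m (l + 1) k
          simp only [Nat.add_sub_cancel] at this
          push_cast at this
          have h' : (m : ℝ) + l = k + e := by exact_mod_cast he
          linear_combination -this + (Real.sqrt η * bcf η m (l + 1) k) * h')
      (by have := bcf_deriv_left e0 e1 (m + 1) l k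
          simp only [Nat.add_sub_cancel] at this
          push_cast at this
          have h' : (m : ℝ) + l = k + e := by exact_mod_cast he
          linear_combination -this - (Real.sqrt (1 - η) * bcf η (m + 1) l k) * h')
    have d1 := kerN_mul_factorial η (m := m + 1) (l := l + 1) (k := k + 1) (by omega)
    have d2 := kerN_mul_factorial η (m := m) (l := l) (k := k) (by omega)
    have d3 := kerN_mul_factorial η (m := m) (l := l + 1) (k := k + 1) (by omega)
    have d4 := kerN_mul_factorial η (m := m + 1) (l := l) (k := k) (by omega)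
    have d5 := kerN_mul_factorial η (m := m + 1) (l := l) (k := k + 1) (by omega)
    have d6 := kerN_mul_factorial η (m := m) (l := l + 1) (k := k) (by omega)
    rw [show m + 1 + (l + 1) - (k + 1) = e + 1 by omega] at d1
    rw [show m + l - k = e by omega] at d2
    rw [show m + (l + 1) - (k + 1) = e by omega] at d3
    rw [show m + 1 + l - k = e + 1 by omega] at d4
    rw [show m + 1 + l - (k + 1) = e by omega] at d5
    rw [show m + (l + 1) - k = e + 1 by omega] at d6
    simp only [Nat.factorial_succ, Nat.cast_mul, Nat.cast_add, Nat.cast_one] at d1 d2 d3 d4 d5 d6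
    refine mul_right_cancel₀ (show ((m : ℝ) + 1) * m.factorial * (((l : ℝ) + 1) * l.factorial) ≠ 0
      by positivity) ?_
    linear_combination d1 + ((m : ℝ) + 1) * ((l : ℝ) + 1) * d2
      - (1 - η) * ((m : ℝ) + 1) * d3 - (1 - η) * ((l : ℝ) + 1) * d4
      - η * ((l : ℝ) + 1) * d5 - η * ((m : ℝ) + 1) * d6
      + ((k.factorial : ℝ) * e.factorial) * hid
  · rw [kerN_high (show m + l < k by omega), kerN_high (show m + (l + 1) < k + 1 by omega),
      kerN_high (show m + 1 + l < k + 1 by omega)]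
    have d1 := kerN_mul_factorial η (m := m + 1) (l := l + 1) (k := k + 1) (by omega)
    have d4 := kerN_mul_factorial η (m := m + 1) (l := l) (k := k) (by omega)
    have d6 := kerN_mul_factorial η (m := m) (l := l + 1) (k := k) (by omega)
    rw [show m + 1 + (l + 1) - (k + 1) = 0 by omega] at d1
    rw [show m + 1 + l - k = 0 by omega] at d4
    rw [show m + (l + 1) - k = 0 by omega] at d6
    simp only [Nat.factorial_succ, Nat.factorial_zero, Nat.cast_mul, Nat.cast_add,
      Nat.cast_one] at d1 d4 d6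
    have hu1 := bcf_succ_left (η := η) m (l + 1) k
    have hu2 := bcf_succ_right (η := η) (m + 1) l k
    rw [bcf_high (show m + (l + 1) < k + 1 by omega)] at hu1
    rw [bcf_high (show m + 1 + l < k + 1 by omega)] at hu2
    have hk : (k : ℝ) = m + l + 1 := by exact_mod_cast (show k = m + l + 1 by omega)
    have hid : ((k : ℝ) + 1) * bcf η (m + 1) (l + 1) (k + 1) ^ 2 =
        (1 - η) * ((l : ℝ) + 1) * bcf η (m + 1) l k ^ 2 +
          η * ((m : ℝ) + 1) * bcf η m (l + 1) k ^ 2 := by
      rw [show (k : ℝ) + 1 = ((m : ℝ) + 1) + ((l : ℝ) + 1) by rw [hk]; ring, add_mul]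
      nth_rewrite 1 [hu1]
      rw [hu2]
      linear_combination
        ((m : ℝ) + 1) * bcf η m (l + 1) k ^ 2 * Real.mul_self_sqrt e0 +
        ((l : ℝ) + 1) * bcf η (m + 1) l k ^ 2 * Real.mul_self_sqrt (sub_nonneg.2 e1)
    refine mul_right_cancel₀ (show ((m : ℝ) + 1) * m.factorial * (((l : ℝ) + 1) * l.factorial) ≠ 0
      by positivity) ?_
    linear_combination d1 - (1 - η) * ((l : ℝ) + 1) * d4 - η * ((m : ℝ) + 1) * d6
      + (k.factorial : ℝ) * hid
  · rw [kerN_high (show m + 1 + (l + 1) < k + 1 by omega), kerN_high (show m + l < k by omega),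
      kerN_high (show m + (l + 1) < k + 1 by omega), kerN_high (show m + 1 + l < k by omega),
      kerN_high (show m + 1 + l < k + 1 by omega), kerN_high (show m + (l + 1) < k by omega)]
    ring

lemma kerN_rec_zero (e0 : 0 ≤ η) (e1 : η ≤ 1) (m l : ℕ) :
    kerN η (m + 1) (l + 1) 0 = (1 - η) * kerN η m (l + 1) 0 + η * kerN η (m + 1) l 0 := by
  have d1 := kerN_mul_factorial η (m := m + 1) (l := l + 1) (Nat.zero_le _)
  have d3 := kerN_mul_factorial η (m := m) (l := l + 1) (Nat.zero_le _)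
  have d5 := kerN_mul_factorial η (m := m + 1) (l := l) (Nat.zero_le _)
  rw [show m + 1 + (l + 1) - 0 = (m + l + 1) + 1 by omega] at d1
  rw [show m + (l + 1) - 0 = m + l + 1 by omega] at d3
  rw [show m + 1 + l - 0 = m + l + 1 by omega] at d5
  rw [Nat.factorial_succ (m + l + 1)] at d1
  simp only [Nat.factorial_succ m, Nat.factorial_succ l, Nat.factorial_zero, Nat.cast_mul,
    Nat.cast_add, Nat.cast_one] at d1 d3 d5
  have hu1 := bcf_succ_left_zero (η := η) m (l + 1)
  have hu2 := bcf_succ_right_zero (η := η) (m + 1) l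
  have hid : ((m : ℝ) + l + 2) * bcf η (m + 1) (l + 1) 0 ^ 2 =
      (1 - η) * ((m : ℝ) + 1) * bcf η m (l + 1) 0 ^ 2 +
        η * ((l : ℝ) + 1) * bcf η (m + 1) l 0 ^ 2 := by
    rw [show (m : ℝ) + l + 2 = ((m : ℝ) + 1) + ((l : ℝ) + 1) by ring, add_mul]
    nth_rewrite 1 [hu1]
    rw [hu2]
    linear_combination
      ((m : ℝ) + 1) * bcf η m (l + 1) 0 ^ 2 * Real.mul_self_sqrt (sub_nonneg.2 e1) +
      ((l : ℝ) + 1) * bcf η (m + 1) l 0 ^ 2 * Real.mul_self_sqrt e0
  refine mul_right_cancel₀ (show ((m : ℝ) + 1) * m.factorial * (((l : ℝ) + 1) * l.factorial) ≠ 0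
    by positivity) ?_
  linear_combination d1 - (1 - η) * ((m : ℝ) + 1) * d3 - η * ((l : ℝ) + 1) * d5
    + ((m + l + 1).factorial : ℝ) * hid

/-- One input mode empty: binomial law. -/
lemma bcf_left_empty (η : ℝ) : ∀ l k : ℕ, k ≤ l → bcf η 0 l k =
    (l.choose k : ℝ) * Real.sqrt (1 - η) ^ k * Real.sqrt η ^ (l - k) := by
  intro l
  induction l with
  | zero => intro k hk; obtain rfl : k = 0 := by omega
            simp [bcf]
  | succ l ih =>
    intro k hk
    rcases k with _ | k
    · rw [bcf_succ_right_zero, ih 0 (Nat.zero_le _)]; simp [pow_succ]; ring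
    · rw [bcf_succ_right, ih k (by omega), Nat.choose_succ_succ]
      rcases Nat.lt_or_ge l (k + 1) with h | h
      · rw [bcf_high (by omega), Nat.choose_eq_zero_of_lt h]
        rw [show l + 1 - (k + 1) = l - k by omega]
        push_cast; ring
      · rw [ih (k + 1) h, show l - k = (l - (k + 1)) + 1 by omega,
          show l + 1 - (k + 1) = (l - (k + 1)) + 1 by omega]
        push_cast; ring

lemma kerN_left_empty (e0 : 0 ≤ η) (e1 : η ≤ 1) (l k : ℕ) :
    kerN η 0 l k = (l.choose k : ℝ) * (1 - η) ^ k * η ^ (l - k) := by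
  rcases Nat.lt_or_ge l k with h | h
  · rw [kerN_high (by omega), Nat.choose_eq_zero_of_lt h]; simp
  have d := kerN_mul_factorial η (m := 0) (l := l) (k := k) (by omega)
  rw [zero_add, bcf_left_empty η l k h, Nat.factorial_zero, Nat.cast_one, one_mul, mul_pow,
    mul_pow, ← pow_mul, mul_comm k, pow_mul, Real.sq_sqrt (sub_nonneg.2 e1), ← pow_mul,
    mul_comm (l - k), pow_mul, Real.sq_sqrt e0] at d
  have hc : (l.choose k : ℝ) * k.factorial * (l - k).factorial = l.factorial := by
    exact_mod_cast Nat.choose_mul_factorial_mul_factorial h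
  refine mul_right_cancel₀ (show (l.factorial : ℝ) ≠ 0 by positivity) ?_
  linear_combination d + (l.choose k : ℝ) * (1 - η) ^ k * η ^ (l - k) * hc

lemma bcf_right_empty (η : ℝ) : ∀ m k : ℕ, k ≤ m → bcf η m 0 k =
    (m.choose k : ℝ) * Real.sqrt η ^ k * (-Real.sqrt (1 - η)) ^ (m - k) := by
  intro m
  induction m with
  | zero => intro k hk; obtain rfl : k = 0 := by omega
            simp [bcf]
  | succ m ih =>
    intro k hk
    rcases k with _ | k
    · rw [bcf_succ_left_zero, ih 0 (Nat.zero_le _)]; simp [pow_succ]; ring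
    · rw [bcf_succ_left, ih k (by omega), Nat.choose_succ_succ]
      rcases Nat.lt_or_ge m (k + 1) with h | h
      · rw [bcf_high (by omega), Nat.choose_eq_zero_of_lt h]
        rw [show m + 1 - (k + 1) = m - k by omega]
        push_cast; ring
      · rw [ih (k + 1) h, show m - k = (m - (k + 1)) + 1 by omega,
          show m + 1 - (k + 1) = (m - (k + 1)) + 1 by omega]
        push_cast; ring

lemma kerN_right_empty (e0 : 0 ≤ η) (e1 : η ≤ 1) (m k : ℕ) :
    kerN η m 0 k = (m.choose k : ℝ) * η ^ k * (1 - η) ^ (m - k) := by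
  rcases Nat.lt_or_ge m k with h | h
  · rw [kerN_high (by omega), Nat.choose_eq_zero_of_lt h]; simp
  have d := kerN_mul_factorial η (m := m) (l := 0) (k := k) (by omega)
  rw [add_zero, bcf_right_empty η m k h, Nat.factorial_zero, Nat.cast_one, mul_one, mul_pow,
    mul_pow, ← pow_mul, mul_comm k, pow_mul, Real.sq_sqrt e0, ← pow_mul,
    mul_comm (m - k), pow_mul, neg_sq, Real.sq_sqrt (sub_nonneg.2 e1)] at d
  have hc : (m.choose k : ℝ) * k.factorial * (m - k).factorial = m.factorial := by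
    exact_mod_cast Nat.choose_mul_factorial_mul_factorial h
  refine mul_right_cancel₀ (show (m.factorial : ℝ) ≠ 0 by positivity) ?_
  linear_combination d + (m.choose k : ℝ) * η ^ k * (1 - η) ^ (m - k) * hc

lemma kerN_rec_left (e0 : 0 ≤ η) (e1 : η ≤ 1) (l k : ℕ) :
    kerN η 0 (l + 1) (k + 1) = (1 - η) * kerN η 0 l k + η * kerN η 0 l (k + 1) := by
  simp only [kerN_left_empty e0 e1, Nat.choose_succ_succ]
  rcases Nat.lt_or_ge l (k + 1) with h | h
  · rw [Nat.choose_eq_zero_of_lt h, show l + 1 - (k + 1) = l - k by omega]; push_cast; ring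
  · rw [show l - k = (l - (k + 1)) + 1 by omega,
      show l + 1 - (k + 1) = (l - (k + 1)) + 1 by omega]
    push_cast; ring

lemma kerN_rec_left_zero (e0 : 0 ≤ η) (e1 : η ≤ 1) (l : ℕ) :
    kerN η 0 (l + 1) 0 = η * kerN η 0 l 0 := by
  simp [kerN_left_empty e0 e1, pow_succ, mul_comm]

lemma kerN_rec_right (e0 : 0 ≤ η) (e1 : η ≤ 1) (m k : ℕ) :
    kerN η (m + 1) 0 (k + 1) = (1 - η) * kerN η m 0 (k + 1) + η * kerN η m 0 k := by
  simp only [kerN_right_empty e0 e1, Nat.choose_succ_succ]
  rcases Nat.lt_or_ge m (k + 1) with h | h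
  · rw [Nat.choose_eq_zero_of_lt h, show m + 1 - (k + 1) = m - k by omega]; push_cast; ring
  · rw [show m - k = (m - (k + 1)) + 1 by omega,
      show m + 1 - (k + 1) = (m - (k + 1)) + 1 by omega]
    push_cast; ring

lemma kerN_rec_right_zero (e0 : 0 ≤ η) (e1 : η ≤ 1) (m : ℕ) :
    kerN η (m + 1) 0 0 = (1 - η) * kerN η m 0 0 := by
  simp [kerN_right_empty e0 e1, pow_succ, mul_comm]

/-- Exchanging the inputs exchanges `η` and `1 - η`. -/
lemma kerN_symm (e0 : 0 ≤ η) (e1 : η ≤ 1) :
    ∀ m l k : ℕ, kerN η m l k = kerN (1 - η) l m k := by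
  have f0 : (0 : ℝ) ≤ 1 - η := sub_nonneg.2 e1
  have f1 : 1 - η ≤ 1 := by linarith
  intro m
  induction m with
  | zero => intro l k; rw [kerN_left_empty e0 e1, kerN_right_empty f0 f1, sub_sub_cancel]
  | succ m ihm =>
    intro l
    induction l with
    | zero => intro k; rw [kerN_right_empty e0 e1, kerN_left_empty f0 f1, sub_sub_cancel]
    | succ l ihl =>
      intro k
      rcases k with _ | k
      · rw [kerN_rec_zero e0 e1, kerN_rec_zero f0 f1, ihm, ihl, sub_sub_cancel]; ring
      · have h1 := kerN_rec e0 e1 m l k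
        have h2 := kerN_rec f0 f1 l m k
        rw [sub_sub_cancel] at h2
        rw [ihm l k, ihm (l + 1) (k + 1), ihl k, ihl (k + 1), ihm (l + 1) k] at h1
        linear_combination h1 - h2

/-! ### Mass and mean -/

lemma sum_kerN_split (f : ℕ → ℝ) (η : ℝ) (m l N : ℕ) :
    ∑ k ∈ range (N + 1), f k * kerN η m l k =
      f 0 * kerN η m l 0 + ∑ k ∈ range N, f (k + 1) * kerN η m l (k + 1) := by
  rw [sum_range_succ' (fun k => f k * kerN η m l k) N]; ring

lemma sum_kerN_left_succ (e0 : 0 ≤ η) (e1 : η ≤ 1) (f : ℕ → ℝ) (l N : ℕ) :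
    ∑ k ∈ range (N + 1), f k * kerN η 0 (l + 1) k =
      η * ∑ k ∈ range (N + 1), f k * kerN η 0 l k +
        (1 - η) * ∑ k ∈ range N, f (k + 1) * kerN η 0 l k := by
  rw [sum_kerN_split, sum_kerN_split, kerN_rec_left_zero e0 e1, mul_add, mul_sum, mul_sum,
    add_assoc, ← sum_add_distrib]
  refine congrArg₂ (· + ·) (by ring) (sum_congr rfl fun k _ => ?_)
  rw [kerN_rec_left e0 e1]; ring

lemma sum_kerN_right_succ (e0 : 0 ≤ η) (e1 : η ≤ 1) (f : ℕ → ℝ) (m N : ℕ) :
    ∑ k ∈ range (N + 1), f k * kerN η (m + 1) 0 k =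
      (1 - η) * ∑ k ∈ range (N + 1), f k * kerN η m 0 k +
        η * ∑ k ∈ range N, f (k + 1) * kerN η m 0 k := by
  rw [sum_kerN_split, sum_kerN_split, kerN_rec_right_zero e0 e1, mul_add, mul_sum, mul_sum,
    add_assoc, ← sum_add_distrib]
  refine congrArg₂ (· + ·) (by ring) (sum_congr rfl fun k _ => ?_)
  rw [kerN_rec_right e0 e1]; ring

lemma sum_kerN_succ (e0 : 0 ≤ η) (e1 : η ≤ 1) (f : ℕ → ℝ) (m l N : ℕ) :
    ∑ k ∈ range (N + 1), f k * kerN η (m + 1) (l + 1) k +
        ∑ k ∈ range N, f (k + 1) * kerN η m l k =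
      (1 - η) * (∑ k ∈ range (N + 1), f k * kerN η m (l + 1) k +
          ∑ k ∈ range N, f (k + 1) * kerN η (m + 1) l k) +
        η * (∑ k ∈ range (N + 1), f k * kerN η (m + 1) l k +
          ∑ k ∈ range N, f (k + 1) * kerN η m (l + 1) k) := by
  have key : ∑ k ∈ range N, (f (k + 1) * kerN η (m + 1) (l + 1) (k + 1) +
        f (k + 1) * kerN η m l k) =
      ∑ k ∈ range N, ((1 - η) * (f (k + 1) * kerN η m (l + 1) (k + 1) +
          f (k + 1) * kerN η (m + 1) l k) +
        η * (f (k + 1) * kerN η (m + 1) l (k + 1) + f (k + 1) * kerN η m (l + 1) k)) :=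
    sum_congr rfl fun k _ => by linear_combination f (k + 1) * kerN_rec e0 e1 m l k
  simp only [sum_add_distrib, ← mul_sum] at key
  rw [sum_kerN_split, sum_kerN_split f η m (l + 1), sum_kerN_split f η (m + 1) l]
  linear_combination key + f 0 * kerN_rec_zero e0 e1 m l

/-- Total mass one and mean `η m + (1 - η) l`. -/
lemma sum_kerN_moments (e0 : 0 ≤ η) (e1 : η ≤ 1) : ∀ m l N : ℕ, m + l < N →
    (∑ k ∈ range N, kerN η m l k = 1) ∧
      ∑ k ∈ range N, (k : ℝ) * kerN η m l k = η * m + (1 - η) * l := by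
  have shift : ∀ m l N : ℕ, ∑ k ∈ range N, ((k + 1 : ℕ) : ℝ) * kerN η m l k =
      ∑ k ∈ range N, (k : ℝ) * kerN η m l k + ∑ k ∈ range N, kerN η m l k := fun m l N => by
    rw [← sum_add_distrib]; exact sum_congr rfl fun k _ => by push_cast; ring
  intro m
  induction m with
  | zero =>
    intro l
    induction l with
    | zero =>
      intro N hN
      obtain ⟨N, rfl⟩ : ∃ N', N = N' + 1 := ⟨N - 1, by omega⟩
      simp [kerN_zero_zero]
    | succ l ih =>
      intro N hN
      obtain ⟨N, rfl⟩ : ∃ N', N = N' + 1 := ⟨N - 1, by omega⟩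
      obtain ⟨a1, a2⟩ := ih (N + 1) (by omega)
      obtain ⟨b1, b2⟩ := ih N (by omega)
      have h1 := sum_kerN_left_succ e0 e1 (fun _ => 1) l N
      have h2 := sum_kerN_left_succ e0 e1 (fun k => (k : ℝ)) l N
      simp only [one_mul] at h1
      simp only [shift] at h2
      rw [a1, b1] at h1
      rw [a2, b1, b2] at h2
      refine ⟨by linear_combination h1, ?_⟩
      push_cast at h2 ⊢
      linear_combination h2
  | succ m ihm =>
    intro l
    induction l with
    | zero =>
      intro N hN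
      obtain ⟨N, rfl⟩ : ∃ N', N = N' + 1 := ⟨N - 1, by omega⟩
      obtain ⟨a1, a2⟩ := ihm 0 (N + 1) (by omega)
      obtain ⟨b1, b2⟩ := ihm 0 N (by omega)
      have h1 := sum_kerN_right_succ e0 e1 (fun _ => 1) m N
      have h2 := sum_kerN_right_succ e0 e1 (fun k => (k : ℝ)) m N
      simp only [one_mul] at h1
      simp only [shift] at h2
      rw [a1, b1] at h1
      rw [a2, b1, b2] at h2
      refine ⟨by linear_combination h1, ?_⟩
      push_cast at h2 ⊢
      linear_combination h2
    | succ l ihl =>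
      intro N hN
      obtain ⟨N, rfl⟩ : ∃ N', N = N' + 1 := ⟨N - 1, by omega⟩
      obtain ⟨a1, a2⟩ := ihm (l + 1) (N + 1) (by omega)
      obtain ⟨b1, b2⟩ := ihl (N + 1) (by omega)
      obtain ⟨c1, c2⟩ := ihm l N (by omega)
      obtain ⟨d1, d2⟩ := ihl N (by omega)
      obtain ⟨g1, g2⟩ := ihm (l + 1) N (by omega)
      have h1 := sum_kerN_succ e0 e1 (fun _ => 1) m l N
      have h2 := sum_kerN_succ e0 e1 (fun k => (k : ℝ)) m l N
      simp only [one_mul] at h1
      simp only [shift] at h2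
      rw [a1, b1, c1, d1, g1] at h1
      rw [a2, b2, c1, c2, d1, d2, g1, g2] at h2
      refine ⟨by linear_combination h1, ?_⟩
      push_cast at h2 ⊢
      linear_combination h2

lemma sum_kerN (e0 : 0 ≤ η) (e1 : η ≤ 1) {m l N : ℕ} (h : m + l < N) :
    ∑ k ∈ range N, kerN η m l k = 1 := (sum_kerN_moments e0 e1 m l N h).1

lemma sum_mul_kerN (e0 : 0 ≤ η) (e1 : η ≤ 1) {m l N : ℕ} (h : m + l < N) :
    ∑ k ∈ range N, (k : ℝ) * kerN η m l k = η * m + (1 - η) * l :=
  (sum_kerN_moments e0 e1 m l N h).2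

lemma hasSum_kerN (e0 : 0 ≤ η) (e1 : η ≤ 1) (m l : ℕ) : HasSum (kerN η m l) 1 := by
  have h : HasSum (kerN η m l) (∑ k ∈ range (m + l + 1), kerN η m l k) :=
    hasSum_sum_of_ne_finset_zero fun k hk => kerN_high (by rw [Finset.mem_range] at hk; omega)
  rwa [sum_kerN e0 e1 (Nat.lt_succ_self _)] at h

lemma hasSum_mul_kerN (e0 : 0 ≤ η) (e1 : η ≤ 1) (m l : ℕ) :
    HasSum (fun k : ℕ => (k : ℝ) * kerN η m l k) (η * m + (1 - η) * l) := by
  have h : HasSum (fun k : ℕ => (k : ℝ) * kerN η m l k)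
      (∑ k ∈ range (m + l + 1), (k : ℝ) * kerN η m l k) :=
    hasSum_sum_of_ne_finset_zero fun k hk => by rw [kerN_high (by rw [Finset.mem_range] at hk; omega), mul_zero]
  rwa [sum_mul_kerN e0 e1 (Nat.lt_succ_self _)] at h

lemma kerN_le_one (e0 : 0 ≤ η) (e1 : η ≤ 1) (m l k : ℕ) : kerN η m l k ≤ 1 :=
  le_hasSum (hasSum_kerN e0 e1 m l) k fun j _ => kerN_nonneg η m l j

/-! ### The key identity and box positivity -/

/-- The two-sided sum identity. -/
lemma bs_key (e0 : 0 ≤ η) (e1 : η ≤ 1) (k : ℕ) : ∀ l m : ℕ,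
    η * ∑ j ∈ range (m + 1), bD η j l k + (1 - η) * ∑ i ∈ range l, bD η m i k =
      η * kerN η m l k + (1 - η) * kerN η m l (k + 1) := by
  intro l
  induction l with
  | zero =>
    intro m
    induction m with
    | zero => simp [bD, kerN_zero_zero]
    | succ m ih =>
      simp only [Finset.range_zero, Finset.sum_empty, mul_zero, add_zero] at ih ⊢
      rw [sum_range_succ, mul_add, ih, bD]
      linear_combination (-1) * kerN_rec_right e0 e1 m k
  | succ l ihl =>
    intro m
    induction m with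
    | zero =>
      have h := ihl 0
      simp only [zero_add, sum_range_one, bD] at h ⊢
      simp only [sum_range_succ (fun i => kerN η 0 i k - kerN η 0 i (k + 1)), mul_add]
      linear_combination h - kerN_rec_left e0 e1 l k
    | succ m ihm =>
      have hl0 := ihl (m + 1)
      have hl1 := ihl m
      simp only [bD, sum_range_succ _ (m + 1), sum_range_succ _ l, mul_add] at ihm hl0 hl1 ⊢
      linear_combination ihm + hl0 - hl1 - kerN_rec e0 e1 m l k

/-- Box sums of the drops. -/
noncomputable def boxSum (η : ℝ) (M N k : ℕ) : ℝ :=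
  ∑ j ∈ range M, ∑ i ∈ range N, bD η j i k

lemma boxSum_succ (e0 : 0 ≤ η) (e1 : η ≤ 1) (m l k : ℕ) :
    boxSum η (m + 1) (l + 1) k =
      kerN η m l k + (1 - η) * boxSum η m (l + 1) k + η * boxSum η (m + 1) l k := by
  have h := bs_key e0 e1 k l m
  rw [sum_range_succ] at h
  simp only [boxSum, sum_range_succ _ l, sum_add_distrib, sum_range_succ _ m]
  simp only [bD] at h ⊢
  linear_combination h

/-- Box sums of the drops are nonnegative. -/
lemma bs_box_nonneg (e0 : 0 ≤ η) (e1 : η ≤ 1) (k : ℕ) : ∀ M N : ℕ, 0 ≤ boxSum η M N k := by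
  intro M
  induction M with
  | zero => simp [boxSum]
  | succ M ihM =>
    intro N
    induction N with
    | zero => simp [boxSum]
    | succ N ihN =>
      rw [boxSum_succ e0 e1]
      have h1 : (0 : ℝ) ≤ (1 - η) * boxSum η M (N + 1) k :=
        mul_nonneg (sub_nonneg.2 e1) (ihM _)
      have h2 : (0 : ℝ) ≤ η * boxSum η (M + 1) N k := mul_nonneg e0 ihN
      linarith [kerN_nonneg η M N k]

lemma abs_bD_le (e0 : 0 ≤ η) (e1 : η ≤ 1) (m l k : ℕ) : |bD η m l k| ≤ 1 := by
  rw [bD, abs_sub_le_iff]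
  constructor <;> linarith [kerN_nonneg η m l k, kerN_nonneg η m l (k + 1),
    kerN_le_one e0 e1 m l k, kerN_le_one e0 e1 m l (k + 1)]

lemma summable_mul_sum_bD (e0 : 0 ≤ η) (e1 : η ≤ 1) {q : ℕ → ℝ} (hq : Summable q)
    (m k : ℕ) : Summable fun l => q l * ∑ j ∈ range (m + 1), bD η j l k := by
  refine Summable.of_norm_bounded (hq.abs.mul_right ((m : ℝ) + 1)) fun l => ?_
  rw [Real.norm_eq_abs, abs_mul]
  gcongr
  refine (abs_sum_le_sum_abs _ _).trans ?_
  calc _ ≤ ∑ _j ∈ range (m + 1), (1 : ℝ) := sum_le_sum fun j _ => abs_bD_le e0 e1 j l k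
    _ = (m : ℝ) + 1 := by simp

/-- Averaged against a nonincreasing weight the cumulative drops are nonnegative. -/
lemma tsum_mul_sum_bD_nonneg (e0 : 0 ≤ η) (e1 : η ≤ 1) {q : ℕ → ℝ} (hanti : Antitone q)
    (hq0 : ∀ l, 0 ≤ q l) (hq : Summable q) (m k : ℕ) :
    0 ≤ ∑' l, q l * ∑ j ∈ range (m + 1), bD η j l k := by
  have habel : ∀ (s : ℕ → ℝ) (N : ℕ), ∑ l ∈ range N, q l * s l =
      ∑ l ∈ range N, (q l - q (l + 1)) * (∑ i ∈ range (l + 1), s i) +
        q N * ∑ i ∈ range N, s i := by
    intro s N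
    induction N with
    | zero => simp
    | succ N ih =>
      rw [sum_range_succ (fun l => q l * s l), ih,
        sum_range_succ (fun l => (q l - q (l + 1)) * ∑ i ∈ range (l + 1), s i), sum_range_succ s]
      ring
  have hbox : ∀ N, 0 ≤ ∑ i ∈ range N, ∑ j ∈ range (m + 1), bD η j i k := fun N => by
    rw [sum_comm]; exact bs_box_nonneg e0 e1 k (m + 1) N
  refine ge_of_tendsto (summable_mul_sum_bD e0 e1 hq m k).hasSum.tendsto_sum_nat
    (Filter.Eventually.of_forall fun N => ?_)
  rw [habel]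
  exact add_nonneg (sum_nonneg fun l _ => mul_nonneg (sub_nonneg.2 (hanti (Nat.le_succ l)))
    (hbox _)) (mul_nonneg (hq0 N) (hbox N))

/-- The weights `k + 1` sum the cumulative drops to the number of terms. -/
lemma hasSum_succ_mul_sum_bD (e0 : 0 ≤ η) (e1 : η ≤ 1) (m l : ℕ) :
    HasSum (fun k : ℕ => ((k : ℝ) + 1) * ∑ j ∈ range (m + 1), bD η j l k) ((m : ℝ) + 1) := by
  have tel : ∀ j N, ∑ k ∈ range N, (((k : ℕ) : ℝ) + 1) * bD η j l k =
      (∑ k ∈ range N, kerN η j l k) - N * kerN η j l N := by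
    intro j N
    induction N with
    | zero => simp
    | succ N ih => rw [sum_range_succ, ih, sum_range_succ, bD]; push_cast; ring
  have hj : ∀ j, HasSum (fun k : ℕ => ((k : ℝ) + 1) * bD η j l k) 1 := by
    intro j
    have h : HasSum (fun k : ℕ => ((k : ℝ) + 1) * bD η j l k)
        (∑ k ∈ range (j + l + 1), ((k : ℝ) + 1) * bD η j l k) :=
      hasSum_sum_of_ne_finset_zero fun k hk => by
        rw [Finset.mem_range] at hk
        rw [bD, kerN_high (by omega), kerN_high (by omega), sub_zero, mul_zero]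
    rwa [tel, sum_kerN e0 e1 (Nat.lt_succ_self _), kerN_high (Nat.lt_succ_self _), mul_zero,
      sub_zero] at h
  simpa [mul_sum] using hasSum_sum (s := range (m + 1)) fun j _ => hj j

end Vale.Agent.P369.Diag
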