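import Vale.Agent.P369.Diag.Defs

/-!
Cauchy-Schwarz bounds for pushed-forward nearest-neighbour differences of a coordinatewise
decreasing weight on a finite box.
-/

namespace Vale.Agent.P369.Diag

open Finset

/-- The box of photon numbers below `R`. -/
def box (n R : ℕ) : Finset (Fin n → ℕ) := Fintype.piFinset fun _ => range R

theorem mem_box {n R : ℕ} {m : Fin n → ℕ} : m ∈ box n R ↔ ∀ i, m i < R := by
  simp [box, Fintype.mem_piFinset]

/-- `p` vanishes outside the box. -/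
def InBox {n : ℕ} (R : ℕ) (p : (Fin n → ℕ) → ℝ) : Prop := ∀ m, m ∉ box n R → p m = 0

/-- One edge term of the Fisher information. -/
noncomputable def fterm {n : ℕ} (p : (Fin n → ℕ) → ℝ) (lam : ℝ) (i : Fin n) (k : Fin n → ℕ) : ℝ :=
  ((k i : ℝ) + 1) * (p k - p (up i k)) ^ 2 / den p lam i k

/-- Fisher information restricted to a box. -/
noncomputable def bfish {n : ℕ} (R : ℕ) (p : (Fin n → ℕ) → ℝ) (lam : ℝ) : ℝ :=
  ∑ i, ∑ k ∈ box n R, fterm p lam i k

/-- Cumulative sum up to and including the coordinate value. -/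
def cumLe {n : ℕ} (i : Fin n) (f : (Fin n → ℕ) → ℝ) (m : Fin n → ℕ) : ℝ :=
  ∑ s ∈ range (m i + 1), f (Function.update m i s)

/-- Cumulative sum strictly below the coordinate value. -/
def cumLt {n : ℕ} (i : Fin n) (f : (Fin n → ℕ) → ℝ) (m : Fin n → ℕ) : ℝ :=
  ∑ s ∈ range (m i), f (Function.update m i s)

theorem cumLe_eq {n : ℕ} (i : Fin n) (f : (Fin n → ℕ) → ℝ) (m : Fin n → ℕ) :
    cumLe i f m = cumLt i f m + f m := by
  simp [cumLe, cumLt, sum_range_succ, Function.update_eq_self]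

theorem cumLt_up {n : ℕ} (i : Fin n) (f : (Fin n → ℕ) → ℝ) (m : Fin n → ℕ) :
    cumLt i f (up i m) = cumLe i f m := by
  simp [cumLe, cumLt, up, Function.update_idem]

theorem sum_up_mul {n R : ℕ} (i : Fin n) (p f : (Fin n → ℕ) → ℝ) (hp : InBox R p) :
    ∑ m ∈ box n R, p (up i m) * cumLe i f m = ∑ m ∈ box n R, p m * cumLt i f m := by
  have h0 : ∀ m, p (up i m) * cumLe i f m = p (up i m) * cumLt i f (up i m) :=
    fun m => by rw [cumLt_up]
  rw [sum_congr rfl fun m _ => h0 m]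
  have inj : Function.Injective (up i) := by
    intro a b h
    funext j
    have hj := congrFun h j
    by_cases hji : j = i
    · subst hji; simpa [up] using hj
    · simpa [up, Function.update_of_ne hji] using hj
  rw [← sum_image (f := fun m => p m * cumLt i f m) inj.injOn]
  apply sum_congr_of_eq_on_inter
  · intro m _ hm; rw [hp m hm, zero_mul]
  · intro m hm hm'
    by_cases h : m i = 0
    · simp [cumLt, h]
    · exfalso
      refine hm' (mem_image.2 ⟨Function.update m i (m i - 1), mem_box.2 fun j => ?_, ?_⟩)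
      · have := mem_box.1 hm j
        by_cases hji : j = i
        · subst hji; simp only [Function.update_self]; omega
        · simpa [Function.update_of_ne hji] using this
      · funext j
        by_cases hji : j = i
        · subst hji; simp [up]; omega
        · simp [up, Function.update_of_ne hji]
  · intro m _ _; rfl

theorem abel {n R : ℕ} (i : Fin n) (p f : (Fin n → ℕ) → ℝ) (hp : InBox R p) :
    ∑ m ∈ box n R, (p m - p (up i m)) * cumLe i f m = ∑ m ∈ box n R, p m * f m := by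
  simp only [sub_mul, sum_sub_distrib]
  rw [sum_up_mul i p f hp]
  simp only [cumLe_eq, mul_add, sum_add_distrib]
  ring

theorem sum_mul_den {n R : ℕ} (i : Fin n) (p f : (Fin n → ℕ) → ℝ) (hp : InBox R p) (a : ℝ) :
    ∑ m ∈ box n R, cumLe i f m * den p a i m =
      a * (∑ m ∈ box n R, p m * f m) + ∑ m ∈ box n R, p m * cumLt i f m := by
  rw [← abel i p f hp, ← sum_up_mul i p f hp, mul_sum, ← sum_add_distrib]
  exact sum_congr rfl fun m _ => by rw [den]; ring

theorem sum_succ_mul {n R : ℕ} (i : Fin n) (p : (Fin n → ℕ) → ℝ) (hp : InBox R p) :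
    ∑ m ∈ box n R, ((m i : ℝ) + 1) * (p m - p (up i m)) = ∑ m ∈ box n R, p m := by
  have h := abel i p (fun _ => (1 : ℝ)) hp
  simp only [mul_one, cumLe, sum_const, card_range, nsmul_eq_mul, Nat.cast_add, Nat.cast_one] at h
  rw [← h]
  exact sum_congr rfl fun m _ => by ring

theorem den_nonneg {n : ℕ} {p : (Fin n → ℕ) → ℝ} (h0 : ∀ m, 0 ≤ p m) (hd : Decr p) {a : ℝ}
    (ha : 0 ≤ a) (i : Fin n) (m : Fin n → ℕ) : 0 ≤ den p a i m :=
  add_nonneg (h0 _) (mul_nonneg ha (sub_nonneg.2 (hd i m)))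

theorem diff_zero_of_den {n : ℕ} {p : (Fin n → ℕ) → ℝ} (h0 : ∀ m, 0 ≤ p m) (hd : Decr p) {a : ℝ}
    (ha : 0 < a) {i : Fin n} {m : Fin n → ℕ} (h : den p a i m = 0) : p m - p (up i m) = 0 := by
  have h2 := sub_nonneg.2 (hd i m)
  unfold den at h
  nlinarith [h0 (up i m), mul_nonneg ha.le h2]

/-- Cauchy-Schwarz in Engel form. -/
theorem engel {ι : Type} (M : Finset ι) (y a b : ι → ℝ) (hy : ∀ m ∈ M, 0 ≤ y m)
    (hb : ∀ m ∈ M, 0 ≤ b m) (hab : ∀ m ∈ M, b m = 0 → a m = 0) :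
    (∑ m ∈ M, y m * a m) ^ 2 / (∑ m ∈ M, y m * b m) ≤ ∑ m ∈ M, y m * (a m ^ 2 / b m) := by
  have hD : 0 ≤ ∑ m ∈ M, y m * b m := sum_nonneg fun m hm => mul_nonneg (hy m hm) (hb m hm)
  have hR : 0 ≤ ∑ m ∈ M, y m * (a m ^ 2 / b m) :=
    sum_nonneg fun m hm => mul_nonneg (hy m hm) (div_nonneg (sq_nonneg _) (hb m hm))
  have h := sum_sq_le_sum_mul_sum_of_sq_le_mul M (r := fun m => y m * a m)
    (f := fun m => y m * b m) (g := fun m => y m * (a m ^ 2 / b m))
    (fun m hm => mul_nonneg (hy m hm) (hb m hm))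
    (fun m hm => mul_nonneg (hy m hm) (div_nonneg (sq_nonneg _) (hb m hm)))
    (fun m hm => le_of_eq (by
      rcases eq_or_ne (b m) 0 with h | h
      · simp [h, hab m hm h]
      · field_simp))
  rcases hD.eq_or_lt with h' | h'
  · rw [← h']; simpa using hR
  · rw [div_le_iff₀ h']; linarith

/-- Two-term Engel inequality. -/
theorem engel_two {x y u v : ℝ} (hu : 0 ≤ u) (hv : 0 ≤ v) (hx : u = 0 → x = 0)
    (hy : v = 0 → y = 0) : (x + y) ^ 2 / (u + v) ≤ x ^ 2 / u + y ^ 2 / v := by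
  rcases hu.eq_or_lt with h | h
  · have hx0 := hx h.symm; simp [← h, hx0]
  rcases hv.eq_or_lt with h' | h'
  · have hy0 := hy h'.symm; simp [← h', hy0]
  rw [div_add_div _ _ h.ne' h'.ne', div_le_div_iff₀ (by linarith) (by positivity)]
  nlinarith [mul_nonneg (add_pos h h').le (sq_nonneg (x * v - y * u)), sq_nonneg (x * v - y * u)]

/-- The nearest-neighbour push-forward of a decreasing weight in one direction. -/
structure Push {n : ℕ} (R : ℕ) (i : Fin n) (p : (Fin n → ℕ) → ℝ) {κ : Type}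
    (f : κ → (Fin n → ℕ) → ℝ) (Q : ℝ) : Prop where
  inBox : InBox R p
  nonneg : ∀ m, 0 ≤ p m
  decr : Decr p
  cum_nonneg : ∀ k, ∀ m ∈ box n R, 0 ≤ cumLe i (f k) m
  mass : ∀ (s : Finset κ), ∀ m ∈ box n R, ∑ k ∈ s, cumLe i (f k) m ≤ Q * ((m i : ℝ) + 1)

namespace Push

variable {n R : ℕ} {i : Fin n} {p : (Fin n → ℕ) → ℝ} {κ : Type} {f : κ → (Fin n → ℕ) → ℝ} {Q : ℝ}

theorem diff_nonneg (h : Push R i p f Q) (k : κ) : 0 ≤ ∑ m ∈ box n R, p m * f k m := by
  rw [← abel i p (f k) h.inBox]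
  exact sum_nonneg fun m hm => mul_nonneg (sub_nonneg.2 (h.decr i m)) (h.cum_nonneg k m hm)

theorem rest_nonneg (h : Push R i p f Q) (k : κ) : 0 ≤ ∑ m ∈ box n R, p m * cumLt i (f k) m := by
  rw [← sum_up_mul i p (f k) h.inBox]
  exact sum_nonneg fun m hm => mul_nonneg (h.nonneg _) (h.cum_nonneg k m hm)

theorem sum_diff_le (h : Push R i p f Q) (s : Finset κ) :
    ∑ k ∈ s, ∑ m ∈ box n R, p m * f k m ≤ Q * ∑ m ∈ box n R, p m := by
  simp_rw [← abel i p (f _) h.inBox]
  rw [sum_comm, ← sum_succ_mul i p h.inBox, mul_sum]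
  refine sum_le_sum fun m hm => ?_
  rw [← mul_sum]
  calc (p m - p (up i m)) * ∑ k ∈ s, cumLe i (f k) m
      ≤ (p m - p (up i m)) * (Q * ((m i : ℝ) + 1)) :=
        mul_le_mul_of_nonneg_left (h.mass s m hm) (sub_nonneg.2 (h.decr i m))
    _ = Q * (((m i : ℝ) + 1) * (p m - p (up i m))) := by ring

theorem fish_le (h : Push R i p f Q) {a : ℝ} (ha : 0 < a) (s : Finset κ) :
    ∑ k ∈ s, (∑ m ∈ box n R, p m * f k m) ^ 2 /
        (a * (∑ m ∈ box n R, p m * f k m) + ∑ m ∈ box n R, p m * cumLt i (f k) m) ≤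
      Q * ∑ m ∈ box n R, ((m i : ℝ) + 1) * (p m - p (up i m)) ^ 2 / den p a i m := by
  calc _ ≤ ∑ k ∈ s, ∑ m ∈ box n R, cumLe i (f k) m * ((p m - p (up i m)) ^ 2 / den p a i m) := by
        refine sum_le_sum fun k _ => ?_
        rw [← sum_mul_den i p (f k) h.inBox a, ← abel i p (f k) h.inBox]
        simp_rw [mul_comm (p _ - p _) (cumLe i (f k) _)]
        exact engel _ _ _ _ (h.cum_nonneg k) (fun m _ => den_nonneg h.nonneg h.decr ha.le i m)
          (fun m _ hm => diff_zero_of_den h.nonneg h.decr ha hm)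
    _ = ∑ m ∈ box n R, (∑ k ∈ s, cumLe i (f k) m) * ((p m - p (up i m)) ^ 2 / den p a i m) := by
        rw [sum_comm]; simp_rw [sum_mul]
    _ ≤ ∑ m ∈ box n R, (Q * ((m i : ℝ) + 1)) * ((p m - p (up i m)) ^ 2 / den p a i m) :=
        sum_le_sum fun m hm => mul_le_mul_of_nonneg_right (h.mass s m hm)
          (div_nonneg (sq_nonneg _) (den_nonneg h.nonneg h.decr ha.le i m))
    _ = _ := by rw [mul_sum]; exact sum_congr rfl fun m _ => by ring

end Push

end Vale.Agent.P369.Diag
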