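import Vale.Agent.P369.Diag.Beam
import Vale.Agent.P369.Diag.Jensen

/-!
The beam splitter on finitely supported coordinatewise decreasing number-diagonal inputs of several
modes: mass, mean, monotonicity, continuity in `η`, and the Stam inequality for the nearest-neighbour
Fisher information.
-/

namespace Vale.Agent.P369.Diag

open Finset

variable {n R : ℕ} {η : ℝ} {p q : (Fin n → ℕ) → ℝ}

/-- The product kernel. -/
noncomputable def kprod (η : ℝ) (m l k : Fin n → ℕ) : ℝ := ∏ j, kerN η (m j) (l j) (k j)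

/-- The product kernel of the modes other than `i`. -/
noncomputable def kOther (η : ℝ) (i : Fin n) (m l k : Fin n → ℕ) : ℝ :=
  ∏ j ∈ univ.erase i, kerN η (m j) (l j) (k j)

/-- The product kernel differenced in mode `i`. -/
noncomputable def kdiff (η : ℝ) (i : Fin n) (m l k : Fin n → ℕ) : ℝ :=
  bD η (m i) (l i) (k i) * kOther η i m l k

lemma kprod_nonneg (η : ℝ) (m l k : Fin n → ℕ) : 0 ≤ kprod η m l k :=
  prod_nonneg fun _ _ => kerN_nonneg _ _ _ _

lemma kOther_nonneg (η : ℝ) (i : Fin n) (m l k : Fin n → ℕ) : 0 ≤ kOther η i m l k :=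
  prod_nonneg fun _ _ => kerN_nonneg _ _ _ _

lemma kprod_split (η : ℝ) (i : Fin n) (m l k : Fin n → ℕ) :
    kprod η m l k = kerN η (m i) (l i) (k i) * kOther η i m l k :=
  (mul_prod_erase univ (fun j => kerN η (m j) (l j) (k j)) (mem_univ i)).symm

lemma kOther_update_fst (η : ℝ) (i : Fin n) (m l k : Fin n → ℕ) (s : ℕ) :
    kOther η i (Function.update m i s) l k = kOther η i m l k :=
  prod_congr rfl fun j hj => by rw [Function.update_of_ne (ne_of_mem_erase hj)]

lemma kOther_update_snd (η : ℝ) (i : Fin n) (m l k : Fin n → ℕ) (s : ℕ) :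
    kOther η i m (Function.update l i s) k = kOther η i m l k :=
  prod_congr rfl fun j hj => by rw [Function.update_of_ne (ne_of_mem_erase hj)]

lemma kOther_up (η : ℝ) (i : Fin n) (m l k : Fin n → ℕ) :
    kOther η i m l (up i k) = kOther η i m l k :=
  prod_congr rfl fun j hj => by rw [up, Function.update_of_ne (ne_of_mem_erase hj)]

lemma kdiff_eq (η : ℝ) (i : Fin n) (m l k : Fin n → ℕ) :
    kdiff η i m l k = kprod η m l k - kprod η m l (up i k) := by
  rw [kdiff, kprod_split η i, kprod_split η i, kOther_up, bD]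
  simp only [up, Function.update_self]
  ring

lemma kdiff_symm (e0 : 0 ≤ η) (e1 : η ≤ 1) (i : Fin n) (m l k : Fin n → ℕ) :
    kdiff (1 - η) i l m k = kdiff η i m l k := by
  simp only [kdiff, kOther, bD, ← kerN_symm e0 e1]

lemma sum_box_prod (N : ℕ) (h : Fin n → ℕ → ℝ) :
    ∑ k ∈ box n N, ∏ j, h j (k j) = ∏ j, ∑ s ∈ range N, h j s := by
  rw [box, prod_univ_sum]

/-! ### (a) Mass, support, mean -/

/-- On finitely supported inputs the output is a finite sum. -/
lemma bsOut_eq (η : ℝ) (hp : InBox R p) (hq : InBox R q) (k : Fin n → ℕ) :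
    bsOut η p q k = ∑ m ∈ box n R, ∑ l ∈ box n R, p m * q l * kprod η m l k := by
  rw [bsOut, tsum_eq_sum (s := box n R) fun m hm => by simp [hp m hm]]
  refine sum_congr rfl fun m _ => ?_
  rw [tsum_eq_sum (s := box n R) fun l hl => by simp [hq l hl]]
  rfl

lemma bsOut_nonneg (hp : InBox R p) (hq : InBox R q) (hp0 : ∀ m, 0 ≤ p m) (hq0 : ∀ m, 0 ≤ q m)
    (η : ℝ) (k : Fin n → ℕ) : 0 ≤ bsOut η p q k := by
  rw [bsOut_eq η hp hq]
  exact sum_nonneg fun m _ => sum_nonneg fun l _ =>
    mul_nonneg (mul_nonneg (hp0 m) (hq0 l)) (kprod_nonneg η m l k)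

lemma bsOut_inBox (η : ℝ) (hp : InBox R p) (hq : InBox R q) : InBox (2 * R) (bsOut η p q) := by
  intro k hk
  simp only [mem_box, not_forall, not_lt] at hk
  obtain ⟨j, hj⟩ := hk
  rw [bsOut_eq η hp hq]
  refine sum_eq_zero fun m hm => sum_eq_zero fun l hl => ?_
  rw [kprod, prod_eq_zero (mem_univ j)
    (kerN_high (by have := mem_box.1 hm j; have := mem_box.1 hl j; omega)), mul_zero]

lemma sum_kprod (e0 : 0 ≤ η) (e1 : η ≤ 1) {m l : Fin n → ℕ} (hm : m ∈ box n R)
    (hl : l ∈ box n R) : ∑ k ∈ box n (2 * R), kprod η m l k = 1 := by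
  simp only [kprod]
  rw [sum_box_prod (2 * R) fun j => kerN η (m j) (l j)]
  exact prod_eq_one fun j _ =>
    sum_kerN e0 e1 (by have := mem_box.1 hm j; have := mem_box.1 hl j; omega)

lemma bsOut_mass (e0 : 0 ≤ η) (e1 : η ≤ 1) (hp : InBox R p) (hq : InBox R q) :
    ∑ k ∈ box n (2 * R), bsOut η p q k = (∑ m ∈ box n R, p m) * ∑ l ∈ box n R, q l := by
  simp only [bsOut_eq η hp hq]
  rw [sum_comm, sum_mul_sum]
  refine sum_congr rfl fun m hm => ?_
  rw [sum_comm]
  refine sum_congr rfl fun l hl => ?_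
  rw [← mul_sum, sum_kprod e0 e1 hm hl, mul_one]

lemma bsOut_mean (e0 : 0 ≤ η) (e1 : η ≤ 1) (hp : InBox R p) (hq : InBox R q)
    (hp0 : ∀ m, 0 ≤ p m) (hq0 : ∀ m, 0 ≤ q m) :
    ∑ k ∈ box n (2 * R), (tot k : ℝ) * bsOut η p q k ≤
      (∑ l ∈ box n R, q l) * (∑ m ∈ box n R, (tot m : ℝ) * p m) +
        (∑ m ∈ box n R, p m) * (∑ l ∈ box n R, (tot l : ℝ) * q l) := by
  simp only [bsOut_eq η hp hq, mul_sum]
  rw [sum_comm]
  calc ∑ m ∈ box n R, ∑ k ∈ box n (2 * R), ∑ l ∈ box n R, (tot k : ℝ) * (p m * q l * kprod η m l k)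
      ≤ ∑ m ∈ box n R, ∑ l ∈ box n R, ((tot m : ℝ) + tot l) * (p m * q l) := by
        refine sum_le_sum fun m hm => ?_
        rw [sum_comm]
        refine sum_le_sum fun l hl => ?_
        calc ∑ k ∈ box n (2 * R), (tot k : ℝ) * (p m * q l * kprod η m l k)
            ≤ ∑ k ∈ box n (2 * R), ((tot m : ℝ) + tot l) * (p m * q l * kprod η m l k) := by
              refine sum_le_sum fun k _ => ?_
              by_cases h : ∀ j, k j ≤ m j + l j
              · refine mul_le_mul_of_nonneg_right ?_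
                  (mul_nonneg (mul_nonneg (hp0 m) (hq0 l)) (kprod_nonneg η m l k))
                have : tot k ≤ tot m + tot l := by
                  rw [tot, tot, tot, ← sum_add_distrib]
                  exact sum_le_sum fun j _ => h j
                exact_mod_cast this
              · push Not at h
                obtain ⟨j, hj⟩ := h
                rw [show kprod η m l k = 0 from prod_eq_zero (mem_univ j) (kerN_high hj)]
                simp
          _ = _ := by rw [← mul_sum, ← mul_sum, sum_kprod e0 e1 hm hl, mul_one]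
    _ = _ := by
        simp only [add_mul, sum_add_distrib, sum_mul]
        exact congrArg₂ (· + ·) (sum_congr rfl fun m _ => sum_congr rfl fun l _ => by ring)
          (sum_comm.trans (sum_congr rfl fun l _ => sum_congr rfl fun m _ => by ring))

/-! ### The push-forward in one direction -/

/-- Transition weights seen from the first input, with the second one averaged. -/
noncomputable def pushW (η : ℝ) (R : ℕ) (i : Fin n) (q : (Fin n → ℕ) → ℝ) (k m : Fin n → ℕ) : ℝ :=
  ((k i : ℝ) + 1) * ∑ l ∈ box n R, q l * kdiff η i m l k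

lemma cumLe_pushW (η : ℝ) (R : ℕ) (i : Fin n) (q : (Fin n → ℕ) → ℝ) (k m : Fin n → ℕ) :
    cumLe i (pushW η R i q k) m = ((k i : ℝ) + 1) * ∑ l ∈ box n R,
      q l * (kOther η i m l k * ∑ s ∈ range (m i + 1), bD η s (l i) (k i)) := by
  simp only [cumLe, pushW, kdiff, kOther_update_fst, Function.update_self]
  rw [← mul_sum, sum_comm]
  refine congrArg _ (sum_congr rfl fun l _ => ?_)
  rw [← mul_sum, ← sum_mul]; ring

lemma cumLt_pushW (η : ℝ) (R : ℕ) (i : Fin n) (q : (Fin n → ℕ) → ℝ) (k m : Fin n → ℕ) :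
    cumLt i (pushW η R i q k) m = ((k i : ℝ) + 1) * ∑ l ∈ box n R,
      q l * (kOther η i m l k * ∑ s ∈ range (m i), bD η s (l i) (k i)) := by
  simp only [cumLt, pushW, kdiff, kOther_update_fst, Function.update_self]
  rw [← mul_sum, sum_comm]
  refine congrArg _ (sum_congr rfl fun l _ => ?_)
  rw [← mul_sum, ← sum_mul]; ring

lemma cumLe_pushW_nonneg (e0 : 0 ≤ η) (e1 : η ≤ 1) (hq : InBox R q) (hqd : Decr q) (i : Fin n)
    (k m : Fin n → ℕ) : 0 ≤ cumLe i (pushW η R i q k) m := by
  rw [cumLe_pushW, ← abel i q _ hq]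
  refine mul_nonneg (by positivity) (sum_nonneg fun l _ =>
    mul_nonneg (sub_nonneg.2 (hqd i l)) ?_)
  simp only [cumLe, kOther_update_snd, Function.update_self]
  rw [← mul_sum]
  refine mul_nonneg (kOther_nonneg η i m l k) ?_
  rw [sum_comm]
  exact bs_box_nonneg e0 e1 (k i) (m i + 1) (l i + 1)

lemma sum_cumLe_pushW_box (e0 : 0 ≤ η) (e1 : η ≤ 1) (i : Fin n) {N : ℕ} (hN : 2 * R ≤ N)
    (q : (Fin n → ℕ) → ℝ) {m : Fin n → ℕ} (hm : m ∈ box n R) :
    ∑ k ∈ box n N, cumLe i (pushW η R i q k) m = (∑ l ∈ box n R, q l) * ((m i : ℝ) + 1) := by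
  simp only [cumLe_pushW, mul_sum (s := box n R)]
  rw [sum_comm, sum_mul]
  refine sum_congr rfl fun l hl => ?_
  have hj : ∀ j, m j + l j < N := fun j => by
    have := mem_box.1 hm j; have := mem_box.1 hl j; omega
  set h : Fin n → ℕ → ℝ := fun j s =>
    if j = i then ((s : ℝ) + 1) * ∑ t ∈ range (m i + 1), bD η t (l i) s
    else kerN η (m j) (l j) s with hh
  have e : ∀ k : Fin n → ℕ, ((k i : ℝ) + 1) *
      (q l * (kOther η i m l k * ∑ s ∈ range (m i + 1), bD η s (l i) (k i))) =
      q l * ∏ j, h j (k j) := by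
    intro k
    rw [← mul_prod_erase univ (fun j => h j (k j)) (mem_univ i)]
    have : ∏ j ∈ univ.erase i, h j (k j) = kOther η i m l k :=
      prod_congr rfl fun j hj' => by simp [hh, ne_of_mem_erase hj']
    rw [this]
    simp only [hh, if_true]
    ring
  rw [sum_congr rfl fun k _ => e k, ← mul_sum, sum_box_prod, ← mul_prod_erase univ _ (mem_univ i)]
  congr 1
  rw [prod_eq_one fun j hj' => by
    simp only [hh, if_neg (ne_of_mem_erase hj')]; exact sum_kerN e0 e1 (hj j), mul_one]
  simp only [hh, if_true]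
  refine (hasSum_sum_of_ne_finset_zero (L := .unconditional ℕ) fun s hs => ?_).unique
    (hasSum_succ_mul_sum_bD e0 e1 (m i) (l i))
  rw [Finset.mem_range] at hs
  rw [sum_eq_zero fun t ht => ?_, mul_zero]
  rw [Finset.mem_range] at ht
  rw [bD, kerN_high (by have := hj i; omega), kerN_high (by have := hj i; omega), sub_zero]

lemma push_beam (e0 : 0 ≤ η) (e1 : η ≤ 1) (hp : InBox R p) (hq : InBox R q)
    (hp0 : ∀ m, 0 ≤ p m) (hpd : Decr p) (hqd : Decr q) (i : Fin n) :
    Push R i p (pushW η R i q) (∑ l ∈ box n R, q l) where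
  inBox := hp
  nonneg := hp0
  decr := hpd
  cum_nonneg k m _ := cumLe_pushW_nonneg e0 e1 hq hqd i k m
  mass s m hm := by
    set N := max (2 * R) (s.sup (fun k => univ.sup k) + 1) with hN
    rw [← sum_cumLe_pushW_box e0 e1 i (le_max_left _ _ : 2 * R ≤ N) q hm]
    refine sum_le_sum_of_subset_of_nonneg (fun k hk => mem_box.2 fun j => ?_)
      fun k _ _ => cumLe_pushW_nonneg e0 e1 hq hqd i k m
    have h1 : k j ≤ univ.sup k := le_sup (f := k) (mem_univ j)
    have h2 : univ.sup k ≤ s.sup (fun k : Fin n → ℕ => univ.sup k) :=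
      le_sup (f := fun k : Fin n → ℕ => univ.sup k) hk
    have h3 : s.sup (fun k : Fin n → ℕ => univ.sup k) + 1 ≤ N := le_max_right _ _
    omega

/-- The output difference as a push-forward of the first input. -/
lemma sum_pushW_fst (η : ℝ) (hp : InBox R p) (hq : InBox R q) (i : Fin n) (k : Fin n → ℕ) :
    ∑ m ∈ box n R, p m * pushW η R i q k m =
      ((k i : ℝ) + 1) * (bsOut η p q k - bsOut η p q (up i k)) := by
  simp only [bsOut_eq η hp hq, ← sum_sub_distrib, pushW, kdiff_eq, mul_sum]
  exact sum_congr rfl fun m _ => sum_congr rfl fun l _ => by ring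

/-- The output difference as a push-forward of the second input. -/
lemma sum_pushW_snd (e0 : 0 ≤ η) (e1 : η ≤ 1) (hp : InBox R p) (hq : InBox R q) (i : Fin n)
    (k : Fin n → ℕ) :
    ∑ l ∈ box n R, q l * pushW (1 - η) R i p k l =
      ((k i : ℝ) + 1) * (bsOut η p q k - bsOut η p q (up i k)) := by
  rw [← sum_pushW_fst η hp hq]
  simp only [pushW, kdiff_symm e0 e1, mul_sum]
  rw [sum_comm]
  exact sum_congr rfl fun m _ => sum_congr rfl fun l _ => by ring

/-- The raised output as a combination of the two remainders. -/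
lemma sum_cumLt_pushW (e0 : 0 ≤ η) (e1 : η ≤ 1) (hp : InBox R p) (hq : InBox R q) (i : Fin n)
    (k : Fin n → ℕ) :
    η * ∑ m ∈ box n R, p m * cumLt i (pushW η R i q k) m +
        (1 - η) * ∑ l ∈ box n R, q l * cumLt i (pushW (1 - η) R i p k) l =
      ((k i : ℝ) + 1) * bsOut η p q (up i k) := by
  have hs : ∀ m l : Fin n → ℕ, kOther (1 - η) i l m k = kOther η i m l k := fun m l => by
    simp only [kOther, ← kerN_symm e0 e1]
  have hb : ∀ a b c : ℕ, bD (1 - η) a b c = bD η b a c := fun a b c => by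
    simp only [bD, ← kerN_symm e0 e1]
  have hu : ∀ m l : Fin n → ℕ,
      kOther η i m l (Function.update k i (k i + 1)) = kOther η i m l k := fun m l =>
    kOther_up η i m l k
  simp only [cumLt_pushW, hs, hb, bsOut_eq η hp hq, kprod_split η i, hu, up,
    Function.update_self, mul_sum (s := box n R)]
  rw [sum_comm (s := box n R) (f := fun l m => (1 - η) * (q l * (((k i : ℝ) + 1) *
    (p m * (kOther η i m l k * ∑ s ∈ range (l i), bD η (m i) s (k i)))))), ← sum_add_distrib]
  refine sum_congr rfl fun m _ => ?_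
  rw [← sum_add_distrib]
  refine sum_congr rfl fun l _ => ?_
  have hk := bs_key e0 e1 (k i) (l i) (m i)
  rw [sum_range_succ] at hk
  simp only [bD] at hk ⊢
  linear_combination (((k i : ℝ) + 1) * p m * q l * kOther η i m l k) * hk

/-! ### (b) Monotonicity, (c) Stam -/

/-- The output of decreasing inputs is decreasing. -/
lemma bsOut_decr (e0 : 0 ≤ η) (e1 : η ≤ 1) (hp : InBox R p) (hq : InBox R q)
    (hp0 : ∀ m, 0 ≤ p m) (hpd : Decr p) (hqd : Decr q) : Decr (bsOut η p q) := by
  intro i k
  have h := (push_beam e0 e1 hp hq hp0 hpd hqd i).diff_nonneg k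
  rw [sum_pushW_fst η hp hq] at h
  exact sub_nonneg.1 (nonneg_of_mul_nonneg_right (by linarith) (by positivity : (0:ℝ) < (k i : ℝ) + 1))

lemma fterm_le {α β π : ℝ} (e0 : 0 < η) (e1 : η < 1) (hα : 0 < α) (hβ : 0 < β)
    (hp : InBox R p) (hq : InBox R q) (hp0 : ∀ m, 0 ≤ p m) (hq0 : ∀ m, 0 ≤ q m)
    (hpd : Decr p) (hqd : Decr q) (i : Fin n) (k : Fin n → ℕ) :
    fterm (bsOut η p q) (η * α + (1 - η) * β) i k ≤
      π ^ 2 / η * ((∑ m ∈ box n R, p m * pushW η R i q k m) ^ 2 /
          (α * (∑ m ∈ box n R, p m * pushW η R i q k m) +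
            ∑ m ∈ box n R, p m * cumLt i (pushW η R i q k) m)) +
        (1 - π) ^ 2 / (1 - η) * ((∑ l ∈ box n R, q l * pushW (1 - η) R i p k l) ^ 2 /
          (β * (∑ l ∈ box n R, q l * pushW (1 - η) R i p k l) +
            ∑ l ∈ box n R, q l * cumLt i (pushW (1 - η) R i p k) l)) := by
  have hA := push_beam e0.le e1.le hp hq hp0 hpd hqd i
  have hB := push_beam (η := 1 - η) (by linarith) (by linarith) hq hp hq0 hqd hpd i
  set X := ∑ m ∈ box n R, p m * pushW η R i q k m with hX
  set A := ∑ m ∈ box n R, p m * cumLt i (pushW η R i q k) m with hAd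
  set B := ∑ l ∈ box n R, q l * cumLt i (pushW (1 - η) R i p k) l with hBd
  have hX0 : 0 ≤ X := hA.diff_nonneg k
  have hA0 : 0 ≤ A := hA.rest_nonneg k
  have hB0 : 0 ≤ B := hB.rest_nonneg k
  have hXeq := sum_pushW_fst η hp hq i k
  rw [← hX] at hXeq
  have hY : ∑ l ∈ box n R, q l * pushW (1 - η) R i p k l = X := by
    rw [sum_pushW_snd e0.le e1.le hp hq, hXeq]
  have hR := sum_cumLt_pushW e0.le e1.le hp hq i k
  rw [← hAd, ← hBd] at hR
  rw [hY]
  set c := bsOut η p q with hc
  have hk : (0 : ℝ) < (k i : ℝ) + 1 := by positivity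
  have hden : ((k i : ℝ) + 1) * den c (η * α + (1 - η) * β) i k =
      η * (α * X + A) + (1 - η) * (β * X + B) := by
    rw [den]
    linear_combination (-1) * hR - (η * α + (1 - η) * β) * hXeq
  have hU : 0 ≤ η * (α * X + A) := mul_nonneg e0.le (by positivity)
  have hV : 0 ≤ (1 - η) * (β * X + B) := mul_nonneg (by linarith) (by positivity)
  have h0U : η * (α * X + A) = 0 → π * X = 0 := fun h => by
    rcases mul_eq_zero.1 h with h | h
    · exact absurd h e0.ne'
    · have : α * X = 0 := by linarith [mul_nonneg hα.le hX0]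
      rcases mul_eq_zero.1 this with h | h
      · exact absurd h hα.ne'
      · simp [h]
  have h0V : (1 - η) * (β * X + B) = 0 → (1 - π) * X = 0 := fun h => by
    rcases mul_eq_zero.1 h with h | h
    · linarith
    · have : β * X = 0 := by linarith [mul_nonneg hβ.le hX0]
      rcases mul_eq_zero.1 this with h | h
      · exact absurd h hβ.ne'
      · simp [h]
  calc fterm c (η * α + (1 - η) * β) i k
      = (π * X + (1 - π) * X) ^ 2 / (η * (α * X + A) + (1 - η) * (β * X + B)) := by
        rw [fterm, ← hden, show π * X + (1 - π) * X = X by ring, hXeq, mul_pow, sq ((k i : ℝ) + 1),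
          mul_assoc, mul_div_mul_left _ _ hk.ne']
    _ ≤ (π * X) ^ 2 / (η * (α * X + A)) + ((1 - π) * X) ^ 2 / ((1 - η) * (β * X + B)) :=
        engel_two hU hV h0U h0V
    _ = _ := by rw [mul_pow, mul_pow, mul_div_mul_comm, mul_div_mul_comm]

/-- Stam's inequality for decreasing number-diagonal inputs. -/
theorem stam_box {α β π : ℝ} (e0 : 0 < η) (e1 : η < 1) (hα : 0 < α) (hβ : 0 < β)
    (_h0 : 0 ≤ π) (_h1 : π ≤ 1) (hp : InBox R p) (hq : InBox R q) (hp0 : ∀ m, 0 ≤ p m)
    (hq0 : ∀ m, 0 ≤ q m) (hpd : Decr p) (hqd : Decr q) (s : Finset (Fin n → ℕ)) :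
    ∑ i, ∑ k ∈ s, fterm (bsOut η p q) (η * α + (1 - η) * β) i k ≤
      π ^ 2 / η * (∑ l ∈ box n R, q l) * bfish R p α +
        (1 - π) ^ 2 / (1 - η) * (∑ m ∈ box n R, p m) * bfish R q β := by
  rw [bfish, bfish, mul_sum univ, mul_sum univ, ← sum_add_distrib]
  refine sum_le_sum fun i _ => ?_
  refine (sum_le_sum fun k _ =>
    fterm_le (π := π) e0 e1 hα hβ hp hq hp0 hq0 hpd hqd i k).trans ?_
  rw [sum_add_distrib, ← mul_sum, ← mul_sum]
  have hA := (push_beam e0.le e1.le hp hq hp0 hpd hqd i).fish_le hα s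
  have hB := (push_beam (η := 1 - η) (by linarith) (by linarith) hq hp hq0 hqd hpd i).fish_le hβ s
  have c1 : 0 ≤ π ^ 2 / η := div_nonneg (sq_nonneg _) e0.le
  have c2 : 0 ≤ (1 - π) ^ 2 / (1 - η) := div_nonneg (sq_nonneg _) (by linarith)
  refine add_le_add ?_ ?_
  · exact (mul_le_mul_of_nonneg_left hA c1).trans_eq (by simp only [fterm]; ring)
  · exact (mul_le_mul_of_nonneg_left hB c2).trans_eq (by simp only [fterm]; ring)

/-! ### (d) Continuity in the transmissivity -/

lemma continuous_bcf : ∀ m l k : ℕ, Continuous fun η : ℝ => bcf η m l k := by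
  intro m
  induction m with
  | zero =>
    intro l
    induction l with
    | zero => intro k; simpa [bcf] using continuous_const
    | succ l ih =>
      intro k
      rcases k with _ | k
      · simp only [bcf_succ_right_zero]
        exact (Real.continuous_sqrt.mul (ih 0))
      · simp only [bcf_succ_right]
        exact ((Real.continuous_sqrt.comp (continuous_const.sub continuous_id)).mul (ih k)).add
          (Real.continuous_sqrt.mul (ih (k + 1)))
  | succ m ih =>
    intro l k
    rcases k with _ | k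
    · simp only [bcf_succ_left_zero]
      exact ((Real.continuous_sqrt.comp (continuous_const.sub continuous_id)).mul (ih l 0)).neg
    · simp only [bcf_succ_left]
      exact (Real.continuous_sqrt.mul (ih l k)).sub
        ((Real.continuous_sqrt.comp (continuous_const.sub continuous_id)).mul (ih l (k + 1)))

lemma continuous_kerN (m l k : ℕ) : Continuous fun η : ℝ => kerN η m l k := by
  rcases Nat.lt_or_ge (m + l) k with h | h
  · simpa [kerN_high h] using continuous_const
  · have e : (fun η : ℝ => kerN η m l k) = fun η => (k.factorial : ℝ) * (m + l - k).factorial *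
        bcf η m l k ^ 2 / ((m.factorial : ℝ) * l.factorial) := by
      funext η
      rw [eq_div_iff (by positivity)]
      exact kerN_mul_factorial η h
    rw [e]
    exact ((continuous_bcf m l k).pow 2 |>.const_mul _).div_const _

lemma bsOut_continuous (hp : InBox R p) (hq : InBox R q) (k : Fin n → ℕ) :
    Continuous fun η => bsOut η p q k := by
  simp only [bsOut_eq _ hp hq, kprod]
  exact continuous_finsetSum _ fun m _ => continuous_finsetSum _ fun l _ =>
    (continuous_finsetProd _ fun j _ => continuous_kerN (m j) (l j) (k j)).const_mul _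

end Vale.Agent.P369.Diag
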