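import Vale.Agent.P369.Diag.Beam

/-!
Two facts about the beam-splitter amplitudes: the cumulative drops of the kernel factor through
the amplitudes, and the two amplitude vectors reached by raising one input are orthogonal.
Together they give a Bessel inequality for the pushed-forward test functions.
-/

namespace Vale.Agent.P369.Diag

open Finset

variable {η : ℝ}

/-- Factorial weight of output `k` at total `n`. -/
noncomputable def fw (n k : ℕ) : ℝ := (k.factorial : ℝ) * (n - k).factorial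

lemma fw_nonneg (n k : ℕ) : 0 ≤ fw n k := by unfold fw; positivity

lemma fw_succ_succ (n k : ℕ) : fw (n + 1) (k + 1) = ((k : ℝ) + 1) * fw n k := by
  simp only [fw, Nat.factorial_succ, Nat.add_sub_add_right]; push_cast; ring

lemma fw_succ_left {n k : ℕ} (h : k ≤ n) : fw (n + 1) k = ((n : ℝ) + 1 - k) * fw n k := by
  simp only [fw, show n + 1 - k = (n - k) + 1 by omega, Nat.factorial_succ]
  push_cast [Nat.cast_sub h]; ring

lemma kerN_mul_fw (η : ℝ) (m l k : ℕ) :
    kerN η m l k * ((m.factorial : ℝ) * l.factorial) = fw (m + l) k * bcf η m l k ^ 2 := by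
  rcases le_or_gt k (m + l) with h | h
  · rw [kerN_mul_factorial η h, fw]
  · rw [kerN_high h, bcf_high h]; ring

/-- One step of the factorisation in the first input. -/
lemma factor_step_left (e0 : 0 ≤ η) (e1 : η ≤ 1) (M l k : ℕ) :
    fw (M + l + 1) (k + 1) * bcf η M l k * bcf η (M + 1) l (k + 1) -
        fw (M + l) (k + 1) * bcf η M l (k + 1) * ((M : ℝ) * bcf η (M - 1) l k) =
      Real.sqrt η * ((k : ℝ) + 1) * ((M.factorial : ℝ) * l.factorial) * bD η M l k := by
  have h1 := kerN_mul_fw η M l k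
  have h2 := kerN_mul_fw η M l (k + 1)
  have hs := bcf_succ_left (η := η) M l k
  have hd := bcf_deriv_left e0 e1 M l k
  have hw : fw (M + l) (k + 1) * ((M : ℝ) + l - k) * bcf η M l (k + 1) =
      ((k : ℝ) + 1) * fw (M + l) k * bcf η M l (k + 1) := by
    rcases Nat.lt_or_ge k (M + l) with h | h
    · simp only [fw, Nat.factorial_succ, show M + l - k = (M + l - (k + 1)) + 1 by omega]
      push_cast [Nat.cast_sub (show k + 1 ≤ M + l by omega)]; ring
    · rw [bcf_high (show M + l < k + 1 by omega)]; simp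
  rw [hs, ← hd, fw_succ_succ, bD]
  linear_combination (Real.sqrt η * ((k : ℝ) + 1)) * (h2 - h1) +
    (Real.sqrt (1 - η) * bcf η M l k) * hw

/-- One step of the factorisation in the second input. -/
lemma factor_step_right (e0 : 0 ≤ η) (e1 : η ≤ 1) (m L k : ℕ) :
    fw (m + L + 1) (k + 1) * bcf η m L k * bcf η m (L + 1) (k + 1) -
        fw (m + L) (k + 1) * bcf η m L (k + 1) * ((L : ℝ) * bcf η m (L - 1) k) =
      Real.sqrt (1 - η) * ((k : ℝ) + 1) * ((m.factorial : ℝ) * L.factorial) * bD η m L k := by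
  have h1 := kerN_mul_fw η m L k
  have h2 := kerN_mul_fw η m L (k + 1)
  have hs := bcf_succ_right (η := η) m L k
  have hd := bcf_deriv_right e0 e1 m L k
  have hw : fw (m + L) (k + 1) * ((m : ℝ) + L - k) * bcf η m L (k + 1) =
      ((k : ℝ) + 1) * fw (m + L) k * bcf η m L (k + 1) := by
    rcases Nat.lt_or_ge k (m + L) with h | h
    · simp only [fw, Nat.factorial_succ, show m + L - k = (m + L - (k + 1)) + 1 by omega]
      push_cast [Nat.cast_sub (show k + 1 ≤ m + L by omega)]; ring
    · rw [bcf_high (show m + L < k + 1 by omega)]; simp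
  rw [hs, ← hd, fw_succ_succ, bD]
  linear_combination (Real.sqrt (1 - η) * ((k : ℝ) + 1)) * (h2 - h1) -
    (Real.sqrt η * bcf η m L k) * hw

/-- The cumulative drops in the first input factor through the amplitudes. -/
lemma factor_left (e0 : 0 ≤ η) (e1 : η ≤ 1) (l k : ℕ) : ∀ m : ℕ,
    fw (m + l + 1) (k + 1) * bcf η m l k * bcf η (m + 1) l (k + 1) =
      Real.sqrt η * ((k : ℝ) + 1) * ((m.factorial : ℝ) * l.factorial) *
        ∑ s ∈ range (m + 1), bD η s l k
  | 0 => by
    have h := factor_step_left e0 e1 0 l k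
    simpa using h
  | m + 1 => by
    have h := factor_step_left e0 e1 (m + 1) l k
    have ih := factor_left e0 e1 l k m
    rw [Nat.add_sub_cancel, Nat.factorial_succ] at h
    rw [sum_range_succ _ (m + 1), Nat.factorial_succ]
    rw [show m + 1 + l = m + l + 1 by omega] at h ⊢
    push_cast at h ⊢
    linear_combination h + ((m : ℝ) + 1) * ih

/-- The cumulative drops in the second input factor through the amplitudes. -/
lemma factor_right (e0 : 0 ≤ η) (e1 : η ≤ 1) (m k : ℕ) : ∀ l : ℕ,
    fw (m + l + 1) (k + 1) * bcf η m l k * bcf η m (l + 1) (k + 1) =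
      Real.sqrt (1 - η) * ((k : ℝ) + 1) * ((m.factorial : ℝ) * l.factorial) *
        ∑ s ∈ range (l + 1), bD η m s k
  | 0 => by
    have h := factor_step_right e0 e1 m 0 k
    simpa using h
  | l + 1 => by
    have h := factor_step_right e0 e1 m (l + 1) k
    have ih := factor_right e0 e1 m k l
    rw [Nat.add_sub_cancel, Nat.factorial_succ] at h
    rw [sum_range_succ _ (l + 1), Nat.factorial_succ]
    rw [show m + (l + 1) = m + l + 1 by omega] at h ⊢
    push_cast at h ⊢
    linear_combination h + ((l : ℝ) + 1) * ih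

/-- The two raised vectors are orthogonal. -/
lemma bcf_orth (e0 : 0 ≤ η) (e1 : η ≤ 1) (m l : ℕ) :
    ∑ k ∈ range (m + l + 2), fw (m + l + 1) k * bcf η (m + 1) l k * bcf η m (l + 1) k = 0 := by
  induction l using Nat.strong_induction_on with
  | _ l ih =>
    have hstep : ∑ k ∈ range (m + l + 2), fw (m + l + 1) k * bcf η (m + 1) l k * bcf η m (l + 1) k =
        ∑ k ∈ range (m + l + 1), fw (m + l) k * bcf η m l k * ((l : ℝ) * bcf η (m + 1) (l - 1) k) := by
      have e : ∀ k ∈ range (m + l + 1), fw (m + l) k * bcf η m l k * ((l : ℝ) * bcf η (m + 1) (l - 1) k) =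
          Real.sqrt η * (fw (m + l + 1) k * bcf η (m + 1) l k * bcf η m l k) +
            Real.sqrt (1 - η) *
              (fw (m + l + 1) (k + 1) * bcf η (m + 1) l (k + 1) * bcf η m l k) := by
        intro k hk
        have hk' : k ≤ m + l := Nat.lt_succ_iff.1 (mem_range.1 hk)
        have hd := bcf_deriv_right e0 e1 (m + 1) l k
        push_cast at hd
        rw [← hd, fw_succ_succ, fw_succ_left hk']
        push_cast; ring
      rw [sum_congr rfl e, sum_add_distrib, sum_range_succ' _ (m + l + 1), bcf_succ_right_zero]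
      have e2 : ∀ k, fw (m + l + 1) (k + 1) * bcf η (m + 1) l (k + 1) * bcf η m (l + 1) (k + 1) =
          Real.sqrt (1 - η) * (fw (m + l + 1) (k + 1) * bcf η (m + 1) l (k + 1) * bcf η m l k) +
            Real.sqrt η *
              (fw (m + l + 1) (k + 1) * bcf η (m + 1) l (k + 1) * bcf η m l (k + 1)) := fun k => by
        rw [bcf_succ_right]; ring
      rw [sum_congr rfl fun k _ => e2 k, sum_add_distrib, ← mul_sum, ← mul_sum, ← mul_sum]
      rw [show fw (m + l + 1) 0 * bcf η (m + 1) l 0 * (Real.sqrt η * bcf η m l 0) =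
        Real.sqrt η * (fw (m + l + 1) 0 * bcf η (m + 1) l 0 * bcf η m l 0) by ring]
      rw [add_assoc, ← mul_add,
        ← sum_range_succ' (fun k => fw (m + l + 1) k * bcf η (m + 1) l k * bcf η m l k) (m + l + 1),
        sum_range_succ _ (m + l + 1), bcf_high (show m + l < m + l + 1 by omega)]
      ring
    rw [hstep]
    rcases l with _ | l
    · simp
    · have h := ih l (Nat.lt_succ_self l)
      rw [Nat.add_sub_cancel]
      simp only [show m + (l + 1) = m + l + 1 by omega]
      rw [← mul_zero (((l + 1 : ℕ) : ℝ)), ← h, mul_sum]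
      exact sum_congr rfl fun k _ => by ring

lemma bcf_norm (e0 : 0 ≤ η) (e1 : η ≤ 1) (m l N : ℕ) :
    ∑ k ∈ range N, fw (m + l) k * bcf η m l k ^ 2 ≤ (m.factorial : ℝ) * l.factorial := by
  simp only [← kerN_mul_fw, ← sum_mul]
  exact mul_le_of_le_one_left (by positivity)
    (sum_le_hasSum _ (fun k _ => kerN_nonneg η m l k) (hasSum_kerN e0 e1 m l))

/-- The first pushed-forward test value. -/
noncomputable def gA (η : ℝ) (N : ℕ) (Y : ℕ → ℝ) (m l : ℕ) : ℝ :=
  ∑ k ∈ range N, Y k * ((k : ℝ) + 1) * ∑ s ∈ range m, bD η s l k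

/-- The second pushed-forward test value. -/
noncomputable def gB (η : ℝ) (N : ℕ) (Y : ℕ → ℝ) (m l : ℕ) : ℝ :=
  ∑ k ∈ range N, Y k * ((k : ℝ) + 1) * ∑ s ∈ range l, bD η m s k

lemma cs_step {S T V : ℝ} (hT : 0 ≤ T) (h : S ^ 2 ≤ T * V) (hV : V ≤ S) : S ≤ T := by
  rcases le_or_gt S 0 with h0 | h0
  · linarith
  · nlinarith [mul_le_mul_of_nonneg_left hV hT]

/-- Bessel's inequality for raising. -/
lemma bessel_out (e0 : 0 ≤ η) (e1 : η ≤ 1) (m l N : ℕ) (Y : ℕ → ℝ) :
    η * gA η N Y (m + 1) l ^ 2 / ((m : ℝ) + 1) + (1 - η) * gB η N Y m (l + 1) ^ 2 / ((l : ℝ) + 1) ≤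
      ∑ k ∈ range N, Y k ^ 2 * (((k : ℝ) + 1) * kerN η m l k) := by
  set F : ℝ := (m.factorial : ℝ) * l.factorial with hF
  have hF0 : 0 < F := by positivity
  set a := fun k : ℕ => bcf η (m + 1) l k
  set b := fun k : ℕ => bcf η m (l + 1) k
  set z := fun k : ℕ => Y k * bcf η m l k
  set w := fun k : ℕ => fw (m + l + 1) (k + 1)
  set P := Real.sqrt η * gA η N Y (m + 1) l / ((m : ℝ) + 1) with hP
  set Q := Real.sqrt (1 - η) * gB η N Y m (l + 1) / ((l : ℝ) + 1) with hQ
  have hA : Real.sqrt η * gA η N Y (m + 1) l * F = ∑ k ∈ range N, w k * z k * a (k + 1) := by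
    rw [gA, mul_sum, sum_mul]
    refine sum_congr rfl fun k _ => ?_
    linear_combination (-Y k) * factor_left e0 e1 l k m
  have hB : Real.sqrt (1 - η) * gB η N Y m (l + 1) * F = ∑ k ∈ range N, w k * z k * b (k + 1) := by
    rw [gB, mul_sum, sum_mul]
    refine sum_congr rfl fun k _ => ?_
    linear_combination (-Y k) * factor_right e0 e1 m k l
  set S := η * gA η N Y (m + 1) l ^ 2 / ((m : ℝ) + 1) +
    (1 - η) * gB η N Y m (l + 1) ^ 2 / ((l : ℝ) + 1) with hS
  have hSF : S * F = ∑ k ∈ range N, w k * z k * (P * a (k + 1) + Q * b (k + 1)) := by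
    have : ∑ k ∈ range N, w k * z k * (P * a (k + 1) + Q * b (k + 1)) =
        P * (Real.sqrt η * gA η N Y (m + 1) l * F) +
          Q * (Real.sqrt (1 - η) * gB η N Y m (l + 1) * F) := by
      rw [hA, hB, mul_sum, mul_sum, ← sum_add_distrib]
      exact sum_congr rfl fun k _ => by ring
    rw [this, hS, hP, hQ]
    have h1 := Real.mul_self_sqrt e0
    have h2 := Real.mul_self_sqrt (sub_nonneg.2 e1)
    linear_combination (-(gA η N Y (m + 1) l ^ 2 / ((m : ℝ) + 1)) * F) * h1 -
      (gB η N Y m (l + 1) ^ 2 / ((l : ℝ) + 1) * F) * h2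
  have hT : ∑ k ∈ range N, w k * z k ^ 2 =
      F * ∑ k ∈ range N, Y k ^ 2 * (((k : ℝ) + 1) * kerN η m l k) := by
    rw [mul_sum]
    refine sum_congr rfl fun k _ => ?_
    simp only [w, z, fw_succ_succ]
    linear_combination (-(Y k ^ 2 * ((k : ℝ) + 1))) * kerN_mul_fw η m l k
  have hV : ∑ k ∈ range N, w k * (P * a (k + 1) + Q * b (k + 1)) ^ 2 ≤ S * F := by
    set M := max (N + 1) (m + l + 2) with hM
    set f := fun K : ℕ => fw (m + l + 1) K * (P * a K + Q * b K) ^ 2
    have h1 : ∑ k ∈ range N, w k * (P * a (k + 1) + Q * b (k + 1)) ^ 2 ≤ ∑ K ∈ range M, f K := by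
      refine le_trans ?_ (sum_le_sum_of_subset_of_nonneg (range_mono (le_max_left (N + 1) (m + l + 2)))
        fun K _ _ => mul_nonneg (fw_nonneg _ _) (sq_nonneg _))
      rw [sum_range_succ' f N]
      exact le_add_of_le_of_nonneg le_rfl (mul_nonneg (fw_nonneg _ _) (sq_nonneg _))
    have hab : ∑ K ∈ range M, fw (m + l + 1) K * a K * b K = 0 := by
      rw [← sum_subset (range_mono (le_max_right (N + 1) (m + l + 2)))]
      · exact bcf_orth e0 e1 m l
      · intro K _ hK
        rw [mem_range, not_lt] at hK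
        simp [a, bcf_high (show m + 1 + l < K by omega)]
    have haa := bcf_norm e0 e1 (m + 1) l M
    have hbb := bcf_norm e0 e1 m (l + 1) M
    rw [show m + 1 + l = m + l + 1 by omega, Nat.factorial_succ] at haa
    rw [show m + (l + 1) = m + l + 1 by omega, Nat.factorial_succ] at hbb
    push_cast at haa hbb
    have h2 : ∑ K ∈ range M, f K = P ^ 2 * ∑ K ∈ range M, fw (m + l + 1) K * a K ^ 2 +
        2 * P * Q * ∑ K ∈ range M, fw (m + l + 1) K * a K * b K +
        Q ^ 2 * ∑ K ∈ range M, fw (m + l + 1) K * b K ^ 2 := by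
      simp only [mul_sum, ← sum_add_distrib, f]
      exact sum_congr rfl fun K _ => by ring
    rw [hab, mul_zero, add_zero] at h2
    have e : S * F = P ^ 2 * (((m : ℝ) + 1) * m.factorial * l.factorial) +
        Q ^ 2 * (m.factorial * (((l : ℝ) + 1) * l.factorial)) := by
      rw [hS, hP, hQ, div_pow, div_pow, mul_pow, mul_pow, Real.sq_sqrt e0,
        Real.sq_sqrt (sub_nonneg.2 e1), hF]
      field_simp
    rw [e]
    linarith [h1, h2, mul_le_mul_of_nonneg_left haa (sq_nonneg P),
      mul_le_mul_of_nonneg_left hbb (sq_nonneg Q)]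
  have hcs := sum_sq_le_sum_mul_sum_of_sq_le_mul (range N)
    (r := fun k => w k * z k * (P * a (k + 1) + Q * b (k + 1)))
    (f := fun k => w k * z k ^ 2) (g := fun k => w k * (P * a (k + 1) + Q * b (k + 1)) ^ 2)
    (fun k _ => mul_nonneg (fw_nonneg _ _) (sq_nonneg _))
    (fun k _ => mul_nonneg (fw_nonneg _ _) (sq_nonneg _)) (fun k _ => le_of_eq (by ring))
  rw [← hSF, hT] at hcs
  exact le_of_mul_le_mul_right ((cs_step (mul_nonneg hF0.le (sum_nonneg fun k _ =>
    mul_nonneg (sq_nonneg _) (mul_nonneg (by positivity) (kerN_nonneg η m l k)))) hcs hV).trans_eq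
    (mul_comm _ _)) hF0

/-- Bessel's inequality for lowering. -/
lemma bessel_in (e0 : 0 ≤ η) (e1 : η ≤ 1) (M L N : ℕ) (Y : ℕ → ℝ) :
    η * gA η N Y M L ^ 2 / (M : ℝ) + (1 - η) * gB η N Y M L ^ 2 / (L : ℝ) ≤
      ∑ k ∈ range N, Y k ^ 2 * (((k : ℝ) + 1) * kerN η M L (k + 1)) := by
  rcases Nat.eq_zero_or_pos (M + L) with h0 | h0
  · obtain ⟨rfl, rfl⟩ : M = 0 ∧ L = 0 := by omega
    simpa [gA, gB] using sum_nonneg fun k (_ : k ∈ range N) =>
      mul_nonneg (sq_nonneg (Y k)) (mul_nonneg (by positivity : (0 : ℝ) ≤ (k : ℝ) + 1) (kerN_nonneg η 0 0 (k + 1)))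
  obtain ⟨n, hn⟩ : ∃ n, M + L = n + 1 := ⟨M + L - 1, by omega⟩
  set F : ℝ := (M.factorial : ℝ) * L.factorial with hF
  have hF0 : 0 < F := by positivity
  set a := fun k : ℕ => (M : ℝ) * bcf η (M - 1) L k with ha
  set b := fun k : ℕ => (L : ℝ) * bcf η M (L - 1) k with hb
  set z := fun k : ℕ => Y k * bcf η M L (k + 1)
  set P := Real.sqrt η * gA η N Y M L / (M : ℝ) with hP
  set Q := Real.sqrt (1 - η) * gB η N Y M L / (L : ℝ) with hQ
  have hA : Real.sqrt η * gA η N Y M L * F =
      ∑ k ∈ range N, ((k : ℝ) + 1) * fw n k * z k * a k := by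
    rw [gA, mul_sum, sum_mul]
    refine sum_congr rfl fun k _ => ?_
    simp only [z, ha, hF]
    rcases M with _ | M
    · simp
    · have h := factor_left e0 e1 L k M
      rw [show M + L + 1 = n + 1 by omega, fw_succ_succ] at h
      rw [Nat.add_sub_cancel, Nat.factorial_succ]
      push_cast
      linear_combination (-(Y k) * ((M : ℝ) + 1)) * h
  have hB : Real.sqrt (1 - η) * gB η N Y M L * F =
      ∑ k ∈ range N, ((k : ℝ) + 1) * fw n k * z k * b k := by
    rw [gB, mul_sum, sum_mul]
    refine sum_congr rfl fun k _ => ?_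
    simp only [z, hb, hF]
    rcases L with _ | L
    · simp
    · have h := factor_right e0 e1 M k L
      rw [show M + L + 1 = n + 1 by omega, fw_succ_succ] at h
      rw [Nat.add_sub_cancel, Nat.factorial_succ]
      push_cast
      linear_combination (-(Y k) * ((L : ℝ) + 1)) * h
  set S := η * gA η N Y M L ^ 2 / (M : ℝ) + (1 - η) * gB η N Y M L ^ 2 / (L : ℝ) with hS
  have hSF : S * F = ∑ k ∈ range N, ((k : ℝ) + 1) * fw n k * z k * (P * a k + Q * b k) := by
    have : ∑ k ∈ range N, ((k : ℝ) + 1) * fw n k * z k * (P * a k + Q * b k) =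
        P * (Real.sqrt η * gA η N Y M L * F) + Q * (Real.sqrt (1 - η) * gB η N Y M L * F) := by
      rw [hA, hB, mul_sum, mul_sum, ← sum_add_distrib]
      exact sum_congr rfl fun k _ => by ring
    rw [this, hS, hP, hQ]
    have h1 := Real.mul_self_sqrt e0
    have h2 := Real.mul_self_sqrt (sub_nonneg.2 e1)
    linear_combination (-(gA η N Y M L ^ 2 / (M : ℝ)) * F) * h1 -
      (gB η N Y M L ^ 2 / (L : ℝ) * F) * h2
  have hT : ∑ k ∈ range N, ((k : ℝ) + 1) ^ 2 * fw n k * z k ^ 2 =
      F * ∑ k ∈ range N, Y k ^ 2 * (((k : ℝ) + 1) * kerN η M L (k + 1)) := by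
    rw [mul_sum]
    refine sum_congr rfl fun k _ => ?_
    have h := kerN_mul_fw η M L (k + 1)
    rw [hn, fw_succ_succ] at h
    simp only [z]
    linear_combination (-(Y k ^ 2 * ((k : ℝ) + 1))) * h
  have hV : ∑ k ∈ range N, fw n k * (P * a k + Q * b k) ^ 2 ≤ S * F := by
    set K := max N (n + 1)
    refine (sum_le_sum_of_subset_of_nonneg (range_mono (le_max_left N (n + 1)))
      fun k _ _ => mul_nonneg (fw_nonneg _ _) (sq_nonneg _)).trans ?_
    have h2 : ∑ k ∈ range K, fw n k * (P * a k + Q * b k) ^ 2 =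
        (P * (M : ℝ)) ^ 2 * (∑ k ∈ range K, fw n k * bcf η (M - 1) L k ^ 2) +
        2 * P * Q * (∑ k ∈ range K, fw n k * a k * b k) +
        (Q * (L : ℝ)) ^ 2 * (∑ k ∈ range K, fw n k * bcf η M (L - 1) k ^ 2) := by
      simp only [mul_sum, ← sum_add_distrib, ha, hb]
      exact sum_congr rfl fun k _ => by ring
    have hab : ∑ k ∈ range K, fw n k * a k * b k = 0 := by
      simp only [ha, hb]
      rcases M with _ | M
      · simp
      rcases L with _ | L
      · simp
      obtain rfl : n = M + L + 1 := by omega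
      simp only [Nat.add_sub_cancel]
      rw [← sum_subset (range_mono (le_max_right N (M + L + 1 + 1)))]
      · refine (sum_congr rfl fun k _ => ?_).trans
          ((mul_sum _ _ (((M + 1 : ℕ) : ℝ) * ((L + 1 : ℕ) : ℝ))).symm.trans
            (by rw [bcf_orth e0 e1 M L, mul_zero]))
        ring
      · intro k _ hk
        rw [mem_range, not_lt] at hk
        simp [bcf_high (show M + 1 + L < k by omega)]
    have ea : (P * (M : ℝ)) ^ 2 * (∑ k ∈ range K, fw n k * bcf η (M - 1) L k ^ 2) ≤
        η * gA η N Y M L ^ 2 / (M : ℝ) * F := by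
      rcases M with _ | M
      · simp
      · have h := bcf_norm e0 e1 M L K
        rw [show M + L = n by omega] at h
        rw [Nat.add_sub_cancel]
        refine (mul_le_mul_of_nonneg_left h (sq_nonneg _)).trans_eq ?_
        rw [hP, hF, mul_pow, div_pow, mul_pow, Real.sq_sqrt e0, Nat.factorial_succ]
        push_cast
        field_simp
    have eb : (Q * (L : ℝ)) ^ 2 * (∑ k ∈ range K, fw n k * bcf η M (L - 1) k ^ 2) ≤
        (1 - η) * gB η N Y M L ^ 2 / (L : ℝ) * F := by
      rcases L with _ | L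
      · simp
      · have h := bcf_norm e0 e1 M L K
        rw [show M + L = n by omega] at h
        rw [Nat.add_sub_cancel]
        refine (mul_le_mul_of_nonneg_left h (sq_nonneg _)).trans_eq ?_
        rw [hQ, hF, mul_pow, div_pow, mul_pow, Real.sq_sqrt (sub_nonneg.2 e1), Nat.factorial_succ]
        push_cast
        field_simp
    rw [h2, hab, mul_zero, add_zero, hS, add_mul]
    exact add_le_add ea eb
  have hcs := sum_sq_le_sum_mul_sum_of_sq_le_mul (range N)
    (r := fun k => ((k : ℝ) + 1) * fw n k * z k * (P * a k + Q * b k))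
    (f := fun k => ((k : ℝ) + 1) ^ 2 * fw n k * z k ^ 2)
    (g := fun k => fw n k * (P * a k + Q * b k) ^ 2)
    (fun k _ => mul_nonneg (mul_nonneg (sq_nonneg _) (fw_nonneg _ _)) (sq_nonneg _))
    (fun k _ => mul_nonneg (fw_nonneg _ _) (sq_nonneg _)) (fun k _ => le_of_eq (by ring))
  rw [← hSF, hT] at hcs
  exact le_of_mul_le_mul_right ((cs_step (mul_nonneg hF0.le (sum_nonneg fun k _ =>
    mul_nonneg (sq_nonneg _) (mul_nonneg (by positivity) (kerN_nonneg η M L (k + 1))))) hcs hV).trans_eq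
    (mul_comm _ _)) hF0

end Vale.Agent.P369.Diag
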