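import Vale.Agent.P369.Diag.Master
import Vale.Agent.P369.Diag.Anchors

/-!
The entropy photon-number inequality for finitely supported decreasing weights.
-/

namespace Vale.Agent.P369.Diag

open Finset Filter Topology MeasureTheory Real

/-- The interpolation `N^(1-θ) (N+1)^θ`. -/
noncomputable def aF (N θ : ℝ) : ℝ := N * exp (θ * LL N)

theorem exp_LL {N : ℝ} (hN : 0 < N) : exp (LL N) = (N + 1) / N := by
  rw [LL, exp_sub, exp_log (by linarith), exp_log hN]

theorem aF_zero (N : ℝ) : aF N 0 = N := by simp [aF]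

theorem aF_one {N : ℝ} (hN : 0 < N) : aF N 1 = N + 1 := by
  rw [aF, one_mul, exp_LL hN]; field_simp

theorem aF_pos {N : ℝ} (hN : 0 < N) (θ : ℝ) : 0 < aF N θ := mul_pos hN (exp_pos _)

theorem hasDerivAt_aF (N θ : ℝ) : HasDerivAt (aF N) (LL N * aF N θ) θ := by
  have h := (((hasDerivAt_id θ).mul_const (LL N)).exp).const_mul N
  exact h.congr_deriv (by simp [aF]; ring)

theorem continuous_aF (N : ℝ) : Continuous (aF N) :=
  continuous_iff_continuousAt.2 fun θ => (hasDerivAt_aF N θ).continuousAt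

theorem strictMono_aF {N : ℝ} (hN : 0 < N) : StrictMono (aF N) := fun _ _ hab =>
  mul_lt_mul_of_pos_left (exp_lt_exp.2 (mul_lt_mul_of_pos_right hab (LL_pos hN))) hN

theorem log_aF {N : ℝ} (hN : 0 < N) (θ : ℝ) : log (aF N θ) = log N + θ * LL N := by
  rw [aF, log_mul hN.ne' (exp_ne_zero _), log_exp]

theorem aF_shift_mem {N θ : ℝ} (hN : 0 < N) (hθ : θ ∈ Set.Ioo (0 : ℝ) 1) :
    aF N θ - N ∈ Set.Ioo (0 : ℝ) 1 :=
  ⟨by linarith [strictMono_aF hN hθ.1, aF_zero N], by linarith [strictMono_aF hN hθ.2, aF_one hN]⟩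

theorem image_aF {N : ℝ} (hN : 0 < N) :
    (fun θ => aF N θ - N) '' Set.Ioo (0 : ℝ) 1 = Set.Ioo (0 : ℝ) 1 := by
  refine Set.Subset.antisymm (Set.image_subset_iff.2 fun θ hθ => aF_shift_mem hN hθ) ?_
  have h := intermediate_value_Ioo (zero_le_one (α := ℝ))
    ((continuous_aF N).sub continuous_const (g := fun _ => N)).continuousOn
  simpa [aF_zero, aF_one hN] using h

theorem subst_aF {N : ℝ} (hN : 0 < N) {f : ℝ → ℝ} (hf : IntegrableOn f (Set.Ioo 0 1)) :
    IntegrableOn (fun θ => LL N * aF N θ * f (aF N θ - N)) (Set.Ioo 0 1) ∧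
    ∫ θ in Set.Ioo (0 : ℝ) 1, LL N * aF N θ * f (aF N θ - N) = ∫ x in Set.Ioo (0 : ℝ) 1, f x := by
  have hd : ∀ θ ∈ Set.Ioo (0 : ℝ) 1,
      HasDerivWithinAt (fun θ => aF N θ - N) (LL N * aF N θ) (Set.Ioo 0 1) θ := fun θ _ =>
    ((hasDerivAt_aF N θ).sub_const N).hasDerivWithinAt
  have hi : Set.InjOn (fun θ => aF N θ - N) (Set.Ioo 0 1) := fun a _ b _ h =>
    (strictMono_aF hN).injective (by simpa using h)
  have hpos : ∀ θ : ℝ, |LL N * aF N θ| = LL N * aF N θ := fun θ =>
    abs_of_pos (mul_pos (LL_pos hN) (aF_pos hN θ))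
  constructor
  · have h := (integrableOn_image_iff_integrableOn_abs_deriv_smul measurableSet_Ioo hd hi f).1
      (by rwa [image_aF hN])
    simpa [hpos, smul_eq_mul] using h
  · have h := integral_image_eq_integral_abs_deriv_smul measurableSet_Ioo hd hi f
    rw [image_aF hN] at h
    simpa [hpos, smul_eq_mul] using h.symm

theorem aF_concave {η NA NB θ : ℝ} (e0 : 0 ≤ η) (e1 : η ≤ 1) (hA : 0 < NA) (hB : 0 < NB)
    (h0 : 0 ≤ θ) (h1 : θ ≤ 1) :
    η * aF NA θ + (1 - η) * aF NB θ ≤ aF (η * NA + (1 - η) * NB) θ := by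
  set M := η * NA + (1 - η) * NB with hM
  have hM0 : 0 < M := by nlinarith [lt_min hA hB, min_le_left NA NB, min_le_right NA NB]
  have key : ∀ N, 0 < N → aF N θ ≤ aF M θ * ((1 - θ) * (N / M) + θ * ((N + 1) / (M + 1))) := by
    intro N hN
    have h := convexOn_exp.2 (Set.mem_univ (log (N / M))) (Set.mem_univ (log ((N + 1) / (M + 1))))
      (by linarith : 0 ≤ 1 - θ) h0 (by ring)
    simp only [smul_eq_mul] at h
    rw [exp_log (by positivity), exp_log (by positivity)] at h
    refine le_trans (le_of_eq ?_) (mul_le_mul_of_nonneg_left h (aF_pos hM0 θ).le)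
    rw [← exp_log (aF_pos hN θ), ← exp_log (aF_pos hM0 θ), ← exp_add, log_aF hN, log_aF hM0,
      log_div hN.ne' hM0.ne', log_div (by linarith) (by linarith), LL, LL]
    congr 1; ring
  refine le_trans (add_le_add (mul_le_mul_of_nonneg_left (key NA hA) e0)
    (mul_le_mul_of_nonneg_left (key NB hB) (by linarith : 0 ≤ 1 - η))) (le_of_eq ?_)
  have : M + 1 ≠ 0 := by linarith
  have := hM0.ne'
  field_simp
  rw [hM]; ring

theorem log_shift {a b l : ℝ} (ha : 0 < a) (hab : a ≤ b) (hl : 0 ≤ l) :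
    log (b + l) - log (a + l) ≤ log b - log a := by
  rw [← log_div (by linarith) (by linarith), ← log_div (by linarith) (by linarith)]
  refine log_le_log (div_pos (by linarith) (by linarith)) ?_
  rw [div_le_div_iff₀ (by linarith) ha]
  nlinarith

theorem log_succ_le {S : ℝ} (hS : 0 < S) : log (S + 1) ≤ log S + 1 / S := by
  have h := log_le_sub_one_of_pos (div_pos (show 0 < S + 1 by linarith) hS)
  rw [log_div (by linarith) hS.ne'] at h
  have e : (S + 1) / S - 1 = 1 / S := by field_simp; ring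
  linarith

theorem log_succ_le_sqrt {S : ℝ} (hS : 1 ≤ S) : (log (S + 1) + 1) / (S + 1) ≤ 3 / √S := by
  have h1 : 0 < √(S + 1) := sqrt_pos.2 (by linarith)
  have h2 := log_le_sub_one_of_pos h1
  rw [log_sqrt (by linarith)] at h2
  have h3 : (log (S + 1) + 1) / (S + 1) ≤ 3 / √(S + 1) := by
    rw [div_le_div_iff₀ (by linarith) h1]
    nlinarith [mul_self_sqrt (show 0 ≤ S + 1 by linarith)]
  exact h3.trans (div_le_div_of_nonneg_left (by norm_num) (sqrt_pos.2 (by linarith))
    (sqrt_le_sqrt (by linarith)))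

/-- The error term of the substitution. -/
noncomputable def errE (η NA NB M K θ : ℝ) : ℝ :=
  aF M θ * LL M * (1 - θ) + η * aF NA θ * θ * LL NA + (1 - η) * aF NB θ * θ * LL NB +
    (aF M θ - η * aF NA θ - (1 - η) * aF NB θ) * K

theorem continuous_errE (η NA NB M K : ℝ) : Continuous (errE η NA NB M K) := by
  have := continuous_aF
  unfold errE; fun_prop

theorem integral_errE {η NA NB M K : ℝ} (hA : 0 < NA) (hB : 0 < NB) (hM0 : 0 < M)
    (hM : M = η * NA + (1 - η) * NB) :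
    ∫ θ in Set.Ioo (0 : ℝ) 1, errE η NA NB M K θ =
      (-M + 1 / LL M) + η * (NA + 1 - 1 / LL NA) + (1 - η) * (NB + 1 - 1 / LL NB) +
        K * (1 / LL M - η / LL NA - (1 - η) / LL NB) := by
  have l0 := (LL_pos hM0).ne'
  have l1 := (LL_pos hA).ne'
  have l2 := (LL_pos hB).ne'
  set G : ℝ → ℝ := fun θ => (aF M θ - θ * aF M θ + aF M θ / LL M) +
    η * (θ * aF NA θ - aF NA θ / LL NA) + (1 - η) * (θ * aF NB θ - aF NB θ / LL NB) +
    K * (aF M θ / LL M - η * (aF NA θ / LL NA) - (1 - η) * (aF NB θ / LL NB)) with hG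
  have hd : ∀ θ ∈ Set.uIcc (0 : ℝ) 1, HasDerivAt G (errE η NA NB M K θ) θ := by
    intro θ _
    have m := hasDerivAt_aF M θ
    have a := hasDerivAt_aF NA θ
    have b := hasDerivAt_aF NB θ
    have i := hasDerivAt_id θ
    refine (((((m.sub (i.mul m)).add (m.div_const (LL M))).add
      (((i.mul a).sub (a.div_const (LL NA))).const_mul η)).add
      (((i.mul b).sub (b.div_const (LL NB))).const_mul (1 - η))).add
      ((((m.div_const (LL M)).sub ((a.div_const (LL NA)).const_mul η)).sub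
        ((b.div_const (LL NB)).const_mul (1 - η))).const_mul K)).congr_deriv ?_
    simp only [id, errE]
    field_simp
    ring
  rw [← integral_Ioc_eq_integral_Ioo, ← intervalIntegral.integral_of_le zero_le_one,
    intervalIntegral.integral_eq_sub_of_hasDerivAt hd ((continuous_errE _ _ _ _ _).intervalIntegrable _ _)]
  simp only [hG, aF_zero, aF_one hA, aF_one hB, aF_one hM0]
  rw [hM] at *
  field_simp
  ring

theorem psi_scale {n : ℕ} (p : (Fin n → ℕ) → ℝ) {a : ℝ} (ha : a ≠ 0) (S lam : ℝ) :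
    a * ∫ σ in (0 : ℝ)..S, fishR (noise (a * σ) p) lam = psi p (a * S) lam := by
  rw [intervalIntegral.integral_comp_mul_left (fun t => fishR (noise t p) lam) ha, mul_zero,
    smul_eq_mul, ← mul_assoc, mul_inv_cancel₀ ha, one_mul, psi]

theorem intervalIntegrable_fishR_scale {n R : ℕ} {p : (Fin n → ℕ) → ℝ} (h : Fin1 R p) (hd : Decr p)
    {lam : ℝ} (hl : 0 < lam) (hl1 : lam ≤ 1) {a S : ℝ} (ha : 0 < a) (hS : 0 ≤ S) :
    IntervalIntegrable (fun σ => fishR (noise (a * σ) p) lam) volume 0 S := by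
  have := (h.intervalIntegrable_fishR hd hl hl1 le_rfl (mul_nonneg ha.le hS)).comp_mul_left (c := a)
  simpa [mul_div_assoc, mul_div_cancel_left₀ S ha.ne'] using this

theorem integral_inv_succ {S : ℝ} (hS : 0 ≤ S) :
    ∫ σ in (0 : ℝ)..S, 1 / (σ + 1) = log (S + 1) := by
  have hpos : ∀ σ ∈ Set.uIcc (0 : ℝ) S, σ + 1 ≠ 0 := fun σ hσ => by
    rw [Set.uIcc_of_le hS] at hσ; linarith [hσ.1]
  rw [intervalIntegral.integral_eq_sub_of_hasDerivAt (f := fun σ => log (σ + 1))
    (fun σ hσ => by simpa using ((hasDerivAt_id σ).add_const (1 : ℝ)).log (hpos σ hσ))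
    (show ContinuousOn (fun σ : ℝ => 1 / (σ + 1)) (Set.uIcc 0 S) from
      continuousOn_const.div (by fun_prop) hpos).intervalIntegrable]
  simp

section Pointwise

variable {n R : ℕ} {p q : (Fin n → ℕ) → ℝ} {η NA NB : ℝ}

/-- The inequality between time integrals at one parameter. -/
theorem psi_pointwise (e0 : 0 < η) (e1 : η < 1) (hp : Fin1 R p) (hq : Fin1 R q) (hpd : Decr p)
    (hqd : Decr q) (hA : 0 < NA) (hB : 0 < NB) {θ S : ℝ} (hθ : θ ∈ Set.Ioo (0 : ℝ) 1) (hS : 1 ≤ S) :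
    aF (η * NA + (1 - η) * NB) θ *
        psi (bsOut η p q) ((η * NA + (1 - η) * NB + 1) * S)
          (aF (η * NA + (1 - η) * NB) θ - (η * NA + (1 - η) * NB)) ≤
      η * aF NA θ * psi p (NA * S) (aF NA θ - NA) +
        (1 - η) * aF NB θ * psi q (NB * S) (aF NB θ - NB) +
        (n : ℝ) * errE η NA NB (η * NA + (1 - η) * NB) (log S + 1 / S) θ := by
  set M := η * NA + (1 - η) * NB with hMdef
  have hc : 0 < 1 - η := by linarith
  have hM : 0 < M := add_pos (mul_pos e0 hA) (mul_pos hc hB)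
  set m := aF M θ with hm
  set a := aF NA θ with ha
  set b := aF NB θ with hb
  set lam := m - M with hlam
  set α := a - NA with hα
  set β := b - NB with hβ
  set δ := m - η * a - (1 - η) * b with hδ
  obtain ⟨hl0, hl1⟩ : lam ∈ Set.Ioo (0 : ℝ) 1 := aF_shift_mem hM hθ
  obtain ⟨hα0, hα1⟩ : α ∈ Set.Ioo (0 : ℝ) 1 := aF_shift_mem hA hθ
  obtain ⟨hβ0, hβ1⟩ : β ∈ Set.Ioo (0 : ℝ) 1 := aF_shift_mem hB hθ
  have hδ0 : 0 ≤ δ := by
    have := aF_concave e0.le e1.le hA hB hθ.1.le hθ.2.le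
    rw [← hMdef, ← hm, ← ha, ← hb] at this
    linarith
  have hleq : η * α + (1 - η) * β + δ = lam := by rw [hα, hβ, hδ, hlam, hMdef]; ring
  have hm0 : 0 < m := aF_pos hM θ
  have ha0 : 0 < a := aF_pos hA θ
  have hb0 : 0 < b := aF_pos hB θ
  have hS0 : 0 < S := by linarith
  have hC : Fin1 (2 * R) (bsOut η p q) :=
    ⟨bsOut_inBox η hp.inBox hq.inBox, bsOut_nonneg hp.inBox hq.inBox hp.nonneg hq.nonneg η, by
      rw [bsOut_mass e0.le e1.le hp.inBox hq.inBox, hp.mass, hq.mass, one_mul]⟩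
  have hCd : Decr (bsOut η p q) := bsOut_decr e0.le e1.le hp.inBox hq.inBox hp.nonneg hpd hqd
  have hwt : ∀ σ ∈ Set.Ioo (0 : ℝ) S, m * m * fishR (noise (m * σ) (bsOut η p q)) lam ≤
      η * a * a * fishR (noise (a * σ) p) α + (1 - η) * b * b * fishR (noise (b * σ) q) β +
        (n : ℝ) * δ * (1 / (σ + 1)) := by
    intro σ hσ
    have hσ1 : 0 < σ + 1 := by linarith [hσ.1]
    have h := fishR_master e0 e1 hp hq hpd hqd (a := a * σ) (b := b * σ) (t := δ * σ)
      (wA := η * a / m) (wB := (1 - η) * b / m) (w3 := δ / m) (b3 := δ / (m ^ 2 * (σ + 1)))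
      (mul_pos ha0 hσ.1) (mul_pos hb0 hσ.1) (mul_nonneg hδ0 hσ.1.le) hα0 hα1.le hβ0 hβ1.le hδ0
      (by rw [hleq]; exact hl1.le) (div_pos (mul_pos e0 ha0) hm0) (div_pos (mul_pos hc hb0) hm0)
      (div_nonneg hδ0 hm0.le) (by rw [← add_div, ← add_div, div_eq_one_iff_eq hm0.ne', hδ]; ring)
      (div_nonneg hδ0 (by positivity))
      (le_of_eq (by field_simp))
    rw [hleq, show η * (a * σ) + (1 - η) * (b * σ) + δ * σ = m * σ by rw [hδ]; ring] at h
    refine (mul_le_mul_of_nonneg_left h (mul_self_nonneg m)).trans_eq ?_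
    field_simp
  have iC := intervalIntegrable_fishR_scale hC hCd hl0 hl1.le hm0 hS0.le
  have iA := intervalIntegrable_fishR_scale hp hpd hα0 hα1.le ha0 hS0.le
  have iB := intervalIntegrable_fishR_scale hq hqd hβ0 hβ1.le hb0 hS0.le
  have i3 : IntervalIntegrable (fun σ => 1 / (σ + 1)) volume 0 S :=
    ContinuousOn.intervalIntegrable (continuousOn_const.div (by fun_prop) fun σ hσ => by
      rw [Set.uIcc_of_le hS0.le] at hσ; linarith [hσ.1])
  have hmain : m * psi (bsOut η p q) (m * S) lam ≤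
      η * a * psi p (a * S) α + (1 - η) * b * psi q (b * S) β + (n : ℝ) * δ * log (S + 1) := by
    have hI := intervalIntegral.integral_mono_on_of_le_Ioo hS0.le (iC.const_mul (m * m))
      (((iA.const_mul (η * a * a)).add (iB.const_mul ((1 - η) * b * b))).add
        (i3.const_mul ((n : ℝ) * δ))) hwt
    rw [intervalIntegral.integral_add ((iA.const_mul _).add (iB.const_mul _)) (i3.const_mul _),
      intervalIntegral.integral_add (iA.const_mul _) (iB.const_mul _)] at hI
    simp only [intervalIntegral.integral_const_mul, integral_inv_succ hS0.le] at hI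
    rw [← psi_scale _ hm0.ne', ← psi_scale _ ha0.ne', ← psi_scale _ hb0.ne']
    simpa only [mul_assoc] using hI
  have hmle : m ≤ M + 1 := by linarith [hlam ▸ hl1]
  have hT : m * S ≤ (M + 1) * S := mul_le_mul_of_nonneg_right hmle hS0.le
  have cC : psi (bsOut η p q) ((M + 1) * S) lam ≤
      psi (bsOut η p q) (m * S) lam + n * (LL M * (1 - θ)) := by
    refine (hC.psi_le hCd hl0 hl1.le (by positivity) hT).trans (add_le_add le_rfl
      (mul_le_mul_of_nonneg_left ((log_shift (by positivity) hT hl0.le).trans_eq ?_) (Nat.cast_nonneg n)))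
    rw [log_mul (by linarith) hS0.ne', log_mul hm0.ne' hS0.ne', hm, log_aF hM, LL]; ring
  have cX : ∀ {r : (Fin n → ℕ) → ℝ}, Fin1 R r → Decr r → ∀ {N x l : ℝ}, 0 < N → x = aF N θ →
      0 < l → l ≤ 1 → psi r (x * S) l ≤ psi r (N * S) l + n * (θ * LL N) := by
    intro r hr hrd N x l hN hx hl hl'
    have hNx : N * S ≤ x * S := by
      refine mul_le_mul_of_nonneg_right ?_ hS0.le
      rw [hx]
      exact (aF_zero N).ge.trans ((strictMono_aF hN).monotone hθ.1.le)
    refine (hr.psi_le hrd hl hl' (by positivity) hNx).trans (add_le_add le_rfl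
      (mul_le_mul_of_nonneg_left ((log_shift (by positivity) hNx hl.le).trans_eq ?_) (Nat.cast_nonneg n)))
    rw [hx, log_mul (aF_pos hN θ).ne' hS0.ne', log_mul hN.ne' hS0.ne', log_aF hN]; ring
  have cA := cX hp hpd hA ha hα0 hα1.le
  have cB := cX hq hqd hB hb hβ0 hβ1.le
  have c3 : (n : ℝ) * δ * log (S + 1) ≤ (n : ℝ) * δ * (log S + 1 / S) :=
    mul_le_mul_of_nonneg_left (log_succ_le hS0) (mul_nonneg (Nat.cast_nonneg n) hδ0)
  have k1 := mul_le_mul_of_nonneg_left cC hm0.le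
  have k2 := mul_le_mul_of_nonneg_left cA (mul_nonneg e0.le ha0.le)
  have k3 := mul_le_mul_of_nonneg_left cB (mul_nonneg hc.le hb0.le)
  simp only [errE, ← hm, ← ha, ← hb, ← hδ]
  linarith

end Pointwise


theorem entropy_upper {n R : ℕ} {p : (Fin n → ℕ) → ℝ} (hp : Fin1 R p) (hn : 0 < n) {N S : ℝ}
    (hN : 0 < N) (hS : 0 < S) :
    diagEntropy (noise (N * S) p) / n ≤
      log S + log N + 1 + ((∑ k ∈ box n R, (tot k : ℝ) * p k) / n + 1) / (N * S) := by
  have hn' : (0 : ℝ) < n := by exact_mod_cast hn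
  have hm : 0 ≤ (∑ k ∈ box n R, (tot k : ℝ) * p k) / n :=
    div_nonneg (sum_nonneg fun k _ => mul_nonneg (Nat.cast_nonneg _) (hp.nonneg k)) hn'.le
  set m := (∑ k ∈ box n R, (tot k : ℝ) * p k) / n with hm'
  have hNS : 0 < N * S := mul_pos hN hS
  have h := hp.entropy_le hn hNS (hp.summable_entropy hNS.le)
  rw [← hm'] at h
  rw [div_le_iff₀ hn']
  refine h.trans ((mul_le_mul_of_nonneg_left ?_ hn'.le).trans_eq (mul_comm _ _))
  refine (thermalS_le (by positivity)).trans ?_
  have h2 := log_le_sub_one_of_pos (show 0 < (m + N * S + 1) / (N * S) by positivity)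
  rw [log_div (by positivity) hNS.ne', log_mul hN.ne' hS.ne'] at h2
  have e : (m + N * S + 1) / (N * S) - 1 = (m + 1) / (N * S) := by field_simp; ring
  linarith

theorem entropy_lower {n R : ℕ} {C : (Fin n → ℕ) → ℝ} (hC : Fin1 R C) (hn : 0 < n) {M S : ℝ}
    (hM : 0 < M) (hS : 1 ≤ S) :
    log (M + 1) + log S + 1 - 3 * (∑ k ∈ box n R, (tot k : ℝ) * C k) / √S ≤
      diagEntropy (noise ((M + 1) * S) C) / n := by
  have hn' : (0 : ℝ) < n := by exact_mod_cast hn
  have hS0 : 0 < S := by linarith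
  have hm : 0 ≤ ∑ k ∈ box n R, (tot k : ℝ) * C k :=
    sum_nonneg fun k _ => mul_nonneg (Nat.cast_nonneg _) (hC.nonneg k)
  set m := ∑ k ∈ box n R, (tot k : ℝ) * C k with hm'
  set T := (M + 1) * S with hT
  have hTS : S ≤ T := by rw [hT]; nlinarith
  have hT0 : 0 < T := by linarith
  have h := hC.le_entropy hT0 (hC.summable_entropy hT0.le)
  rw [← hm'] at h
  rw [le_div_iff₀ hn']
  refine le_trans ?_ h
  have a := thermalS_ge hT0
  rw [hT, log_mul (by linarith) hS0.ne', ← hT] at a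
  have b : m / (1 + T) * thermalS T ≤ 3 * m / √S := by
    calc m / (1 + T) * thermalS T ≤ m / (1 + T) * (log (T + 1) + 1) :=
          mul_le_mul_of_nonneg_left (thermalS_le hT0) (div_nonneg hm (by linarith))
      _ = m * ((log (T + 1) + 1) / (T + 1)) := by rw [add_comm 1 T]; ring
      _ ≤ m * (3 / √T) := mul_le_mul_of_nonneg_left (log_succ_le_sqrt (by linarith)) hm
      _ ≤ m * (3 / √S) := mul_le_mul_of_nonneg_left
          (div_le_div_of_nonneg_left (by norm_num) (sqrt_pos.2 hS0) (sqrt_le_sqrt hTS)) hm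
      _ = _ := by ring
  have c : log (M + 1) + log S + 1 - 3 * m / √S ≤ (1 - m / (1 + T)) * thermalS T := by linarith
  calc _ ≤ (1 - m / (1 + T)) * thermalS T * n := mul_le_mul_of_nonneg_right c hn'.le
    _ = _ := by ring

theorem final_ineq {η NA NB M S cA cB mA mB mC sA sB sC s0 lA lB lM : ℝ}
    (_hlM : 0 < lM) (hlA : 0 < lA) (hlB : 0 < lB) (hA : 0 < NA) (hB : 0 < NB) (hS : 1 ≤ S)
    (hcA : cA = η * lM / lA) (hcB : cB = (1 - η) * lM / lB) (hcA0 : 0 ≤ cA) (hcB0 : 0 ≤ cB)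
    (hmA : 0 ≤ mA) (hmB : 0 ≤ mB)
    (uA : sA ≤ log S + log NA + 1 + (mA + 1) / (NA * S))
    (uB : sB ≤ log S + log NB + 1 + (mB + 1) / (NB * S))
    (uC : log (M + 1) + log S + 1 - 3 * mC / √S ≤ sC)
    (h : sC - s0 ≤ cA * (sA - (log NA + (NA + 1) * lA)) + cB * (sB - (log NB + (NB + 1) * lB)) +
      (1 - M * lM + η * lM * (NA + 1) - cA + (1 - η) * lM * (NB + 1) - cB +
        (log S + 1 / S) * (1 - cA - cB))) :
    (log (M + 1) + M * lM) - s0 ≤
      (3 * mC + cA * ((mA + 1) / NA) + cB * ((mB + 1) / NB) + |1 - cA - cB|) / √S := by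
  have hS0 : 0 < S := by linarith
  have eA : cA * ((NA + 1) * lA) = η * lM * (NA + 1) := by rw [hcA]; field_simp
  have eB : cB * ((NB + 1) * lB) = (1 - η) * lM * (NB + 1) := by rw [hcB]; field_simp
  have r1 := mul_le_mul_of_nonneg_left uA hcA0
  have r2 := mul_le_mul_of_nonneg_left uB hcB0
  have hsq : √S ≤ S := (sqrt_le_left hS0.le).2 (by nlinarith)
  have inv1 : 1 / S ≤ 1 / √S := one_div_le_one_div_of_le (sqrt_pos.2 hS0) hsq
  have t1 : cA * ((mA + 1) / (NA * S)) ≤ cA * ((mA + 1) / NA) * (1 / √S) := by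
    refine le_trans (le_of_eq ?_) (mul_le_mul_of_nonneg_left inv1 (by positivity))
    rw [div_mul_eq_div_div]; ring
  have t2 : cB * ((mB + 1) / (NB * S)) ≤ cB * ((mB + 1) / NB) * (1 / √S) := by
    refine le_trans (le_of_eq ?_) (mul_le_mul_of_nonneg_left inv1 (by positivity))
    rw [div_mul_eq_div_div]; ring
  have t3 : (1 - cA - cB) * (1 / S) ≤ |1 - cA - cB| * (1 / √S) :=
    mul_le_mul (le_abs_self _) inv1 (by positivity) (abs_nonneg _)
  have eD : (3 * mC + cA * ((mA + 1) / NA) + cB * ((mB + 1) / NB) + |1 - cA - cB|) / √S =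
      3 * mC / √S + cA * ((mA + 1) / NA) * (1 / √S) + cB * ((mB + 1) / NB) * (1 / √S) +
        |1 - cA - cB| * (1 / √S) := by ring
  linarith

theorem core : CoreStmt := by
  intro n R η p q hn e0 e1 hpB hqB hp0 hq0 hpd hqd hp1 hq1 hSp hSq
  have hp : Fin1 R p := ⟨hpB, hp0, hp1⟩
  have hq : Fin1 R q := ⟨hqB, hq0, hq1⟩
  have hn0 : 0 < n := hn
  have hn' : (0 : ℝ) < n := by exact_mod_cast hn0
  set C := bsOut η p q with hCdef
  have hC : Fin1 (2 * R) C :=
    ⟨bsOut_inBox η hpB hqB, bsOut_nonneg hpB hqB hp0 hq0 η, by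
      rw [hCdef, bsOut_mass e0.le e1.le hpB hqB, hp1, hq1, one_mul]⟩
  have hCd : Decr C := bsOut_decr e0.le e1.le hpB hqB hp0 hpd hqd
  set NA := phN (diagEntropy p / n) with hNA
  set NB := phN (diagEntropy q / n) with hNB
  have hA : 0 < NA := phN_pos (div_pos hSp hn')
  have hB : 0 < NB := phN_pos (div_pos hSq hn')
  have hc : 0 < 1 - η := by linarith
  set M := η * NA + (1 - η) * NB with hMdef
  have hM : 0 < M := add_pos (mul_pos e0 hA) (mul_pos hc hB)
  have gA : diagEntropy p / n = log NA + (NA + 1) * LL NA := by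
    rw [← thermalS_phN (div_pos hSp hn').le, ← hNA, thermalS, LL]; ring
  have gB : diagEntropy q / n = log NB + (NB + 1) * LL NB := by
    rw [← thermalS_phN (div_pos hSq hn').le, ← hNB, thermalS, LL]; ring
  set mA := ∑ k ∈ box n R, (tot k : ℝ) * p k with hmA
  set mB := ∑ k ∈ box n R, (tot k : ℝ) * q k with hmB
  set mC := ∑ k ∈ box n (2 * R), (tot k : ℝ) * C k with hmC
  have hmA0 : 0 ≤ mA := sum_nonneg fun k _ => mul_nonneg (Nat.cast_nonneg _) (hp0 k)
  have hmB0 : 0 ≤ mB := sum_nonneg fun k _ => mul_nonneg (Nat.cast_nonneg _) (hq0 k)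
  have hmC0 : 0 ≤ mC := sum_nonneg fun k _ => mul_nonneg (Nat.cast_nonneg _) (hC.nonneg k)
  set cA := η * LL M / LL NA with hcA
  set cB := (1 - η) * LL M / LL NB with hcB
  have lM := LL_pos hM
  have lA := LL_pos hA
  have lB := LL_pos hB
  have hcA0 : 0 ≤ cA := by positivity
  have hcB0 : 0 ≤ cB := by positivity
  set D := 3 * mC + cA * ((mA / n + 1) / NA) + cB * ((mB / n + 1) / NB) + |1 - cA - cB| with hD
  have key : ∀ S : ℝ, 1 ≤ S → 1 ≤ NA * S → 1 ≤ NB * S →
      thermalS M - diagEntropy C / n ≤ D / √S := by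
    intro S hS hSA hSB
    rw [show thermalS M = log (M + 1) + M * LL M by rw [thermalS, LL]; ring]
    have hS0 : 0 < S := by linarith
    have hSC : 1 ≤ (M + 1) * S := by nlinarith
    obtain ⟨iC, vC⟩ := hC.integral_psi hCd hSC
    obtain ⟨iA, vA⟩ := hp.integral_psi hpd hSA
    obtain ⟨iB, vB⟩ := hq.integral_psi hqd hSB
    obtain ⟨jC, wC⟩ := subst_aF hM iC
    obtain ⟨jA, wA⟩ := subst_aF hA iA
    obtain ⟨jB, wB⟩ := subst_aF hB iB
    set K := log S + 1 / S with hK
    have jE : IntegrableOn (errE η NA NB M K) (Set.Ioo 0 1) :=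
      ((continuous_errE _ _ _ _ _).integrableOn_Icc).mono_set Set.Ioo_subset_Icc_self
    have j12 : IntegrableOn (fun θ => cA * (LL NA * aF NA θ * psi p (NA * S) (aF NA θ - NA)) +
        cB * (LL NB * aF NB θ * psi q (NB * S) (aF NB θ - NB))) (Set.Ioo 0 1) :=
      (jA.const_mul cA).add (jB.const_mul cB)
    have hI : (∫ θ in Set.Ioo (0 : ℝ) 1, LL M * aF M θ * psi C ((M + 1) * S) (aF M θ - M)) ≤
        ∫ θ in Set.Ioo (0 : ℝ) 1, (cA * (LL NA * aF NA θ * psi p (NA * S) (aF NA θ - NA)) +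
          cB * (LL NB * aF NB θ * psi q (NB * S) (aF NB θ - NB)) +
          (LL M * n) * errE η NA NB M K θ) := by
      refine setIntegral_mono_on jC (j12.add (jE.const_mul (LL M * n))) measurableSet_Ioo
        fun θ hθ => ?_
      have h := mul_le_mul_of_nonneg_left (psi_pointwise e0 e1 hp hq hpd hqd hA hB hθ hS) lM.le
      rw [← hMdef, ← hCdef] at h
      refine (le_of_eq (by ring)).trans (h.trans_eq ?_)
      rw [hcA, hcB, hK]; field_simp
    rw [integral_add j12 (jE.const_mul _),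
      integral_add (jA.const_mul cA) (jB.const_mul cB)] at hI
    simp only [integral_const_mul] at hI
    rw [wC, wA, wB, vC, vA, vB, integral_errE hA hB hM hMdef] at hI
    have uA := entropy_upper hp hn0 hA hS0
    have uB := entropy_upper hq hn0 hB hS0
    rw [← hmA] at uA
    rw [← hmB] at uB
    have uC := entropy_lower hC hn0 hM hS
    rw [← hmC] at uC
    have hI' : diagEntropy (noise ((M + 1) * S) C) / n - diagEntropy C / n ≤
        cA * (diagEntropy (noise (NA * S) p) / n - diagEntropy p / n) +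
        cB * (diagEntropy (noise (NB * S) q) / n - diagEntropy q / n) +
        (1 - M * LL M + η * LL M * (NA + 1) - cA + (1 - η) * LL M * (NB + 1) - cB +
          K * (1 - cA - cB)) := by
      have := div_le_div_of_nonneg_right hI hn'.le
      refine (le_of_eq (by ring)).trans (this.trans_eq ?_)
      rw [hcA, hcB]; field_simp; ring
    rw [gA, gB, hK] at hI'
    rw [hD]
    exact final_ineq lM lA lB hA hB hS hcA hcB hcA0 hcB0 (div_nonneg hmA0 hn'.le)
      (div_nonneg hmB0 hn'.le) uA uB uC hI'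
  have hle : thermalS M ≤ diagEntropy C / n := by
    have hlim : Tendsto (fun S : ℝ => D / √S) atTop (𝓝 0) :=
      tendsto_const_nhds.div_atTop tendsto_sqrt_atTop
    have := ge_of_tendsto hlim (by
      filter_upwards [eventually_ge_atTop 1, eventually_ge_atTop (1 / NA),
        eventually_ge_atTop (1 / NB)] with S h1 h2 h3
      exact key S h1 (by rw [div_le_iff₀ hA] at h2; linarith)
        (by rw [div_le_iff₀ hB] at h3; linarith))
    linarith
  have := phN_mono (thermalS_nonneg hM.le) hle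
  rwa [phN_thermalS hM.le] at this

end Vale.Agent.P369.Diag
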