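import Vale.Agent.P369.Diag.Extend

/-!
Extension step when only the second input is monotone: from finitely supported weights of positive
entropy to all number-diagonal states with finite mean photon number.
-/

namespace Vale.Agent.P369.Diag

open Finset Filter Real Function
open scoped Topology

variable {n : ℕ}

/-- The capped inequality for finitely supported weights, only the second one monotone. -/
def CoreStmt2 : Prop :=
  ∀ (n R : ℕ) (η : ℝ) (p q : (Fin n → ℕ) → ℝ), 1 ≤ n → 0 < η → η < 1 → InBox R p → InBox R q →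
    (∀ k, 0 ≤ p k) → (∀ k, 0 ≤ q k) → Decr q → ∑ k ∈ box n R, p k = 1 →
    ∑ k ∈ box n R, q k = 1 → 0 < diagEntropy p → 0 < diagEntropy q →
      η * phN (diagEntropy p / n) +
          (1 - η) * min (phN (diagEntropy p / n)) (phN (diagEntropy q / n)) ≤
        phN (diagEntropy (bsOut η p q) / n)

lemma epni2_finite (core : CoreStmt2) (hn : 1 ≤ n) {η : ℝ} (e0 : 0 ≤ η) (e1 : η ≤ 1) {R : ℕ}
    (hR : 2 ≤ R) {p q : (Fin n → ℕ) → ℝ} (hp : InBox R p) (hq : InBox R q) (hp0 : ∀ k, 0 ≤ p k)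
    (hq0 : ∀ k, 0 ≤ q k) (hqd : Decr q) (hp1 : ∑ k ∈ box n R, p k = 1)
    (hq1 : ∑ k ∈ box n R, q k = 1) :
    η * phN (diagEntropy p / n) +
        (1 - η) * min (phN (diagEntropy p / n)) (phN (diagEntropy q / n)) ≤
      phN (diagEntropy (bsOut η p q) / n) := by
  set mix : ((Fin n → ℕ) → ℝ) → ℝ → (Fin n → ℕ) → ℝ :=
    fun w ε k => (1 - ε) * w k + ε * unifBits n k with hmix
  set et : ℝ → ℝ := fun ε => (1 - ε) * η + ε * (1 / 2) with het
  have mB : ∀ w, InBox R w → ∀ ε, InBox R (mix w ε) := fun w hw ε k hk => by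
    simp [hmix, hw k hk, inBox_mono (inBox_trunc _) hR k hk, unifBits]
  have m0 : ∀ w : (Fin n → ℕ) → ℝ, (∀ k, 0 ≤ w k) → ∀ ε : ℝ, 0 ≤ ε → ε ≤ 1 →
      ∀ k, 0 ≤ mix w ε k := fun w hw ε a b k =>
    add_nonneg (mul_nonneg (by linarith) (hw k)) (mul_nonneg a (unifBits_nonneg k))
  have m1 : ∀ w, InBox R w → ∑ k ∈ box n R, w k = 1 → ∀ ε,
      ∑ k ∈ box n R, mix w ε k = 1 := fun w hw hw1 ε => by
    simp only [hmix, sum_add_distrib, ← mul_sum]
    rw [hw1, sum_box_mono (show InBox 2 (unifBits n) from inBox_trunc _) hR, unifBits_mass]; ring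
  have hev : ∀ᶠ ε : ℝ in 𝓝[>] 0, 0 < ε ∧ ε ≤ 1 := by
    filter_upwards [self_mem_nhdsWithin, nhdsWithin_le_nhds (eventually_le_nhds zero_lt_one)]
      with ε a b using ⟨a, b⟩
  have hnn : ∀ w, InBox R w → (∀ k, 0 ≤ w k) → ∑ k ∈ box n R, w k = 1 →
      ∀ᶠ ε in 𝓝[>] 0, 0 ≤ diagEntropy (mix w ε) := fun w hw hw0 hw1 => by
    filter_upwards [hev] with ε hε
    exact diagEntropy_nonneg (m0 w hw0 ε hε.1.le hε.2)
      (isState_inBox (mB w hw ε) (m0 w hw0 ε hε.1.le hε.2) (m1 w hw hw1 ε)).le_one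
  have hcm : ∀ w k, Continuous fun ε => mix w ε k := fun w k =>
    ((continuous_const.sub continuous_id).mul continuous_const).add
      (continuous_id.mul continuous_const)
  have hcet : Continuous et := ((continuous_const.sub continuous_id).mul continuous_const).add
    (continuous_id.mul continuous_const)
  have hS : ∀ w, InBox R w →
      Tendsto (fun ε => diagEntropy (mix w ε)) (𝓝[>] 0) (𝓝 (diagEntropy w)) := fun w hw => by
    simp only [fun ε => diagEntropy_inBox (mB w hw ε), diagEntropy_inBox hw]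
    have hc : Continuous fun ε => ∑ k ∈ box n R, negMulLog (mix w ε k) :=
      continuous_finsetSum _ fun k _ => continuous_negMulLog.comp (hcm w k)
    simpa [hmix] using (hc.tendsto 0).mono_left nhdsWithin_le_nhds
  have hC : Tendsto (fun ε => diagEntropy (bsOut (et ε) (mix p ε) (mix q ε))) (𝓝[>] 0)
      (𝓝 (diagEntropy (bsOut η p q))) := by
    simp only [fun ε => diagEntropy_inBox (bsOut_inBox (et ε) (mB p hp ε) (mB q hq ε)),
      diagEntropy_inBox (bsOut_inBox η hp hq)]
    have hc : Continuous fun ε =>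
        ∑ k ∈ box n (2 * R), negMulLog (bsOut (et ε) (mix p ε) (mix q ε) k) := by
      simp only [fun ε k => bsOut_eq (et ε) (mB p hp ε) (mB q hq ε) k, kprod]
      exact continuous_finsetSum _ fun k _ => continuous_negMulLog.comp
        (continuous_finsetSum _ fun m _ => continuous_finsetSum _ fun l _ =>
          ((hcm p m).mul (hcm q l)).mul
            (continuous_finsetProd _ fun j _ => (continuous_kerN _ _ _).comp hcet))
    simpa [hmix, het] using (hc.tendsto 0).mono_left nhdsWithin_le_nhds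
  have het0 : Tendsto et (𝓝[>] 0) (𝓝 η) := by
    simpa [het] using (hcet.tendsto 0).mono_left nhdsWithin_le_nhds
  have hrng : ∀ ε : ℝ, 0 < ε → ε ≤ 1 → 0 < et ε ∧ et ε < 1 := fun ε a b => by
    refine ⟨lt_add_of_nonneg_of_lt (mul_nonneg (by linarith) e0) (by linarith), ?_⟩
    simp only [het]; nlinarith [mul_le_of_le_one_right (sub_nonneg.2 b) e1]
  have hev2 : ∀ᶠ ε in 𝓝[>] 0, 0 ≤ diagEntropy (bsOut (et ε) (mix p ε) (mix q ε)) := by
    filter_upwards [hev] with ε hε
    have sp := isState_inBox (mB p hp ε) (m0 p hp0 ε hε.1.le hε.2) (m1 p hp hp1 ε)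
    have sq' := isState_inBox (mB q hq ε) (m0 q hq0 ε hε.1.le hε.2) (m1 q hq hq1 ε)
    obtain ⟨a, b⟩ := hrng ε hε.1 hε.2
    exact diagEntropy_nonneg (out_nonneg a.le b.le sp sq') (out_le_one a.le b.le sp sq')
  have sp0 := isState_inBox hp hp0 hp1
  have sq0 := isState_inBox hq hq0 hq1
  have hA := tendsto_phN (n := n) (diagEntropy_nonneg hp0 sp0.le_one) (hnn p hp hp0 hp1) (hS p hp)
  have hB := tendsto_phN (n := n) (diagEntropy_nonneg hq0 sq0.le_one) (hnn q hq hq0 hq1) (hS q hq)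
  refine le_of_tendsto_of_tendsto
    ((het0.mul hA).add ((tendsto_const_nhds.sub het0).mul (hA.min hB)))
    (tendsto_phN (diagEntropy_nonneg (out_nonneg e0 e1 sp0 sq0) (out_le_one e0 e1 sp0 sq0))
      hev2 hC) ?_
  filter_upwards [hev] with ε hε
  obtain ⟨a, b⟩ := hrng ε hε.1 hε.2
  exact core n R (et ε) (mix p ε) (mix q ε) hn a b (mB p hp ε) (mB q hq ε)
    (m0 p hp0 ε hε.1.le hε.2) (m0 q hq0 ε hε.1.le hε.2)
    (decr_mix hqd unifBits_decr (by linarith [hε.2]) hε.1.le)
    (m1 p hp hp1 ε) (m1 q hq hq1 ε) (diagEntropy_mix_pos hn hR hp0 hp hp1 hε.1 hε.2)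
    (diagEntropy_mix_pos hn hR hq0 hq hq1 hε.1 hε.2)

/-- Exchanging the inputs exchanges `η` and `1 - η`. -/
lemma bsOut_swap {η : ℝ} (e0 : 0 ≤ η) (e1 : η ≤ 1) {p q : (Fin n → ℕ) → ℝ} (hp : IsState p)
    (hq : IsState q) : bsOut (1 - η) q p = bsOut η p q := by
  funext k
  refine (hasSum_out (sub_nonneg.2 e1) (by linarith) hq hp k).unique ?_
  refine ((Equiv.prodComm (Fin n → ℕ) (Fin n → ℕ)).hasSum_iff.2 (hasSum_out e0 e1 hp hq k)).congr_fun
    fun x => ?_
  simp only [comp_apply, Equiv.prodComm_apply, Prod.fst_swap, Prod.snd_swap, kprod,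
    ← kerN_symm e0 e1]
  ring

/-- The capped inequality for an arbitrary first and a monotone second input, from the finite
core. -/
theorem epni2_of_core (core : CoreStmt2) (n : ℕ) (hn : 1 ≤ n) (η : ℝ) (e0 : 0 ≤ η) (e1 : η ≤ 1)
    (p q : (Fin n → ℕ) → ℝ) (hp : IsState p) (hq : IsState q) (hqd : Decr q) :
    (∀ i i', outEntry η p q i i' = if i = i' then bsOut η p q i else 0) ∧
      Summable (negMulLog ∘ p) ∧ Summable (negMulLog ∘ q) ∧
      Summable (negMulLog ∘ bsOut η p q) ∧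
      η * phN (diagEntropy p / n) +
          (1 - η) * min (phN (diagEntropy p / n)) (phN (diagEntropy q / n)) ≤
        phN (diagEntropy (bsOut η p q) / n) := by
  have o0 := out_nonneg e0 e1 hp hq
  have o1 := out_le_one e0 e1 hp hq
  refine ⟨fun i i' => ?_, summable_negMulLog hp.1 hp.le_one hp.2.2,
    summable_negMulLog hq.1 hq.le_one hq.2.2,
    summable_negMulLog o0 o1 (summable_tot_out e0 e1 hp hq), ?_⟩
  · unfold outEntry
    simp_rw [tsum_amp]
    split_ifs with h
    · rfl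
    · simp
  · have hev : ∀ᶠ R in atTop, 2 ≤ R ∧ 0 < (∑ m ∈ box n R, p m) ∧ 0 < ∑ m ∈ box n R, q m :=
      (eventually_ge_atTop 2).and (((tendsto_mass hp).eventually (eventually_gt_nhds zero_lt_one)).and
        ((tendsto_mass hq).eventually (eventually_gt_nhds zero_lt_one)))
    have st : ∀ {w : (Fin n → ℕ) → ℝ}, (∀ k, 0 ≤ w k) → ∀ {R : ℕ},
        0 < (∑ m ∈ box n R, w m) → IsState (ntrunc R w) := fun {w} hw {R} h =>
      isState_inBox (inBox_ntrunc R w) (ntrunc_nonneg hw) (ntrunc_mass h.ne')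
    have hA : Tendsto (fun R => phN (diagEntropy (ntrunc R p) / n)) atTop
        (𝓝 (phN (diagEntropy p / n))) := by
      refine tendsto_phN (diagEntropy_nonneg hp.1 hp.le_one) ?_ (tendsto_entropy_ntrunc hp)
      filter_upwards [hev] with R hR
      exact diagEntropy_nonneg (st hp.1 hR.2.1).1 (st hp.1 hR.2.1).le_one
    have hB : Tendsto (fun R => phN (diagEntropy (ntrunc R q) / n)) atTop
        (𝓝 (phN (diagEntropy q / n))) := by
      refine tendsto_phN (diagEntropy_nonneg hq.1 hq.le_one) ?_ (tendsto_entropy_ntrunc hq)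
      filter_upwards [hev] with R hR
      exact diagEntropy_nonneg (st hq.1 hR.2.2).1 (st hq.1 hR.2.2).le_one
    refine le_of_tendsto_of_tendsto ((hA.const_mul η).add ((hA.min hB).const_mul (1 - η)))
      (tendsto_phN (diagEntropy_nonneg o0 o1) ?_ (tendsto_entropy_out e0 e1 hp hq)) ?_
    · filter_upwards [hev] with R hR
      exact diagEntropy_nonneg (out_nonneg e0 e1 (st hp.1 hR.2.1) (st hq.1 hR.2.2))
        (out_le_one e0 e1 (st hp.1 hR.2.1) (st hq.1 hR.2.2))
    · filter_upwards [hev] with R hR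
      exact epni2_finite core hn e0 e1 hR.1 (inBox_ntrunc R p) (inBox_ntrunc R q)
        (ntrunc_nonneg hp.1) (ntrunc_nonneg hq.1) (ntrunc_decr hq.1 hqd)
        (ntrunc_mass hR.2.1.ne') (ntrunc_mass hR.2.2.ne')

/-- Full form when the monotone input has the smaller entropy. -/
theorem epni2_of_core_le (core : CoreStmt2) (n : ℕ) (hn : 1 ≤ n) (η : ℝ) (e0 : 0 ≤ η) (e1 : η ≤ 1)
    (p q : (Fin n → ℕ) → ℝ) (hp : IsState p) (hq : IsState q) (hqd : Decr q)
    (hS : diagEntropy q ≤ diagEntropy p) :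
    η * phN (diagEntropy p / n) + (1 - η) * phN (diagEntropy q / n) ≤
      phN (diagEntropy (bsOut η p q) / n) := by
  have h := (epni2_of_core core n hn η e0 e1 p q hp hq hqd).2.2.2.2
  rwa [min_eq_right (phN_mono (div_nonneg (diagEntropy_nonneg hq.1 hq.le_one) n.cast_nonneg)
    (div_le_div_of_nonneg_right hS n.cast_nonneg))] at h

/-- The same with the two inputs exchanged. -/
theorem epni2_of_core_ge (core : CoreStmt2) (n : ℕ) (hn : 1 ≤ n) (η : ℝ) (e0 : 0 ≤ η) (e1 : η ≤ 1)
    (p q : (Fin n → ℕ) → ℝ) (hp : IsState p) (hq : IsState q) (hpd : Decr p)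
    (hS : diagEntropy p ≤ diagEntropy q) :
    η * phN (diagEntropy p / n) + (1 - η) * phN (diagEntropy q / n) ≤
      phN (diagEntropy (bsOut η p q) / n) := by
  have h := epni2_of_core_le core n hn (1 - η) (sub_nonneg.2 e1) (by linarith) q p hq hp hpd hS
  rw [bsOut_swap e0 e1 hp hq, sub_sub_cancel] at h
  linarith

/-- Both inputs monotone: the inequality in full. -/
theorem epni2_of_core_both (core : CoreStmt2) (n : ℕ) (hn : 1 ≤ n) (η : ℝ) (e0 : 0 ≤ η)
    (e1 : η ≤ 1) (p q : (Fin n → ℕ) → ℝ) (hp : IsState p) (hq : IsState q) (hpd : Decr p)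
    (hqd : Decr q) :
    η * phN (diagEntropy p / n) + (1 - η) * phN (diagEntropy q / n) ≤
      phN (diagEntropy (bsOut η p q) / n) := by
  rcases le_total (diagEntropy q) (diagEntropy p) with h | h
  · exact epni2_of_core_le core n hn η e0 e1 p q hp hq hqd h
  · exact epni2_of_core_ge core n hn η e0 e1 p q hp hq hpd h

end Vale.Agent.P369.Diag
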