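import Vale.Agent.P369.Diag.Master2
import Vale.Agent.P369.Diag.Core
import Vale.Agent.P369.Diag.Extend2

/-!
The entropy photon-number inequality for an arbitrary number-diagonal first input and a
decreasing second input, finitely supported.
-/

namespace Vale.Agent.P369.Diag

open Finset Filter Topology MeasureTheory Real

theorem LL_anti {a b : ℝ} (ha : 0 < a) (hab : a ≤ b) : LL b ≤ LL a := by
  rw [LL_eq (ha.trans_le hab), LL_eq ha]
  refine log_le_log (by have := ha.trans_le hab; positivity) ?_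
  linarith [one_div_le_one_div_of_le ha hab]

theorem shift_mono {M N θ : ℝ} (hM : 0 < M) (hMN : M ≤ N) (h0 : 0 ≤ θ) (h1 : θ ≤ 1) :
    aF M θ - M ≤ aF N θ - N := by
  have hN : 0 < N := hM.trans_le hMN
  have key : ∀ K, 0 < K → aF K θ ≤ aF N θ * ((1 - θ) * (K / N) + θ * ((K + 1) / (N + 1))) := by
    intro K hK
    have h := convexOn_exp.2 (Set.mem_univ (log (K / N))) (Set.mem_univ (log ((K + 1) / (N + 1))))
      (by linarith : 0 ≤ 1 - θ) h0 (by ring)
    simp only [smul_eq_mul] at h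
    rw [exp_log (by positivity), exp_log (by positivity)] at h
    refine le_trans (le_of_eq ?_) (mul_le_mul_of_nonneg_left h (aF_pos hN θ).le)
    rw [← exp_log (aF_pos hK θ), ← exp_log (aF_pos hN θ), ← exp_add, log_aF hK, log_aF hN,
      log_div hK.ne' hN.ne', log_div (by linarith) (by linarith), LL, LL]
    congr 1; ring
  have hs : 1 ≤ exp (θ * LL N) * ((1 - θ) + θ * (N / (N + 1))) := by
    have h := convexOn_exp.2 (Set.mem_univ (0 : ℝ)) (Set.mem_univ (-LL N))
      (by linarith : 0 ≤ 1 - θ) h0 (by ring)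
    simp only [smul_eq_mul, mul_zero, zero_add, exp_zero, mul_one] at h
    rw [exp_neg, exp_LL hN, inv_div] at h
    have h2 := mul_le_mul_of_nonneg_left h (exp_pos (θ * LL N)).le
    rwa [← exp_add, show θ * LL N + θ * -LL N = 0 by ring, exp_zero] at h2
  have hN1 : N + 1 ≠ 0 := by linarith
  have hN0 : N ≠ 0 := hN.ne'
  have e1 : aF N θ * ((1 - θ) * (M / N) + θ * ((M + 1) / (N + 1))) =
      aF N θ - (N - M) * (exp (θ * LL N) * ((1 - θ) + θ * (N / (N + 1)))) := by
    rw [aF]; field_simp; ring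
  have h3 := mul_le_mul_of_nonneg_left hs (sub_nonneg.2 hMN)
  linarith [key M hM]

theorem intervalIntegrable_scale' {n R : ℕ} {p : (Fin n → ℕ) → ℝ} (h : Fin1 R p)
    {lam : ℝ} (hl : 0 < lam) (hl1 : lam < 1) {a S : ℝ} (ha : 0 < a) (hS : 0 ≤ S) :
    IntervalIntegrable (fun σ => fishR (noise (a * σ) p) lam) volume 0 S := by
  have := (h.intervalIntegrable_fishR' hl hl1 (mul_nonneg ha.le hS)).comp_mul_left (c := a)
  simpa [mul_div_assoc, mul_div_cancel_left₀ S ha.ne'] using this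

theorem comp_out {n R : ℕ} {η : ℝ} {p q : (Fin n → ℕ) → ℝ} (e0 : 0 < η) (e1 : η < 1)
    (hp : Fin1 R p) (hq : Fin1 R q) (hqd : Decr q) {lam M NA S T m a θ : ℝ} (hl0 : 0 < lam)
    (hl1 : lam < 1) (hS : 0 < S) (hT : 0 < T) (hm : 0 < m) (hmle : m ≤ M + 1) (hTS : T ≤ S)
    (lT : log T = log S + log NA - log a) (la : log a = log NA + θ * LL NA)
    (lm : log m = log M + θ * LL M) :
    psi (bsOut η p q) ((M + 1) * S) lam ≤
      psi (bsOut η p q) (m * T) lam + n * (LL M * (1 - θ) + θ * LL NA) := by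
  have hle : m * T ≤ (M + 1) * S := mul_le_mul hmle hTS hT.le (by linarith)
  refine (Fin1.psi_out_le e0 e1 hp hq hqd hl0 hl1 (mul_pos hm hT) hle).trans (le_of_eq ?_)
  rw [log_mul (by linarith) hS.ne', log_mul hm.ne' hT.ne', lT, la, lm]
  simp only [LL]; ring

theorem comp_dec {n R : ℕ} {q : (Fin n → ℕ) → ℝ} (hq : Fin1 R q) (hqd : Decr q)
    {β NA NB S T a b θ : ℝ} (hβ0 : 0 < β) (hβ1 : β ≤ 1) (hS : 0 < S) (hT : 0 < T) (hb : 0 < b)
    (hB : 0 < NB) (hBA : NB ≤ NA) (hθ : 0 ≤ θ) (lT : log T = log S + log NA - log a)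
    (la : log a = log NA + θ * LL NA) (lb : log b = log NB + θ * LL NB) :
    psi q (b * T) β ≤ psi q (NB * S) β + n * (θ * LL NB - θ * LL NA) := by
  have hle : NB * S ≤ b * T := by
    rw [← log_le_log_iff (mul_pos hB hS) (mul_pos hb hT), log_mul hB.ne' hS.ne',
      log_mul hb.ne' hT.ne', lT, la, lb]
    nlinarith [mul_le_mul_of_nonneg_left (LL_anti hB hBA) hθ]
  refine (hq.psi_le hqd hβ0 hβ1 (by positivity) hle).trans (add_le_add le_rfl
    (mul_le_mul_of_nonneg_left ((log_shift (by positivity) hle hβ0.le).trans_eq ?_) (Nat.cast_nonneg n)))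
  rw [log_mul hb.ne' hT.ne', log_mul hB.ne' hS.ne', lT, la, lb]; ring

theorem comp_time {NA S T a θ : ℝ} (hS : 0 < S) (hT0 : 0 < T) (hA : 0 < NA) (ha : 0 < a)
    (hale : a ≤ NA + 1) (hT : T = S * NA / a) (lT : log T = log S + log NA - log a)
    (la : log a = log NA + θ * LL NA) :
    log (T + 1) ≤ log S - θ * LL NA + (NA + 1) / NA * (1 / S) := by
  refine (log_succ_le hT0).trans ?_
  have h2 : 1 / T ≤ (NA + 1) / NA * (1 / S) := by
    rw [hT, one_div_div, div_mul_div_comm, mul_one, mul_comm NA S]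
    exact div_le_div_of_nonneg_right hale (by positivity)
  rw [lT, la]; linarith

section Pointwise

variable {n R : ℕ} {p q : (Fin n → ℕ) → ℝ} {η NA NB : ℝ}

/-- The Fisher inequality at one time and one parameter. -/
theorem fishR_weighted (e0 : 0 < η) (e1 : η < 1) (hp : Fin1 R p) (hq : Fin1 R q) (hqd : Decr q)
    {a b δ α β σ m : ℝ} (ha : 0 < a) (hb : 0 < b) (hδ : 0 ≤ δ) (hm : m = η * a + (1 - η) * b + δ)
    (hσ : 0 < σ) (hβ : 0 < β) (hβα : β + δ / (1 - η) ≤ α) (hα : α < 1) :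
    m * m * fishR (noise (m * σ) (bsOut η p q)) (η * α + (1 - η) * β + δ) ≤
      η * a * a * fishR (noise (a * σ) p) α + (1 - η) * b * b * fishR (noise (b * σ) q) β +
        (n : ℝ) * δ * (1 / (σ + 1)) := by
  have hc : 0 < 1 - η := by linarith
  have hm0 : 0 < m := by rw [hm]; nlinarith [mul_pos e0 ha, mul_pos hc hb]
  set u := (1 - η) * b + δ with hu
  have hu0 : 0 < u := by rw [hu]; nlinarith [mul_pos hc hb]
  have hσ1 : 0 < σ + 1 := by linarith
  have h1 := fishR_mixed (w := η * a / m) e0 e1 hp hq hqd (mul_nonneg ha.le hσ.le)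
    (b := b * σ + δ * σ / (1 - η)) (add_pos_of_pos_of_nonneg (mul_pos hb hσ) (by positivity))
    (β := β + δ / (1 - η)) (add_pos_of_pos_of_nonneg hβ (by positivity)) hβα hα
  have e1' : η * (a * σ) + (1 - η) * (b * σ + δ * σ / (1 - η)) = m * σ := by
    rw [hm]; field_simp; ring
  have e2' : η * α + (1 - η) * (β + δ / (1 - η)) = η * α + (1 - η) * β + δ := by
    field_simp; ring
  rw [e1', e2'] at h1
  have h2 := fishR_step (τ := δ * σ / (1 - η)) (d := δ / (1 - η)) (w := (1 - η) * b / u)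
    (c3 := δ * (1 - η) / (u ^ 2 * (σ + 1))) hq hqd (mul_pos hb hσ) (by positivity) hβ (by positivity)
    (by linarith) (by positivity)
    (by rw [div_le_one hu0, hu]; linarith) (by positivity)
    (le_of_eq (by rw [one_sub_div hu0.ne', show u - (1 - η) * b = δ by rw [hu]; ring]; field_simp))
  have h3 := (mul_le_mul_of_nonneg_left h1 (mul_self_nonneg m)).trans (le_of_eq (by
    rw [one_sub_div hm0.ne', show m - η * a = u by rw [hu, hm]; ring]))
  have h4 := mul_le_mul_of_nonneg_left h2 (show 0 ≤ u ^ 2 / (1 - η) by positivity)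
  have e3 : m * m * ((η * a / m) ^ 2 / η * fishR (noise (a * σ) p) α +
      (u / m) ^ 2 / (1 - η) * fishR (noise (b * σ + δ * σ / (1 - η)) q) (β + δ / (1 - η))) =
      η * a * a * fishR (noise (a * σ) p) α +
        u ^ 2 / (1 - η) * fishR (noise (b * σ + δ * σ / (1 - η)) q) (β + δ / (1 - η)) := by
    field_simp
  have e4 : u ^ 2 / (1 - η) * (((1 - η) * b / u) ^ 2 * fishR (noise (b * σ) q) β +
      (n : ℝ) * (δ * (1 - η) / (u ^ 2 * (σ + 1)))) =
      (1 - η) * b * b * fishR (noise (b * σ) q) β + (n : ℝ) * δ * (1 / (σ + 1)) := by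
    field_simp
  linarith

/-- The inequality between time integrals at one parameter. -/
theorem psi_pointwise2 (e0 : 0 < η) (e1 : η < 1) (hp : Fin1 R p) (hq : Fin1 R q) (hqd : Decr q)
    (hB : 0 < NB) (hBA : NB ≤ NA) {θ S : ℝ} (hθ : θ ∈ Set.Ioo (0 : ℝ) 1) (hS : 1 ≤ S) :
    aF (η * NA + (1 - η) * NB) θ *
        psi (bsOut η p q) ((η * NA + (1 - η) * NB + 1) * S)
          (aF (η * NA + (1 - η) * NB) θ - (η * NA + (1 - η) * NB)) ≤
      η * aF NA θ * psi p (NA * S) (aF NA θ - NA) +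
        (1 - η) * aF NB θ * psi q (NB * S) (aF NB θ - NB) +
        (n : ℝ) * errE η NA NB (η * NA + (1 - η) * NB) (log S + (NA + 1) / NA * (1 / S)) θ := by
  set M := η * NA + (1 - η) * NB with hMdef
  have hc : 0 < 1 - η := by linarith
  have hA : 0 < NA := hB.trans_le hBA
  have hM : 0 < M := add_pos (mul_pos e0 hA) (mul_pos hc hB)
  have hMA : M ≤ NA := by rw [hMdef]; nlinarith
  have hMB : NB ≤ M := by rw [hMdef]; nlinarith
  set m := aF M θ with hm
  set a := aF NA θ with ha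
  set b := aF NB θ with hb
  set lam := m - M with hlam
  set α := a - NA with hα
  set β := b - NB with hβ
  set δ := m - η * a - (1 - η) * b with hδ
  obtain ⟨hl0, hl1⟩ : lam ∈ Set.Ioo (0 : ℝ) 1 := aF_shift_mem hM hθ
  obtain ⟨hα0, hα1⟩ : α ∈ Set.Ioo (0 : ℝ) 1 := aF_shift_mem hA hθ
  obtain ⟨hβ0, hβ1⟩ : β ∈ Set.Ioo (0 : ℝ) 1 := aF_shift_mem hB hθ
  have hδ0 : 0 ≤ δ := by
    have := aF_concave e0.le e1.le hA hB hθ.1.le hθ.2.le
    rw [← hMdef, ← hm, ← ha, ← hb] at this
    linarith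
  have hleq : η * α + (1 - η) * β + δ = lam := by rw [hα, hβ, hδ, hlam, hMdef]; ring
  have hβα : β + δ / (1 - η) ≤ α := by
    have h : lam ≤ α := shift_mono hM hMA hθ.1.le hθ.2.le
    rw [← hleq] at h
    have h2 : (1 - η) * (β + δ / (1 - η)) ≤ (1 - η) * α := by
      rw [mul_add, mul_div_cancel₀ _ hc.ne']; linarith
    exact le_of_mul_le_mul_left h2 hc
  have hm0 : 0 < m := aF_pos hM θ
  have ha0 : 0 < a := aF_pos hA θ
  have hb0 : 0 < b := aF_pos hB θ
  set T := S * NA / a with hT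
  have hS0 : 0 < S := by linarith
  have hT0 : 0 < T := by positivity
  have haT : a * T = NA * S := by rw [hT]; field_simp
  have hC : Fin1 (2 * R) (bsOut η p q) :=
    ⟨bsOut_inBox η hp.inBox hq.inBox, bsOut_nonneg hp.inBox hq.inBox hp.nonneg hq.nonneg η, by
      rw [bsOut_mass e0.le e1.le hp.inBox hq.inBox, hp.mass, hq.mass, one_mul]⟩
  have iC := intervalIntegrable_scale' hC hl0 hl1 hm0 hT0.le
  have iA := intervalIntegrable_scale' hp hα0 hα1 ha0 hT0.le
  have iB := intervalIntegrable_fishR_scale hq hqd hβ0 hβ1.le hb0 hT0.le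
  have i3 : IntervalIntegrable (fun σ => 1 / (σ + 1)) volume 0 T :=
    ContinuousOn.intervalIntegrable (continuousOn_const.div (by fun_prop) fun σ hσ => by
      rw [Set.uIcc_of_le hT0.le] at hσ; linarith [hσ.1])
  have hmain : m * psi (bsOut η p q) (m * T) lam ≤
      η * a * psi p (a * T) α + (1 - η) * b * psi q (b * T) β + (n : ℝ) * δ * log (T + 1) := by
    have hI := intervalIntegral.integral_mono_on_of_le_Ioo hT0.le (iC.const_mul (m * m))
      (((iA.const_mul (η * a * a)).add (iB.const_mul ((1 - η) * b * b))).add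
        (i3.const_mul ((n : ℝ) * δ))) fun σ hσ => by
          rw [← hleq]
          exact fishR_weighted e0 e1 hp hq hqd ha0 hb0 hδ0 (by rw [hδ]; ring) hσ.1 hβ0 hβα hα1
    rw [intervalIntegral.integral_add ((iA.const_mul _).add (iB.const_mul _)) (i3.const_mul _),
      intervalIntegral.integral_add (iA.const_mul _) (iB.const_mul _)] at hI
    simp only [intervalIntegral.integral_const_mul, integral_inv_succ hT0.le] at hI
    rw [← psi_scale _ hm0.ne', ← psi_scale _ ha0.ne', ← psi_scale _ hb0.ne']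
    simpa only [mul_assoc] using hI
  have lT : log T = log S + log NA - log a := by
    rw [hT, log_div (by positivity) ha0.ne', log_mul hS0.ne' hA.ne']
  have la : log a = log NA + θ * LL NA := log_aF hA θ
  have lm : log m = log M + θ * LL M := log_aF hM θ
  have lb : log b = log NB + θ * LL NB := log_aF hB θ
  have haA : NA ≤ a := (aF_zero NA).ge.trans ((strictMono_aF hA).monotone hθ.1.le)
  have hTS : T ≤ S := by rw [hT, div_le_iff₀ ha0]; exact mul_le_mul_of_nonneg_left haA hS0.le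
  have cC := comp_out e0 e1 hp hq hqd hl0 hl1 hS0 hT0 hm0 (by linarith [hlam ▸ hl1] : m ≤ M + 1)
    hTS lT la lm
  have cB := comp_dec hq hqd hβ0 hβ1.le hS0 hT0 hb0 hB hBA hθ.1.le lT la lb
  have cT := comp_time hS0 hT0 hA ha0 (by linarith [hα ▸ hα1] : a ≤ NA + 1) hT lT la
  have c3 : (n : ℝ) * δ * log (T + 1) ≤ (n : ℝ) * δ * (log S - θ * LL NA + (NA + 1) / NA * (1 / S)) :=
    mul_le_mul_of_nonneg_left cT (mul_nonneg (Nat.cast_nonneg n) hδ0)
  have k1 := mul_le_mul_of_nonneg_left cC hm0.le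
  have k3 := mul_le_mul_of_nonneg_left cB (mul_nonneg hc.le hb0.le)
  rw [haT] at hmain
  have : η * a * θ * LL NA = (m - δ - (1 - η) * b) * θ * LL NA := by rw [hδ]; ring
  simp only [errE, ← hm, ← ha, ← hb, ← hδ]
  linarith

end Pointwise

theorem final_ineq2 {η NA NB M S cA cB mA mB mC sA sB sC s0 tA tB lA lB lM : ℝ}
    (hlA : 0 < lA) (hlB : 0 < lB) (hA : 0 < NA) (hB : 0 < NB) (hS : 1 ≤ S)
    (hcA : cA = η * lM / lA) (hcB : cB = (1 - η) * lM / lB) (hcA0 : 0 ≤ cA) (hcB0 : 0 ≤ cB)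
    (hmA : 0 ≤ mA) (hmB : 0 ≤ mB)
    (uA : sA ≤ log S + log NA + 1 + (mA + 1) / (NA * S))
    (uB : sB ≤ log S + log NB + 1 + (mB + 1) / (NB * S))
    (uC : log (M + 1) + log S + 1 - 3 * mC / √S ≤ sC)
    (gA : log NA + (NA + 1) * lA ≤ tA) (gB : log NB + (NB + 1) * lB ≤ tB)
    (h : sC - s0 ≤ cA * (sA - tA) + cB * (sB - tB) +
      (1 - M * lM + η * lM * (NA + 1) - cA + (1 - η) * lM * (NB + 1) - cB +
        (log S + (NA + 1) / NA * (1 / S)) * (1 - cA - cB))) :
    (log (M + 1) + M * lM) - s0 ≤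
      (3 * mC + cA * ((mA + 1) / NA) + cB * ((mB + 1) / NB) +
        (NA + 1) / NA * |1 - cA - cB|) / √S := by
  have hS0 : 0 < S := by linarith
  have eA : cA * ((NA + 1) * lA) = η * lM * (NA + 1) := by rw [hcA]; field_simp
  have eB : cB * ((NB + 1) * lB) = (1 - η) * lM * (NB + 1) := by rw [hcB]; field_simp
  have r1 := mul_le_mul_of_nonneg_left uA hcA0
  have r2 := mul_le_mul_of_nonneg_left uB hcB0
  have r3 := mul_le_mul_of_nonneg_left gA hcA0
  have r4 := mul_le_mul_of_nonneg_left gB hcB0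
  have hsq : √S ≤ S := (sqrt_le_left hS0.le).2 (by nlinarith)
  have inv1 : 1 / S ≤ 1 / √S := one_div_le_one_div_of_le (sqrt_pos.2 hS0) hsq
  have t1 : cA * ((mA + 1) / (NA * S)) ≤ cA * ((mA + 1) / NA) * (1 / √S) := by
    refine le_trans (le_of_eq ?_) (mul_le_mul_of_nonneg_left inv1 (by positivity))
    rw [div_mul_eq_div_div]; ring
  have t2 : cB * ((mB + 1) / (NB * S)) ≤ cB * ((mB + 1) / NB) * (1 / √S) := by
    refine le_trans (le_of_eq ?_) (mul_le_mul_of_nonneg_left inv1 (by positivity))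
    rw [div_mul_eq_div_div]; ring
  have t3 : (NA + 1) / NA * ((1 - cA - cB) * (1 / S)) ≤ (NA + 1) / NA * (|1 - cA - cB| * (1 / √S)) :=
    mul_le_mul_of_nonneg_left (mul_le_mul (le_abs_self _) inv1 (by positivity) (abs_nonneg _))
      (by positivity)
  have eD : (3 * mC + cA * ((mA + 1) / NA) + cB * ((mB + 1) / NB) +
      (NA + 1) / NA * |1 - cA - cB|) / √S =
      3 * mC / √S + cA * ((mA + 1) / NA) * (1 / √S) + cB * ((mB + 1) / NB) * (1 / √S) +
        (NA + 1) / NA * (|1 - cA - cB| * (1 / √S)) := by ring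
  linarith

/-- The bound for any pair of parameters below the two entropy photon numbers. -/
theorem core_param {n R : ℕ} {η : ℝ} {p q : (Fin n → ℕ) → ℝ} (hn : 0 < n) (e0 : 0 < η) (e1 : η < 1)
    (hp : Fin1 R p) (hq : Fin1 R q) (hqd : Decr q) {NA NB : ℝ} (hB : 0 < NB) (hBA : NB ≤ NA)
    (hgA : thermalS NA ≤ diagEntropy p / n) (hgB : thermalS NB ≤ diagEntropy q / n) :
    thermalS (η * NA + (1 - η) * NB) ≤ diagEntropy (bsOut η p q) / n := by
  have hn' : (0 : ℝ) < n := by exact_mod_cast hn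
  set C := bsOut η p q with hCdef
  have hC : Fin1 (2 * R) C :=
    ⟨bsOut_inBox η hp.inBox hq.inBox, bsOut_nonneg hp.inBox hq.inBox hp.nonneg hq.nonneg η, by
      rw [hCdef, bsOut_mass e0.le e1.le hp.inBox hq.inBox, hp.mass, hq.mass, one_mul]⟩
  have hA : 0 < NA := hB.trans_le hBA
  have hc : 0 < 1 - η := by linarith
  set M := η * NA + (1 - η) * NB with hMdef
  have hM : 0 < M := add_pos (mul_pos e0 hA) (mul_pos hc hB)
  have gA : log NA + (NA + 1) * LL NA ≤ diagEntropy p / n :=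
    le_trans (le_of_eq (by rw [thermalS, LL]; ring)) hgA
  have gB : log NB + (NB + 1) * LL NB ≤ diagEntropy q / n :=
    le_trans (le_of_eq (by rw [thermalS, LL]; ring)) hgB
  set mA := ∑ k ∈ box n R, (tot k : ℝ) * p k with hmA
  set mB := ∑ k ∈ box n R, (tot k : ℝ) * q k with hmB
  set mC := ∑ k ∈ box n (2 * R), (tot k : ℝ) * C k with hmC
  have hmA0 : 0 ≤ mA := sum_nonneg fun k _ => mul_nonneg (Nat.cast_nonneg _) (hp.nonneg k)
  have hmB0 : 0 ≤ mB := sum_nonneg fun k _ => mul_nonneg (Nat.cast_nonneg _) (hq.nonneg k)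
  set cA := η * LL M / LL NA with hcA
  set cB := (1 - η) * LL M / LL NB with hcB
  have lM := LL_pos hM
  have lA := LL_pos hA
  have lB := LL_pos hB
  have hcA0 : 0 ≤ cA := by positivity
  have hcB0 : 0 ≤ cB := by positivity
  set D := 3 * mC + cA * ((mA / n + 1) / NA) + cB * ((mB / n + 1) / NB) +
    (NA + 1) / NA * |1 - cA - cB| with hD
  have key : ∀ S : ℝ, 1 ≤ S → 1 ≤ NA * S → 1 ≤ NB * S →
      thermalS M - diagEntropy C / n ≤ D / √S := by
    intro S hS hSA hSB
    rw [show thermalS M = log (M + 1) + M * LL M by rw [thermalS, LL]; ring]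
    have hS0 : 0 < S := by linarith
    have hSC : 1 ≤ (M + 1) * S := by nlinarith
    obtain ⟨iC, vC⟩ := hC.integral_psi' hSC
    obtain ⟨iA, vA⟩ := hp.integral_psi' hSA
    obtain ⟨iB, vB⟩ := hq.integral_psi' hSB
    obtain ⟨jC, wC⟩ := subst_aF hM iC
    obtain ⟨jA, wA⟩ := subst_aF hA iA
    obtain ⟨jB, wB⟩ := subst_aF hB iB
    set K := log S + (NA + 1) / NA * (1 / S) with hK
    have jE : IntegrableOn (errE η NA NB M K) (Set.Ioo 0 1) :=
      ((continuous_errE _ _ _ _ _).integrableOn_Icc).mono_set Set.Ioo_subset_Icc_self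
    have j12 : IntegrableOn (fun θ => cA * (LL NA * aF NA θ * psi p (NA * S) (aF NA θ - NA)) +
        cB * (LL NB * aF NB θ * psi q (NB * S) (aF NB θ - NB))) (Set.Ioo 0 1) :=
      (jA.const_mul cA).add (jB.const_mul cB)
    have hI : (∫ θ in Set.Ioo (0 : ℝ) 1, LL M * aF M θ * psi C ((M + 1) * S) (aF M θ - M)) ≤
        ∫ θ in Set.Ioo (0 : ℝ) 1, (cA * (LL NA * aF NA θ * psi p (NA * S) (aF NA θ - NA)) +
          cB * (LL NB * aF NB θ * psi q (NB * S) (aF NB θ - NB)) +
          (LL M * n) * errE η NA NB M K θ) := by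
      refine setIntegral_mono_on jC (j12.add (jE.const_mul (LL M * n))) measurableSet_Ioo
        fun θ hθ => ?_
      have h := mul_le_mul_of_nonneg_left (psi_pointwise2 e0 e1 hp hq hqd hB hBA hθ hS) lM.le
      rw [← hMdef, ← hCdef] at h
      refine (le_of_eq (by ring)).trans (h.trans_eq ?_)
      rw [hcA, hcB, hK]; field_simp
    rw [integral_add j12 (jE.const_mul _),
      integral_add (jA.const_mul cA) (jB.const_mul cB)] at hI
    simp only [integral_const_mul] at hI
    rw [wC, wA, wB, vC, vA, vB, integral_errE hA hB hM hMdef] at hI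
    have uA := entropy_upper hp hn hA hS0
    have uB := entropy_upper hq hn hB hS0
    rw [← hmA] at uA
    rw [← hmB] at uB
    have uC := entropy_lower hC hn hM hS
    rw [← hmC] at uC
    have hI' : diagEntropy (noise ((M + 1) * S) C) / n - diagEntropy C / n ≤
        cA * (diagEntropy (noise (NA * S) p) / n - diagEntropy p / n) +
        cB * (diagEntropy (noise (NB * S) q) / n - diagEntropy q / n) +
        (1 - M * LL M + η * LL M * (NA + 1) - cA + (1 - η) * LL M * (NB + 1) - cB +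
          K * (1 - cA - cB)) := by
      have := div_le_div_of_nonneg_right hI hn'.le
      refine (le_of_eq (by ring)).trans (this.trans_eq ?_)
      rw [hcA, hcB]; field_simp; ring
    rw [hK] at hI'
    rw [hD]
    exact final_ineq2 lA lB hA hB hS hcA hcB hcA0 hcB0 (div_nonneg hmA0 hn'.le)
      (div_nonneg hmB0 hn'.le) uA uB uC gA gB hI'
  have hlim : Tendsto (fun S : ℝ => D / √S) atTop (𝓝 0) :=
    tendsto_const_nhds.div_atTop tendsto_sqrt_atTop
  have := ge_of_tendsto hlim (by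
    filter_upwards [eventually_ge_atTop 1, eventually_ge_atTop (1 / NA),
      eventually_ge_atTop (1 / NB)] with S h1 h2 h3
    exact key S h1 (by rw [div_le_iff₀ hA] at h2; linarith)
      (by rw [div_le_iff₀ hB] at h3; linarith))
  linarith

theorem core2 : CoreStmt2 := by
  intro n R η p q hn e0 e1 hpB hqB hp0 hq0 hqd hp1 hq1 hSp hSq
  have hn' : (0 : ℝ) < n := by exact_mod_cast hn
  set NA := phN (diagEntropy p / n) with hNA
  set NB := min NA (phN (diagEntropy q / n)) with hNB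
  have hA : 0 < NA := phN_pos (div_pos hSp hn')
  have hB : 0 < NB := lt_min hA (phN_pos (div_pos hSq hn'))
  have gA : thermalS NA ≤ diagEntropy p / n := (thermalS_phN (div_pos hSp hn').le).le
  have gB : thermalS NB ≤ diagEntropy q / n :=
    (strictMonoOn_thermalS.monotoneOn (Set.mem_Ici.2 hB.le)
      (Set.mem_Ici.2 (phN_pos (div_pos hSq hn')).le) (min_le_right _ _)).trans
      (thermalS_phN (div_pos hSq hn').le).le
  have hM : 0 ≤ η * NA + (1 - η) * NB :=
    add_nonneg (mul_nonneg e0.le hA.le) (mul_nonneg (by linarith) hB.le)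
  have h := phN_mono (thermalS_nonneg hM) (core_param hn e0 e1 ⟨hpB, hp0, hp1⟩ ⟨hqB, hq0, hq1⟩ hqd hB
    (min_le_left _ _) gA gB)
  rwa [phN_thermalS hM] at h

end Vale.Agent.P369.Diag
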