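import Vale.Agent.P369.Fock

/-!
Shared definitions for the number-diagonal entropy photon-number inequality.

`kerN η m l k` is the probability that output mode `c` has `k` photons for inputs `m`, `l`.
`nz t m k` is the classical transition probability of the additive Gaussian noise channel of
strength `t` (quantum-limited attenuation by `1/(1+t)` followed by amplification by `1+t`).
-/

namespace Vale.Agent.P369.Diag

open Finset

/-- Transition probability from `m` to `k` photons of the noise channel of strength `t`. -/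
noncomputable def nz (t : ℝ) (m k : ℕ) : ℝ :=
  ∑ j ∈ range (min m k + 1),
    (m.choose j : ℝ) * (k.choose j : ℝ) * t ^ (m + k - 2 * j) / (1 + t) ^ (m + k + 1)

/-- Drop of the beam-splitter kernel between adjacent outputs. -/
noncomputable def bD (η : ℝ) (m l k : ℕ) : ℝ := kerN η m l k - kerN η m l (k + 1)

/-- Drop of the noise kernel between adjacent outputs. -/
noncomputable def nD (t : ℝ) (m k : ℕ) : ℝ := nz t m k - nz t m (k + 1)

/-- Add one photon in mode `i`. -/
def up {n : ℕ} (i : Fin n) (k : Fin n → ℕ) : Fin n → ℕ := Function.update k i (k i + 1)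

/-- Total photon number. -/
def tot {n : ℕ} (k : Fin n → ℕ) : ℕ := ∑ i, k i

/-- `p` is nonincreasing in every coordinate. -/
def Decr {n : ℕ} (p : (Fin n → ℕ) → ℝ) : Prop := ∀ i k, p (up i k) ≤ p k

/-- A probability weight with finite mean photon number. -/
def IsState {n : ℕ} (p : (Fin n → ℕ) → ℝ) : Prop :=
  (∀ k, 0 ≤ p k) ∧ ∑' k, p k = 1 ∧ Summable fun k => (tot k : ℝ) * p k

/-- The noise channel on `n` modes. -/
noncomputable def noise (t : ℝ) {n : ℕ} (p : (Fin n → ℕ) → ℝ) (k : Fin n → ℕ) : ℝ :=
  ∑' m, p m * ∏ i, nz t (m i) (k i)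

/-- The beam-splitter output on `n` modes. -/
noncomputable def bsOut (η : ℝ) {n : ℕ} (p q : (Fin n → ℕ) → ℝ) (k : Fin n → ℕ) : ℝ :=
  ∑' m, ∑' l, p m * q l * ∏ i, kerN η (m i) (l i) (k i)

/-- The denominator `lam p(k) + (1 - lam) p(k+e_i)`. -/
noncomputable def den {n : ℕ} (p : (Fin n → ℕ) → ℝ) (lam : ℝ) (i : Fin n) (k : Fin n → ℕ) : ℝ :=
  p (up i k) + lam * (p k - p (up i k))

/-- The monotone-metric Fisher information at parameter `lam`, summed over modes. -/
noncomputable def fish {n : ℕ} (p : (Fin n → ℕ) → ℝ) (lam : ℝ) : ℝ :=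
  ∑ i, ∑' k, ((k i : ℝ) + 1) * (p k - p (up i k)) ^ 2 / den p lam i k

end Vale.Agent.P369.Diag
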