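import Vale.Agent.P369.Diag.Evolve

/-!
The entropy identity along the noisy evolution of a finitely supported weight.
-/

namespace Vale.Agent.P369.Diag

open Finset Filter Topology MeasureTheory Real

theorem negMulLog_le_sqrt {x : ℝ} (h0 : 0 ≤ x) : negMulLog x ≤ 2 * √x := by
  rcases h0.eq_or_lt with h | h
  · simp [← h]
  · have hs := Real.sqrt_pos.2 h
    have h1 := Real.log_le_sub_one_of_pos (inv_pos.2 hs)
    rw [Real.log_inv, Real.log_sqrt h.le] at h1
    have h2 : x * (√x)⁻¹ = √x := by
      rw [← div_eq_mul_inv, Real.div_sqrt]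
    have h3 := mul_le_mul_of_nonneg_left h1 h.le
    rw [negMulLog]
    nlinarith

theorem mul_abs_log_le {x : ℝ} (h0 : 0 < x) (h1 : x ≤ 1) : x * |-Real.log x - 1| ≤ 3 * √x := by
  have a := negMulLog_le_sqrt h0.le
  have b : x ≤ √x := by nlinarith [Real.mul_self_sqrt h0.le, Real.sqrt_le_one.2 h1, Real.sqrt_nonneg x]
  have hl := Real.log_nonpos h0.le h1
  have c : |-Real.log x - 1| ≤ -Real.log x + 1 := abs_le.2 ⟨by linarith, by linarith⟩
  have d := mul_le_mul_of_nonneg_left c h0.le
  rw [negMulLog] at a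
  nlinarith

theorem down_up {n : ℕ} (i : Fin n) (k : Fin n → ℕ) : down i (up i k) = k := by
  simp [down, up]

theorem up_injective {n : ℕ} (i : Fin n) : Function.Injective (up i) := fun a b h => by
  rw [← down_up i a, h, down_up]

/-- The entropy production through one edge. -/
noncomputable def eterm {n : ℕ} (p : (Fin n → ℕ) → ℝ) (i : Fin n) (k : Fin n → ℕ) : ℝ :=
  flux i p k * (Real.log (p k) - Real.log (p (up i k)))

theorem eterm_nonneg {n : ℕ} {p : (Fin n → ℕ) → ℝ} (h0 : ∀ k, 0 < p k) (hd : Decr p) (i : Fin n)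
    (k : Fin n → ℕ) : 0 ≤ eterm p i k :=
  mul_nonneg (mul_nonneg (by positivity) (sub_nonneg.2 (hd i k)))
    (sub_nonneg.2 (Real.log_le_log (h0 _) (hd i k)))

theorem sum_box_fluxBelow {n K : ℕ} (i : Fin n) (p h : (Fin n → ℕ) → ℝ) :
    ∑ k ∈ box n K, h k * fluxBelow i p k =
      ∑ k ∈ (box n K).filter (fun k => k i + 1 < K), h (up i k) * flux i p k := by
  classical
  rw [← sum_subset (s₁ := ((box n K).filter fun k => k i + 1 < K).image (up i))]
  · rw [sum_image (up_injective i).injOn]
    refine sum_congr rfl fun k _ => ?_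
    simp only [fluxBelow, flux, up, Function.update_self]
    push_cast
    rw [show down i (Function.update k i (k i + 1)) = k from down_up i k]
  · intro k hk
    obtain ⟨m, hm, rfl⟩ := mem_image.1 hk
    rw [mem_filter, mem_box] at hm
    refine mem_box.2 fun j => ?_
    by_cases hj : j = i
    · subst hj; simp [up, hm.2]
    · simpa [up, Function.update_of_ne hj] using hm.1 j
  · intro k hk hk'
    rcases Nat.eq_zero_or_pos (k i) with h0 | h0
    · simp [fluxBelow, h0]
    · exfalso
      refine hk' (mem_image.2 ⟨down i k, mem_filter.2 ⟨mem_box.2 fun j => ?_, ?_⟩, ?_⟩)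
      · by_cases hj : j = i
        · subst hj; have := mem_box.1 hk j; simp [down]; omega
        · simpa [down, Function.update_of_ne hj] using mem_box.1 hk j
      · have := mem_box.1 hk i; simp [down]; omega
      · funext j
        by_cases hj : j = i
        · subst hj; simp [up, down]; omega
        · simp [up, down, Function.update_of_ne hj]

/-- The edges inside a box. -/
def edges (n K : ℕ) : Finset (Fin n × (Fin n → ℕ)) :=
  ((univ : Finset (Fin n)) ×ˢ box n K).filter fun z => z.2 z.1 + 1 < K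

/-- Entropy production inside a box. -/
noncomputable def prodIn {n : ℕ} (K : ℕ) (p : (Fin n → ℕ) → ℝ) : ℝ :=
  ∑ z ∈ edges n K, eterm p z.1 z.2

/-- The boundary error. -/
noncomputable def topOut {n : ℕ} (K : ℕ) (p : (Fin n → ℕ) → ℝ) : ℝ :=
  ∑ i, ∑ k ∈ (box n K).filter (fun k => ¬(k i + 1 < K)), (-Real.log (p k) - 1) * flux i p k

theorem box_derivative {n : ℕ} (K : ℕ) (p : (Fin n → ℕ) → ℝ) :
    ∑ k ∈ box n K, (-Real.log (p k) - 1) * ∑ i, (fluxBelow i p k - flux i p k) =
      prodIn K p - topOut K p := by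
  classical
  simp only [mul_sum, mul_sub, sum_sub_distrib]
  rw [sum_comm (s := box n K), sum_comm (s := box n K), prodIn, edges, sum_filter, sum_product,
    topOut, ← sum_sub_distrib, ← sum_sub_distrib]
  refine sum_congr rfl fun i _ => ?_
  rw [← sum_filter, sum_box_fluxBelow i p (fun k => -Real.log (p k) - 1),
    ← sum_filter_add_sum_filter_not (box n K) (fun k => k i + 1 < K)
      (fun k => (-Real.log (p k) - 1) * flux i p k), ← sub_sub, ← sum_sub_distrib]
  congr 1
  exact sum_congr rfl fun k _ => by rw [eterm]; ring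

theorem abs_topOut_le {n K : ℕ} {p W : (Fin n → ℕ) → ℝ} (h0 : ∀ k, 0 < p k) (h1 : ∀ k, p k ≤ 1)
    (hd : Decr p) (hW : Summable W) (hWp : ∀ k, ((tot k : ℝ) + 1) * √(p k) ≤ W k) :
    |topOut K p| ≤ 3 * n * tail K W := by
  have hW0 : ∀ k, 0 ≤ W k := fun k => le_trans (by positivity) (hWp k)
  refine (abs_sum_le_sum_abs _ _).trans ?_
  calc ∑ i, |∑ k ∈ (box n K).filter (fun k => ¬(k i + 1 < K)), (-Real.log (p k) - 1) * flux i p k|
      ≤ ∑ _i : Fin n, 3 * tail K W := by
        refine sum_le_sum fun i _ => (abs_sum_le_sum_abs _ _).trans ?_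
        calc _ ≤ ∑ k ∈ (box n K).filter (fun k => ¬(k i + 1 < K)),
              3 * (if K ≤ tot k + 1 then W k else 0) := by
              refine sum_le_sum fun k hk => ?_
              rw [mem_filter, not_lt] at hk
              rw [if_pos (hk.2.trans (Nat.add_le_add_right (le_tot k i) 1)), abs_mul, flux, abs_mul,
                abs_of_nonneg (sub_nonneg.2 (hd i k)), abs_of_nonneg (by positivity : (0 : ℝ) ≤ (k i : ℝ) + 1)]
              have a : p k - p (up i k) ≤ p k := by linarith [h0 (up i k)]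
              have b : ((k i : ℝ) + 1) ≤ (tot k : ℝ) + 1 := by
                exact_mod_cast Nat.add_le_add_right (le_tot k i) 1
              calc |-Real.log (p k) - 1| * (((k i : ℝ) + 1) * (p k - p (up i k)))
                  ≤ |-Real.log (p k) - 1| * (((tot k : ℝ) + 1) * p k) :=
                    mul_le_mul_of_nonneg_left (mul_le_mul b a (sub_nonneg.2 (hd i k)) (by positivity))
                      (abs_nonneg _)
                _ = ((tot k : ℝ) + 1) * (p k * |-Real.log (p k) - 1|) := by ring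
                _ ≤ ((tot k : ℝ) + 1) * (3 * √(p k)) :=
                    mul_le_mul_of_nonneg_left (mul_abs_log_le (h0 k) (h1 k)) (by positivity)
                _ ≤ 3 * W k := by linarith [hWp k]
          _ ≤ _ := by
              rw [← mul_sum]
              exact mul_le_mul_of_nonneg_left (sum_ite_le_tail hW0 hW _) (by norm_num)
    _ = _ := by simp [sum_const]; ring

theorem Fin1.summable_entropy {n R : ℕ} {p : (Fin n → ℕ) → ℝ} (h : Fin1 R p) {t : ℝ} (ht : 0 ≤ t) :
    Summable fun k => negMulLog (noise t p k) := by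
  obtain ⟨W, hW, hWb⟩ := h.exists_envelope (T := t + 1) (by linarith)
  refine (hW.mul_left 2).of_nonneg_of_le
    (fun k => negMulLog_nonneg (h.noise_nonneg ht k) (h.noise_le_one ht k))
    fun k => (negMulLog_le_sqrt (h.noise_nonneg ht k)).trans ?_
  refine mul_le_mul_of_nonneg_left (le_trans ?_ (hWb t ⟨ht, by linarith⟩ k)) (by norm_num)
  exact le_mul_of_one_le_left (Real.sqrt_nonneg _) (by simp)

theorem edges_mono (n : ℕ) : Monotone (edges n) := fun K L h z hz => by
  simp only [edges, mem_filter, mem_product, mem_univ, true_and] at hz ⊢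
  exact ⟨box_mono h hz.1, hz.2.trans_le h⟩

theorem tendsto_edges (n : ℕ) : Tendsto (edges n) atTop atTop :=
  tendsto_atTop_finset_of_monotone (edges_mono n) fun z =>
    ⟨tot z.2 + 2, by
      simp only [edges, mem_filter, mem_product, mem_univ, true_and]
      exact ⟨mem_box_of_tot (by omega), by have := le_tot z.2 z.1; omega⟩⟩

/-- The entropy gained by time `T` is the integrated production. -/
theorem Fin1.lintegral_production {n R : ℕ} {p : (Fin n → ℕ) → ℝ} (h : Fin1 R p)
    (hd : ∀ t, 0 ≤ t → Decr (noise t p)) {T : ℝ} (hT : 1 ≤ T) :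
    0 ≤ diagEntropy (noise T p) - diagEntropy (noise 0 p) ∧
    ∫⁻ t in Set.Ioo 0 T, ∑' z : Fin n × (Fin n → ℕ), ENNReal.ofReal (eterm (noise t p) z.1 z.2) =
      ENNReal.ofReal (diagEntropy (noise T p) - diagEntropy (noise 0 p)) := by
  obtain ⟨W, hW, hWb⟩ := h.exists_envelope hT
  have hT0 : (0 : ℝ) ≤ T := by linarith
  set F : ℕ → ℝ → ℝ := fun K t => ∑ k ∈ box n K, negMulLog (noise t p k) with hF
  set G : ℕ → ℝ → ℝ := fun K t => prodIn K (noise t p) with hG
  set ε : ℕ → ℝ := fun K => 3 * n * tail K W with hε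
  have hpos : ∀ t ∈ Set.Ioo (0 : ℝ) T, ∀ k, 0 < noise t p k := fun t ht k => h.noise_pos ht.1 k
  have hG0 : ∀ K, ∀ t ∈ Set.Ioo (0 : ℝ) T, 0 ≤ G K t := fun K t ht =>
    sum_nonneg fun z _ => eterm_nonneg (hpos t ht) (hd t ht.1.le) _ _
  have hderiv : ∀ K, ∀ t ∈ Set.Ioo (0 : ℝ) T,
      HasDerivAt (fun s => F K s + ε K * s) (G K t - topOut K (noise t p) + ε K) t := by
    intro K t ht
    have h1 : HasDerivAt (F K) (G K t - topOut K (noise t p)) t := by
      rw [hG, ← box_derivative]
      exact HasDerivAt.fun_sum fun k _ =>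
        HasDerivAt.comp (h₂ := negMulLog) t (hasDerivAt_negMulLog (hpos t ht k).ne')
          (h.hasDerivAt_noise k (by linarith [ht.1] : -1 < t))
    exact h1.add (by simpa using (hasDerivAt_id t).const_mul (ε K))
  have htop : ∀ K, ∀ t ∈ Set.Ioo (0 : ℝ) T, |topOut K (noise t p)| ≤ ε K := fun K t ht =>
    abs_topOut_le (hpos t ht) (h.noise_le_one ht.1.le) (hd t ht.1.le) hW
      (hWb t (Set.Ioo_subset_Icc_self ht))
  have hcont : ∀ K, ContinuousOn (fun s => F K s + ε K * s) (Set.Icc 0 T) := fun K =>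
    (continuousOn_finsetSum _ fun k _ => continuous_negMulLog.comp_continuousOn
      ((h.continuousOn_noise k).mono Set.Icc_subset_Ici_self)).add (by fun_prop)
  have hmeas : ∀ K, Measurable (G K) := fun K => by
    simp only [hG, prodIn, eterm, flux]
    have := h.measurable_noise
    fun_prop
  have hint' : ∀ K, IntegrableOn (fun t => G K t - topOut K (noise t p) + ε K) (Set.Ioc 0 T) :=
    fun K => intervalIntegral.integrableOn_deriv_of_nonneg (hcont K) (hderiv K) fun t ht => by
      linarith [hG0 K t ht, (abs_le.1 (htop K t ht)).2]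
  have hintG : ∀ K, IntegrableOn (G K) (Set.Ioo 0 T) := fun K => by
    refine Integrable.mono' ((hint' K).mono_set Set.Ioo_subset_Ioc_self) (hmeas K).aestronglyMeasurable ?_
    filter_upwards [ae_restrict_mem measurableSet_Ioo] with t ht
    rw [Real.norm_eq_abs, abs_of_nonneg (hG0 K t ht)]
    linarith [(abs_le.1 (htop K t ht)).2]
  have hbound : ∀ K, |(∫ t in Set.Ioo 0 T, G K t) - (F K T - F K 0)| ≤ ε K * T := by
    intro K
    have hI := hint' K
    have e : ∫ t in Set.Ioo 0 T, (G K t - topOut K (noise t p) + ε K) = F K T - F K 0 + ε K * T := by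
      rw [← integral_Ioc_eq_integral_Ioo, ← intervalIntegral.integral_of_le hT0,
        intervalIntegral.integral_eq_sub_of_hasDerivAt_of_le hT0 (hcont K) (hderiv K)
          ((intervalIntegrable_iff_integrableOn_Ioc_of_le hT0).2 hI)]
      ring
    have hc : IntegrableOn (fun _ : ℝ => 2 * ε K) (Set.Ioo 0 T) :=
      integrableOn_const (by simp)
    have l1 : ∫ t in Set.Ioo 0 T, G K t ≤ ∫ t in Set.Ioo 0 T, (G K t - topOut K (noise t p) + ε K) :=
      setIntegral_mono_on (hintG K) (hI.mono_set Set.Ioo_subset_Ioc_self) measurableSet_Ioo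
        fun t ht => by linarith [(abs_le.1 (htop K t ht)).2]
    have l2 : ∫ t in Set.Ioo 0 T, (G K t - topOut K (noise t p) + ε K) ≤
        ∫ t in Set.Ioo 0 T, (G K t + 2 * ε K) :=
      setIntegral_mono_on (hI.mono_set Set.Ioo_subset_Ioc_self) ((hintG K).add hc) measurableSet_Ioo
        fun t ht => by linarith [(abs_le.1 (htop K t ht)).1]
    rw [integral_add (hintG K) hc, setIntegral_const, Real.volume_real_Ioo_of_le hT0,
      smul_eq_mul] at l2
    rw [abs_le]; constructor <;> linarith
  have hsum : ∀ t, 0 ≤ t → Tendsto (fun K => F K t) atTop (𝓝 (diagEntropy (noise t p))) :=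
    fun t ht => (h.summable_entropy ht).hasSum.comp (tendsto_box n)
  have hlim : Tendsto (fun K => ∫ t in Set.Ioo 0 T, G K t) atTop
      (𝓝 (diagEntropy (noise T p) - diagEntropy (noise 0 p))) := by
    have hz : Tendsto (fun K => ε K * T) atTop (𝓝 0) := by
      simpa [hε] using ((tendsto_tail hW).const_mul (3 * (n : ℝ))).mul_const T
    have h2 : Tendsto (fun K => (∫ t in Set.Ioo 0 T, G K t) - (F K T - F K 0)) atTop (𝓝 0) :=
      squeeze_zero_norm hbound hz
    simpa using h2.add ((hsum T hT0).sub (hsum 0 le_rfl))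
  refine ⟨ge_of_tendsto' hlim fun K => setIntegral_nonneg measurableSet_Ioo (hG0 K), ?_⟩
  have hl : ∀ K, ∫⁻ t in Set.Ioo 0 T, ENNReal.ofReal (G K t) =
      ENNReal.ofReal (∫ t in Set.Ioo 0 T, G K t) := fun K =>
    (ofReal_integral_eq_lintegral_ofReal (hintG K)
      ((ae_restrict_mem measurableSet_Ioo).mono fun t ht => hG0 K t ht)).symm
  refine tendsto_nhds_unique ?_ (ENNReal.tendsto_ofReal hlim)
  simp only [← hl]
  refine lintegral_tendsto_of_tendsto_of_monotone
    (fun K => (hmeas K).ennreal_ofReal.aemeasurable) ?_ ?_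
  · filter_upwards [ae_restrict_mem measurableSet_Ioo] with t ht K L hKL
    exact ENNReal.ofReal_le_ofReal (sum_le_sum_of_subset_of_nonneg (edges_mono n hKL)
      fun z _ _ => eterm_nonneg (hpos t ht) (hd t ht.1.le) _ _)
  · filter_upwards [ae_restrict_mem measurableSet_Ioo] with t ht
    refine ((ENNReal.summable (f := fun z : Fin n × (Fin n → ℕ) =>
      ENNReal.ofReal (eterm (noise t p) z.1 z.2))).hasSum.comp (tendsto_edges n)).congr fun K => ?_
    exact (ENNReal.ofReal_sum_of_nonneg fun z _ => eterm_nonneg (hpos t ht) (hd t ht.1.le) _ _).symm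

theorem lintegral_fterm {n : ℕ} {p : (Fin n → ℕ) → ℝ} (h0 : ∀ k, 0 < p k) (i : Fin n) (k : Fin n → ℕ) :
    ∫⁻ lam in Set.Ioo (0 : ℝ) 1, ENNReal.ofReal (fterm p lam i k) = ENNReal.ofReal (eterm p i k) := by
  have hden : ∀ lam ∈ Set.Icc (0 : ℝ) 1, 0 < den p lam i k := fun lam hl => den_pos h0 hl.1 hl.2 i k
  have hc : ContinuousOn (fun lam => fterm p lam i k) (Set.Icc 0 1) := by
    refine ContinuousOn.div continuousOn_const ?_ fun lam hl => (hden lam hl).ne'
    simp only [den]; fun_prop
  have hi : IntegrableOn (fun lam => fterm p lam i k) (Set.Ioo 0 1) :=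
    (hc.integrableOn_Icc).mono_set Set.Ioo_subset_Icc_self
  rw [← ofReal_integral_eq_lintegral_ofReal hi ((ae_restrict_mem measurableSet_Ioo).mono fun lam hl =>
    fterm_nonneg (fun k => (h0 k).le) hl.1.le hl.2.le i k)]
  congr 1
  have hd : ∀ lam ∈ Set.uIcc (0 : ℝ) 1,
      HasDerivAt (fun l => flux i p k * Real.log (den p l i k)) (fterm p lam i k) lam := by
    intro lam hl
    rw [Set.uIcc_of_le zero_le_one] at hl
    have h1 : HasDerivAt (fun l => den p l i k) (p k - p (up i k)) lam := by
      simpa [den] using ((hasDerivAt_id lam).mul_const (p k - p (up i k))).const_add (p (up i k))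
    refine ((h1.log (hden lam hl).ne').const_mul (flux i p k)).congr_deriv ?_
    rw [fterm, flux]; ring
  rw [← integral_Ioc_eq_integral_Ioo, ← intervalIntegral.integral_of_le zero_le_one,
    intervalIntegral.integral_eq_sub_of_hasDerivAt hd
      ((hc.mono (Set.uIcc_of_le (zero_le_one (α := ℝ))).le).intervalIntegrable)]
  rw [eterm, show den p 1 i k = p k by unfold den; ring, show den p 0 i k = p (up i k) by unfold den; ring]
  ring

theorem Fin1.measurable_fterm {n R : ℕ} {p : (Fin n → ℕ) → ℝ} (h : Fin1 R p) (i : Fin n)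
    (k : Fin n → ℕ) : Measurable fun w : ℝ × ℝ => ENNReal.ofReal (fterm (noise w.2 p) w.1 i k) := by
  have a : Measurable fun w : ℝ × ℝ => noise w.2 p k := (h.measurable_noise k).comp measurable_snd
  have b : Measurable fun w : ℝ × ℝ => noise w.2 p (up i k) :=
    (h.measurable_noise (up i k)).comp measurable_snd
  exact (((a.sub b).pow_const 2).const_mul ((k i : ℝ) + 1) |>.div
    (b.add (measurable_fst.mul (a.sub b)))).ennreal_ofReal

theorem Fin1.measurable_fishE {n R : ℕ} {p : (Fin n → ℕ) → ℝ} (h : Fin1 R p) :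
    Measurable fun w : ℝ × ℝ => fishE (noise w.2 p) w.1 :=
  Measurable.tsum (f := fun (z : Fin n × (Fin n → ℕ)) (w : ℝ × ℝ) =>
    ENNReal.ofReal (fterm (noise w.2 p) w.1 z.1 z.2)) fun z => h.measurable_fterm z.1 z.2

theorem Fin1.lintegral_fishE {n R : ℕ} {p : (Fin n → ℕ) → ℝ} (h : Fin1 R p) {t : ℝ} (ht : 0 < t) :
    ∫⁻ lam in Set.Ioo (0 : ℝ) 1, fishE (noise t p) lam =
      ∑' z : Fin n × (Fin n → ℕ), ENNReal.ofReal (eterm (noise t p) z.1 z.2) := by
  have hm : ∀ z : Fin n × (Fin n → ℕ),
      Measurable fun lam : ℝ => ENNReal.ofReal (fterm (noise t p) lam z.1 z.2) := fun z => by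
    unfold fterm den
    fun_prop
  unfold fishE
  rw [lintegral_tsum (f := fun (z : Fin n × (Fin n → ℕ)) (lam : ℝ) =>
    ENNReal.ofReal (fterm (noise t p) lam z.1 z.2)) fun z => (hm z).aemeasurable]
  exact tsum_congr fun z => lintegral_fterm (fun k => h.noise_pos ht k) z.1 z.2

/-- The entropy identity. -/
theorem Fin1.entropy_identity {n R : ℕ} {p : (Fin n → ℕ) → ℝ} (h : Fin1 R p)
    (hd : ∀ t, 0 ≤ t → Decr (noise t p)) {T : ℝ} (hT : 1 ≤ T) :
    0 ≤ diagEntropy (noise T p) - diagEntropy (noise 0 p) ∧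
    ∫⁻ lam in Set.Ioo (0 : ℝ) 1, ∫⁻ t in Set.Ioo 0 T, fishE (noise t p) lam =
      ENNReal.ofReal (diagEntropy (noise T p) - diagEntropy (noise 0 p)) := by
  obtain ⟨h1, h2⟩ := h.lintegral_production hd hT
  refine ⟨h1, ?_⟩
  rw [← h2, lintegral_lintegral_swap (f := fun lam t => fishE (noise t p) lam)
    h.measurable_fishE.aemeasurable]
  exact setLIntegral_congr_fun measurableSet_Ioo fun t ht => h.lintegral_fishE ht.1

end Vale.Agent.P369.Diag
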