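import Vale.Agent.P369.Diag.Entropy

/-!
The entropy identity along the noisy evolution of an arbitrary finitely supported weight, with no
monotonicity assumption: the identity on `[ε, T]`, then `ε → 0`.
-/

namespace Vale.Agent.P369.Diag

open Finset Filter Topology MeasureTheory Real

theorem eterm_nonneg' {n : ℕ} {p : (Fin n → ℕ) → ℝ} (h0 : ∀ k, 0 < p k) (i : Fin n)
    (k : Fin n → ℕ) : 0 ≤ eterm p i k := by
  unfold eterm flux
  rw [mul_assoc]
  refine mul_nonneg (by positivity) ?_
  rcases le_total (p (up i k)) (p k) with h | h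
  · exact mul_nonneg (sub_nonneg.2 h) (sub_nonneg.2 (Real.log_le_log (h0 _) h))
  · exact mul_nonneg_of_nonpos_of_nonpos (sub_nonpos.2 h) (sub_nonpos.2 (Real.log_le_log (h0 _) h))

theorem nz_one_term_le {t : ℝ} (ht : 0 ≤ t) (m k : ℕ) :
    t ^ (m + k) / (1 + t) ^ (m + k + 1) ≤ nz t m k := by
  have h := single_le_sum (s := range (min m k + 1))
    (f := fun j => (m.choose j : ℝ) * (k.choose j : ℝ) * t ^ (m + k - 2 * j) / (1 + t) ^ (m + k + 1))
    (fun j _ => by positivity) (mem_range.2 (Nat.succ_pos _) : 0 ∈ range (min m k + 1))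
  simpa [nz] using h

theorem tot_le_tot_up {n : ℕ} (i : Fin n) (k : Fin n → ℕ) : tot k ≤ tot (up i k) :=
  sum_le_sum fun j _ => le_up i k j

/-- A geometric lower bound for the evolved weight on a time interval away from `0`. -/
theorem Fin1.exists_lower {n R : ℕ} {p : (Fin n → ℕ) → ℝ} (h : Fin1 R p) {ε T : ℝ} (hε : 0 < ε)
    (hεT : ε ≤ T) :
    ∃ L : ℝ, ∀ t ∈ Set.Icc ε T, ∀ k, |-Real.log (noise t p k) - 1| ≤ L * ((tot k : ℝ) + 1) := by
  classical
  obtain ⟨m, hm, hpm⟩ : ∃ m ∈ box n R, p m ≠ 0 :=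
    exists_ne_zero_of_sum_ne_zero (by rw [h.mass]; norm_num)
  have hpm0 : 0 < p m := (h.nonneg m).lt_of_ne hpm.symm
  set r := ε / (1 + ε) with hr
  set c := p m * ∏ i : Fin n, (r ^ m i / (1 + T)) with hc
  have hr0 : 0 < r := by positivity
  have hr1 : r ≤ 1 := by rw [hr, div_le_one (by linarith)]; linarith
  have hT1 : (0 : ℝ) < 1 + T := by linarith
  have hc0 : 0 < c := mul_pos hpm0 (prod_pos fun i _ => div_pos (pow_pos hr0 _) hT1)
  refine ⟨|Real.log c| + |Real.log r| + 1, fun t ht k => ?_⟩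
  have ht0 : 0 < t := hε.trans_le ht.1
  have hrt : r ≤ t / (1 + t) := by
    rw [hr, div_le_div_iff₀ (by linarith) (by linarith)]; linarith [ht.1]
  have hlow : c * r ^ tot k ≤ noise t p k := by
    rw [noise_fin h.inBox]
    refine le_trans ?_ (single_le_sum (fun m' _ => mul_nonneg (h.nonneg m')
      (prod_nonneg fun i _ => nz_nonneg ht0.le _ _)) hm)
    rw [hc, mul_assoc, tot, ← prod_pow_eq_pow_sum, ← prod_mul_distrib]
    refine mul_le_mul_of_nonneg_left (prod_le_prod (fun i _ => by positivity) fun i _ => ?_) hpm0.le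
    refine le_trans ?_ (nz_one_term_le ht0.le _ _)
    rw [pow_succ, ← div_div, ← div_pow, div_mul_eq_mul_div, ← pow_add]
    gcongr
    linarith [ht.2]
  have hl := Real.log_le_log (by positivity) hlow
  rw [Real.log_mul hc0.ne' (by positivity), Real.log_pow] at hl
  have hlp : Real.log (noise t p k) ≤ 0 :=
    Real.log_nonpos (h.noise_nonneg ht0.le k) (h.noise_le_one ht0.le k)
  have hk : (0 : ℝ) ≤ (tot k : ℝ) := Nat.cast_nonneg _
  have e1 := neg_abs_le (Real.log c)
  have e2 := mul_le_mul_of_nonneg_left (neg_abs_le (Real.log r)) hk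
  rw [abs_le]
  constructor <;>
    nlinarith [mul_nonneg (abs_nonneg (Real.log c)) hk, abs_nonneg (Real.log r),
      abs_nonneg (Real.log c), mul_nonneg (abs_nonneg (Real.log r)) hk]

/-- The boundary error without monotonicity. -/
theorem abs_topOut_le' {n K : ℕ} {p V : (Fin n → ℕ) → ℝ} {L : ℝ} (h0 : ∀ k, 0 ≤ p k)
    (hL : ∀ k, |-Real.log (p k) - 1| ≤ L * ((tot k : ℝ) + 1)) (hV : Summable V)
    (hVp : ∀ k, ((tot k : ℝ) + 1) ^ 2 * p k ≤ V k) :
    |topOut K p| ≤ 2 * n * |L| * tail K V := by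
  classical
  have hV0 : ∀ k, 0 ≤ V k := fun k => le_trans (mul_nonneg (sq_nonneg _) (h0 k)) (hVp k)
  have hterm : ∀ i : Fin n, |∑ k ∈ (box n K).filter (fun k => ¬(k i + 1 < K)),
      (-Real.log (p k) - 1) * flux i p k| ≤ |L| * (2 * tail K V) := by
    intro i
    set s := (box n K).filter (fun k => ¬(k i + 1 < K))
    refine (abs_sum_le_sum_abs _ _).trans ?_
    calc ∑ k ∈ s, |(-Real.log (p k) - 1) * flux i p k|
        ≤ ∑ k ∈ s, |L| * ((if K ≤ tot k + 1 then V k else 0) +
            (if K ≤ tot (up i k) + 1 then V (up i k) else 0)) := by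
          refine sum_le_sum fun k hk => ?_
          simp only [s, mem_filter, not_lt] at hk
          have hKk : K ≤ tot k + 1 := hk.2.trans (Nat.add_le_add_right (le_tot k i) 1)
          have hKu : K ≤ tot (up i k) + 1 := hKk.trans (Nat.add_le_add_right (tot_le_tot_up i k) 1)
          rw [if_pos hKk, if_pos hKu, abs_mul]
          set x := ((tot k : ℝ) + 1) with hx
          have hx0 : 0 ≤ x := by positivity
          have a1 : |flux i p k| ≤ x * (p k + p (up i k)) := by
            rw [flux, abs_mul, abs_of_nonneg (by positivity : (0 : ℝ) ≤ (k i : ℝ) + 1)]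
            refine mul_le_mul ?_ ?_ (abs_nonneg _) hx0
            · rw [hx]; exact_mod_cast Nat.add_le_add_right (le_tot k i) 1
            · exact abs_le.2 ⟨by linarith [h0 k, h0 (up i k)], by linarith [h0 k, h0 (up i k)]⟩
          have a2 : x ^ 2 * p (up i k) ≤ V (up i k) := by
            refine le_trans (mul_le_mul_of_nonneg_right (pow_le_pow_left₀ hx0 ?_ 2) (h0 _)) (hVp _)
            rw [hx]; exact_mod_cast Nat.add_le_add_right (tot_le_tot_up i k) 1
          calc |-Real.log (p k) - 1| * |flux i p k|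
              ≤ (|L| * x) * (x * (p k + p (up i k))) :=
                mul_le_mul ((hL k).trans (mul_le_mul_of_nonneg_right (le_abs_self L) hx0)) a1
                  (abs_nonneg _) (by positivity)
            _ = |L| * (x ^ 2 * p k + x ^ 2 * p (up i k)) := by ring
            _ ≤ _ := mul_le_mul_of_nonneg_left (add_le_add (hVp k) a2) (abs_nonneg L)
      _ ≤ _ := by
          rw [← mul_sum, sum_add_distrib, two_mul]
          refine mul_le_mul_of_nonneg_left (add_le_add (sum_ite_le_tail hV0 hV _) ?_) (abs_nonneg L)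
          rw [← sum_image (f := fun k => if K ≤ tot k + 1 then V k else 0) (up_injective i).injOn]
          exact sum_ite_le_tail hV0 hV _
  refine (abs_sum_le_sum_abs _ _).trans ((sum_le_sum fun i _ => hterm i).trans_eq ?_)
  simp [sum_const]; ring

/-- The production identity on an interval away from `0`. -/
theorem Fin1.lintegral_production_pos {n R : ℕ} {p : (Fin n → ℕ) → ℝ} (h : Fin1 R p) {ε T : ℝ}
    (hε : 0 < ε) (hεT : ε ≤ T) (hT : 1 ≤ T) :
    0 ≤ diagEntropy (noise T p) - diagEntropy (noise ε p) ∧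
    ∫⁻ t in Set.Ioo ε T, ∑' z : Fin n × (Fin n → ℕ), ENNReal.ofReal (eterm (noise t p) z.1 z.2) =
      ENNReal.ofReal (diagEntropy (noise T p) - diagEntropy (noise ε p)) := by
  obtain ⟨W, hW, hWb⟩ := h.exists_envelope hT
  obtain ⟨L, hL⟩ := h.exists_lower hε hεT
  have hT0 : (0 : ℝ) ≤ T := by linarith
  have h0T : (0 : ℝ) ∈ Set.Icc 0 T := Set.left_mem_Icc.2 hT0
  have hW0 : ∀ k, 0 ≤ W k := fun k => le_trans (by positivity) (hWb 0 h0T k)
  have hV : Summable fun k => W k ^ 2 := (hW.mul_left (∑' k, W k)).of_nonneg_of_le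
    (fun k => sq_nonneg _) fun k => by
      rw [sq]; exact mul_le_mul_of_nonneg_right (hW.le_tsum k fun j _ => hW0 j) (hW0 k)
  have hsub : Set.Icc ε T ⊆ Set.Icc 0 T := Set.Icc_subset_Icc_left hε.le
  have hVp : ∀ t ∈ Set.Icc ε T, ∀ k, ((tot k : ℝ) + 1) ^ 2 * noise t p k ≤ W k ^ 2 := by
    intro t ht k
    have := pow_le_pow_left₀ (by positivity) (hWb t (hsub ht) k) 2
    rwa [mul_pow, Real.sq_sqrt (h.noise_nonneg (hsub ht).1 k)] at this
  set F : ℕ → ℝ → ℝ := fun K t => ∑ k ∈ box n K, negMulLog (noise t p k) with hF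
  set G : ℕ → ℝ → ℝ := fun K t => prodIn K (noise t p) with hG
  set e : ℕ → ℝ := fun K => 2 * n * |L| * tail K (fun k => W k ^ 2) with he
  have hpos : ∀ t ∈ Set.Icc ε T, ∀ k, 0 < noise t p k := fun t ht k =>
    h.noise_pos (hε.trans_le ht.1) k
  have hG0 : ∀ K, ∀ t ∈ Set.Icc ε T, 0 ≤ G K t := fun K t ht =>
    sum_nonneg fun z _ => eterm_nonneg' (hpos t ht) _ _
  have hderiv : ∀ K, ∀ t ∈ Set.Icc ε T,
      HasDerivAt (F K) (G K t - topOut K (noise t p)) t := by
    intro K t ht
    rw [hG, ← box_derivative]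
    exact HasDerivAt.fun_sum fun k _ =>
      HasDerivAt.comp (h₂ := negMulLog) t (hasDerivAt_negMulLog (hpos t ht k).ne')
        (h.hasDerivAt_noise k (by linarith [ht.1] : -1 < t))
  have htop : ∀ K, ∀ t ∈ Set.Icc ε T, |topOut K (noise t p)| ≤ e K := fun K t ht =>
    abs_topOut_le' (fun k => (hpos t ht k).le) (hL t ht) hV (hVp t ht)
  have hN : ∀ k, ContinuousOn (fun t => noise t p k) (Set.Icc ε T) := fun k =>
    (h.continuousOn_noise k).mono fun t ht => hε.le.trans ht.1
  have hLog : ∀ k, ContinuousOn (fun t => Real.log (noise t p k)) (Set.Icc ε T) := fun k =>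
    (hN k).log fun t ht => (hpos t ht k).ne'
  have hGc : ∀ K, ContinuousOn (G K) (Set.Icc ε T) := fun K =>
    continuousOn_finsetSum _ fun z _ =>
      (continuousOn_const.mul ((hN z.2).sub (hN (up z.1 z.2)))).mul
        ((hLog z.2).sub (hLog (up z.1 z.2)))
  have hEc : ∀ K, ContinuousOn (fun t => topOut K (noise t p)) (Set.Icc ε T) := fun K =>
    continuousOn_finsetSum _ fun i _ => continuousOn_finsetSum _ fun k _ =>
      ((hLog k).neg.sub continuousOn_const).mul (continuousOn_const.mul ((hN k).sub (hN (up i k))))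
  have hbound : ∀ K, |(∫ t in ε..T, G K t) - (F K T - F K ε)| ≤ e K * (T - ε) := by
    intro K
    have hu : Set.uIcc ε T = Set.Icc ε T := Set.uIcc_of_le hεT
    have hd : ∫ t in ε..T, (G K t - topOut K (noise t p)) = F K T - F K ε :=
      intervalIntegral.integral_eq_sub_of_hasDerivAt (by rw [hu]; exact hderiv K)
        (((hGc K).sub (hEc K)).intervalIntegrable_of_Icc hεT)
    rw [intervalIntegral.integral_sub ((hGc K).intervalIntegrable_of_Icc hεT)
      ((hEc K).intervalIntegrable_of_Icc hεT)] at hd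
    rw [← hd, sub_sub_cancel]
    have := intervalIntegral.norm_integral_le_of_norm_le_const (C := e K)
      (f := fun t => topOut K (noise t p)) (a := ε) (b := T) fun t ht => by
        rw [Set.uIoc_of_le hεT] at ht
        exact htop K t (Set.Ioc_subset_Icc_self ht)
    rwa [Real.norm_eq_abs, abs_of_nonneg (sub_nonneg.2 hεT)] at this
  have hsum : ∀ t, 0 ≤ t → Tendsto (fun K => F K t) atTop (𝓝 (diagEntropy (noise t p))) :=
    fun t ht => (h.summable_entropy ht).hasSum.comp (tendsto_box n)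
  have hlim : Tendsto (fun K => ∫ t in ε..T, G K t) atTop
      (𝓝 (diagEntropy (noise T p) - diagEntropy (noise ε p))) := by
    have hz : Tendsto (fun K => e K * (T - ε)) atTop (𝓝 0) := by
      simpa [he] using ((tendsto_tail hV).const_mul (2 * (n : ℝ) * |L|)).mul_const (T - ε)
    have h2 : Tendsto (fun K => (∫ t in ε..T, G K t) - (F K T - F K ε)) atTop (𝓝 0) :=
      squeeze_zero_norm hbound hz
    simpa using h2.add ((hsum T hT0).sub (hsum ε hε.le))
  have hm : Set.Ioo ε T ⊆ Set.Icc ε T := Set.Ioo_subset_Icc_self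
  refine ⟨ge_of_tendsto' hlim fun K => intervalIntegral.integral_nonneg hεT (hG0 K), ?_⟩
  have hl : ∀ K, ∫⁻ t in Set.Ioo ε T, ENNReal.ofReal (G K t) =
      ENNReal.ofReal (∫ t in ε..T, G K t) := fun K => by
    rw [intervalIntegral.integral_of_le hεT, integral_Ioc_eq_integral_Ioo]
    exact (ofReal_integral_eq_lintegral_ofReal (((hGc K).integrableOn_Icc).mono_set hm)
      ((ae_restrict_mem measurableSet_Ioo).mono fun t ht => hG0 K t (hm ht))).symm
  refine tendsto_nhds_unique ?_ (ENNReal.tendsto_ofReal hlim)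
  simp only [← hl]
  refine lintegral_tendsto_of_tendsto_of_monotone
    (fun K => (((hGc K).mono hm).aemeasurable measurableSet_Ioo).ennreal_ofReal) ?_ ?_
  · filter_upwards [ae_restrict_mem measurableSet_Ioo] with t ht K L hKL
    exact ENNReal.ofReal_le_ofReal (sum_le_sum_of_subset_of_nonneg (edges_mono n hKL)
      fun z _ _ => eterm_nonneg' (hpos t (hm ht)) _ _)
  · filter_upwards [ae_restrict_mem measurableSet_Ioo] with t ht
    refine ((ENNReal.summable (f := fun z : Fin n × (Fin n → ℕ) =>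
      ENNReal.ofReal (eterm (noise t p) z.1 z.2))).hasSum.comp (tendsto_edges n)).congr fun K => ?_
    exact (ENNReal.ofReal_sum_of_nonneg fun z _ => eterm_nonneg' (hpos t (hm ht)) _ _).symm

/-- The entropy is continuous at time `0`. -/
theorem Fin1.tendsto_entropy_zero {n R : ℕ} {p : (Fin n → ℕ) → ℝ} (h : Fin1 R p) :
    Tendsto (fun t => diagEntropy (noise t p)) (𝓝[≥] 0) (𝓝 (diagEntropy (noise 0 p))) := by
  obtain ⟨W, hW, hWb⟩ := h.exists_envelope (T := 1) le_rfl
  refine tendsto_tsum_of_dominated_convergence (bound := fun k => 2 * W k) (hW.mul_left 2)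
    (fun k => (continuous_negMulLog.tendsto _).comp
      ((h.continuousOn_noise k) 0 Set.self_mem_Ici)) ?_
  filter_upwards [self_mem_nhdsWithin, mem_nhdsWithin_of_mem_nhds (Iio_mem_nhds one_pos)] with t ht0 ht1 k
  rw [Real.norm_eq_abs, abs_of_nonneg (negMulLog_nonneg (h.noise_nonneg ht0 k) (h.noise_le_one ht0 k))]
  refine (negMulLog_le_sqrt (h.noise_nonneg ht0 k)).trans ?_
  refine mul_le_mul_of_nonneg_left (le_trans ?_ (hWb t ⟨ht0, le_of_lt ht1⟩ k)) (by norm_num)
  exact le_mul_of_one_le_left (Real.sqrt_nonneg _) (by simp)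

/-- The entropy gained by time `T` is the integrated production, for any finitely supported weight. -/
theorem Fin1.lintegral_production' {n R : ℕ} {p : (Fin n → ℕ) → ℝ} (h : Fin1 R p) {T : ℝ}
    (hT : 1 ≤ T) :
    0 ≤ diagEntropy (noise T p) - diagEntropy (noise 0 p) ∧
    ∫⁻ t in Set.Ioo 0 T, ∑' z : Fin n × (Fin n → ℕ), ENNReal.ofReal (eterm (noise t p) z.1 z.2) =
      ENNReal.ofReal (diagEntropy (noise T p) - diagEntropy (noise 0 p)) := by
  set e : ℕ → ℝ := fun j => 1 / ((j : ℝ) + 1) with he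
  have he0 : ∀ j, 0 < e j := fun j => Nat.one_div_pos_of_nat
  have he1 : ∀ j, e j ≤ T := fun j => le_trans (by
    rw [he]; exact (div_le_one (by positivity)).2 (by simp)) hT
  have hez : Tendsto e atTop (𝓝 0) := tendsto_one_div_add_atTop_nhds_zero_nat
  have hez' : Tendsto e atTop (𝓝[≥] 0) :=
    tendsto_nhdsWithin_iff.2 ⟨hez, Eventually.of_forall fun j => (he0 j).le⟩
  have hdiff : Tendsto (fun j => diagEntropy (noise T p) - diagEntropy (noise (e j) p)) atTop
      (𝓝 (diagEntropy (noise T p) - diagEntropy (noise 0 p))) :=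
    (h.tendsto_entropy_zero.comp hez').const_sub _
  refine ⟨ge_of_tendsto' hdiff fun j => (h.lintegral_production_pos (he0 j) (he1 j) hT).1, ?_⟩
  set g : ℝ → ENNReal := fun t => ∑' z : Fin n × (Fin n → ℕ),
    ENNReal.ofReal (eterm (noise t p) z.1 z.2) with hg
  have hgm : Measurable g := by
    refine Measurable.tsum fun z => ?_
    simp only [eterm, flux]
    have := h.measurable_noise
    fun_prop
  refine tendsto_nhds_unique ?_ (ENNReal.tendsto_ofReal hdiff)
  simp only [← fun j => (h.lintegral_production_pos (he0 j) (he1 j) hT).2]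
  simp only [← lintegral_indicator measurableSet_Ioo]
  refine lintegral_tendsto_of_tendsto_of_monotone
    (fun j => (hgm.indicator measurableSet_Ioo).aemeasurable)
    (ae_of_all _ fun t i j hij => ?_) (ae_of_all _ fun t => ?_)
  · refine Set.indicator_le_indicator_of_subset (Set.Ioo_subset_Ioo_left ?_) (fun _ => zero_le) t
    exact Nat.one_div_le_one_div hij
  · refine tendsto_nhds_of_eventually_eq ?_
    by_cases ht : t ∈ Set.Ioo 0 T
    · filter_upwards [hez.eventually (Iio_mem_nhds ht.1)] with j hj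
      rw [Set.indicator_of_mem ht, Set.indicator_of_mem (show t ∈ Set.Ioo (e j) T from ⟨hj, ht.2⟩)]
    · refine Eventually.of_forall fun j => ?_
      have hj : t ∉ Set.Ioo (e j) T := fun hc => ht ⟨(he0 j).trans hc.1, hc.2⟩
      rw [Set.indicator_of_notMem ht, Set.indicator_of_notMem hj]

/-- The entropy identity without monotonicity. -/
theorem Fin1.entropy_identity' {n R : ℕ} {p : (Fin n → ℕ) → ℝ} (h : Fin1 R p) {T : ℝ}
    (hT : 1 ≤ T) :
    0 ≤ diagEntropy (noise T p) - diagEntropy (noise 0 p) ∧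
    ∫⁻ lam in Set.Ioo (0 : ℝ) 1, ∫⁻ t in Set.Ioo 0 T, fishE (noise t p) lam =
      ENNReal.ofReal (diagEntropy (noise T p) - diagEntropy (noise 0 p)) := by
  obtain ⟨h1, h2⟩ := h.lintegral_production' hT
  refine ⟨h1, ?_⟩
  rw [← h2, lintegral_lintegral_swap (f := fun lam t => fishE (noise t p) lam)
    h.measurable_fishE.aemeasurable]
  exact setLIntegral_congr_fun measurableSet_Ioo fun t ht => h.lintegral_fishE ht.1

end Vale.Agent.P369.Diag
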