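import Vale.Agent.P369.Diag.Sums

/-!
Fisher information as an extended-real sum, and its behaviour under truncation to a box.
-/

namespace Vale.Agent.P369.Diag

open Finset Filter Topology

theorem den_pos {n : ℕ} {p : (Fin n → ℕ) → ℝ} (h0 : ∀ k, 0 < p k) {a : ℝ} (ha : 0 ≤ a)
    (ha1 : a ≤ 1) (i : Fin n) (k : Fin n → ℕ) : 0 < den p a i k := by
  have e : den p a i k = a * p k + (1 - a) * p (up i k) := by unfold den; ring
  rw [e]
  rcases ha.eq_or_lt with h | h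
  · subst h; simpa using h0 (up i k)
  · exact add_pos_of_pos_of_nonneg (mul_pos h (h0 k)) (mul_nonneg (by linarith) (h0 _).le)

theorem den_nonneg_of_le_one {n : ℕ} {p : (Fin n → ℕ) → ℝ} (h0 : ∀ k, 0 ≤ p k) {a : ℝ} (ha : 0 ≤ a)
    (ha1 : a ≤ 1) (i : Fin n) (k : Fin n → ℕ) : 0 ≤ den p a i k := by
  have e : den p a i k = a * p k + (1 - a) * p (up i k) := by unfold den; ring
  rw [e]
  exact add_nonneg (mul_nonneg ha (h0 k)) (mul_nonneg (by linarith) (h0 _))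

theorem fterm_nonneg {n : ℕ} {p : (Fin n → ℕ) → ℝ} (h0 : ∀ k, 0 ≤ p k) {a : ℝ} (ha : 0 ≤ a)
    (ha1 : a ≤ 1) (i : Fin n) (k : Fin n → ℕ) : 0 ≤ fterm p a i k :=
  div_nonneg (mul_nonneg (by positivity) (sq_nonneg _)) (den_nonneg_of_le_one h0 ha ha1 i k)

/-- Fisher information as an extended nonnegative real. -/
noncomputable def fishE {n : ℕ} (p : (Fin n → ℕ) → ℝ) (lam : ℝ) : ENNReal :=
  ∑' z : Fin n × (Fin n → ℕ), ENNReal.ofReal (fterm p lam z.1 z.2)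

/-- Fisher information as a real number. -/
noncomputable def fishR {n : ℕ} (p : (Fin n → ℕ) → ℝ) (lam : ℝ) : ℝ := (fishE p lam).toReal

theorem fishR_nonneg {n : ℕ} (p : (Fin n → ℕ) → ℝ) (lam : ℝ) : 0 ≤ fishR p lam :=
  ENNReal.toReal_nonneg

theorem fishE_le {n : ℕ} {p : (Fin n → ℕ) → ℝ} (h0 : ∀ k, 0 ≤ p k) {a : ℝ} (ha : 0 ≤ a)
    (ha1 : a ≤ 1) {B : ℝ}
    (h : ∀ s : Finset (Fin n → ℕ), ∑ i, ∑ k ∈ s, fterm p a i k ≤ B) :
    fishE p a ≤ ENNReal.ofReal B := by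
  classical
  rw [fishE, ENNReal.tsum_eq_iSup_sum]
  refine iSup_le fun Z => ?_
  rw [← ENNReal.ofReal_sum_of_nonneg fun z _ => fterm_nonneg h0 ha ha1 _ _]
  refine ENNReal.ofReal_le_ofReal (le_trans ?_ (h (Z.image Prod.snd)))
  rw [← sum_product' univ (Z.image Prod.snd) (fun i k => fterm p a i k)]
  exact sum_le_sum_of_subset_of_nonneg
    (fun z hz => mem_product.2 ⟨mem_univ _, mem_image_of_mem _ hz⟩)
    fun z _ _ => fterm_nonneg h0 ha ha1 _ _

theorem fishR_le {n : ℕ} {p : (Fin n → ℕ) → ℝ} (h0 : ∀ k, 0 ≤ p k) {a : ℝ} (ha : 0 ≤ a)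
    (ha1 : a ≤ 1) {B : ℝ} (hB : 0 ≤ B)
    (h : ∀ s : Finset (Fin n → ℕ), ∑ i, ∑ k ∈ s, fterm p a i k ≤ B) : fishR p a ≤ B :=
  ENNReal.toReal_le_of_le_ofReal hB (fishE_le h0 ha ha1 h)

theorem sum_le_fishR {n : ℕ} {p : (Fin n → ℕ) → ℝ} (h0 : ∀ k, 0 ≤ p k) {a : ℝ} (ha : 0 ≤ a)
    (ha1 : a ≤ 1) (hfin : fishE p a ≠ ⊤) (s : Finset (Fin n → ℕ)) :
    ∑ i, ∑ k ∈ s, fterm p a i k ≤ fishR p a := by
  rw [← sum_product' univ s (fun i k => fterm p a i k)]
  refine (ENNReal.ofReal_le_iff_le_toReal hfin).1 ?_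
  unfold fishE
  rw [ENNReal.ofReal_sum_of_nonneg fun z _ => fterm_nonneg h0 ha ha1 _ _]
  exact ENNReal.sum_le_tsum (univ ×ˢ s)

theorem fterm_trunc_le {n R : ℕ} {p : (Fin n → ℕ) → ℝ} (h0 : ∀ k, 0 ≤ p k) {a : ℝ} (ha : 0 < a)
    (ha1 : a ≤ 1) (i : Fin n) {k : Fin n → ℕ} (hk : k ∈ box n R) :
    fterm (trunc R p) a i k ≤
      fterm p a i k + a⁻¹ * (if R ≤ tot k + 1 then ((tot k : ℝ) + 1) * p k else 0) := by
  have hk' : trunc R p k = p k := if_pos hk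
  by_cases h : up i k ∈ box n R
  · have hu : trunc R p (up i k) = p (up i k) := if_pos h
    have : 0 ≤ a⁻¹ * (if R ≤ tot k + 1 then ((tot k : ℝ) + 1) * p k else 0) := by
      split_ifs
      · exact mul_nonneg (inv_nonneg.2 ha.le) (mul_nonneg (by positivity) (h0 k))
      · simp
    simp only [fterm, den, hk', hu] at this ⊢
    linarith
  · have hu : trunc R p (up i k) = 0 := if_neg h
    have hR : R ≤ k i + 1 := by
      by_contra hc
      refine h (mem_box.2 fun j => ?_)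
      by_cases hj : j = i
      · subst hj; simp [up]; omega
      · simpa [up, Function.update_of_ne hj] using mem_box.1 hk j
    rw [if_pos (hR.trans (Nat.add_le_add_right (le_tot k i) 1))]
    have h1 : fterm (trunc R p) a i k = a⁻¹ * (((k i : ℝ) + 1) * p k) := by
      simp only [fterm, den, hk', hu, sub_zero, zero_add]
      rcases eq_or_ne (p k) 0 with hp | hp
      · simp [hp]
      · field_simp
    rw [h1]
    have h2 : ((k i : ℝ) + 1) * p k ≤ ((tot k : ℝ) + 1) * p k :=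
      mul_le_mul_of_nonneg_right (by have := le_tot k i; exact_mod_cast Nat.add_le_add_right this 1) (h0 k)
    nlinarith [fterm_nonneg h0 ha.le ha1 i k, mul_le_mul_of_nonneg_left h2 (inv_nonneg.2 ha.le)]

theorem bfish_trunc_le {n R : ℕ} {p : (Fin n → ℕ) → ℝ} (h0 : ∀ k, 0 ≤ p k) {a : ℝ} (ha : 0 < a)
    (ha1 : a ≤ 1) (hfin : fishE p a ≠ ⊤) (hw : Summable fun k => ((tot k : ℝ) + 1) * p k) :
    bfish R (trunc R p) a ≤
      fishR p a + (n : ℝ) * a⁻¹ * tail R (fun k => ((tot k : ℝ) + 1) * p k) := by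
  have hw0 : ∀ k, 0 ≤ ((tot k : ℝ) + 1) * p k := fun k => mul_nonneg (by positivity) (h0 k)
  calc bfish R (trunc R p) a
      ≤ ∑ i, ∑ k ∈ box n R, (fterm p a i k +
          a⁻¹ * (if R ≤ tot k + 1 then ((tot k : ℝ) + 1) * p k else 0)) :=
        sum_le_sum fun i _ => sum_le_sum fun k hk => fterm_trunc_le h0 ha ha1 i hk
    _ = (∑ i, ∑ k ∈ box n R, fterm p a i k) + (n : ℝ) * a⁻¹ *
          ∑ k ∈ box n R, (if R ≤ tot k + 1 then ((tot k : ℝ) + 1) * p k else 0) := by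
        simp only [sum_add_distrib, ← mul_sum, sum_const, card_univ, Fintype.card_fin, nsmul_eq_mul]
        ring
    _ ≤ _ := add_le_add (sum_le_fishR h0 ha.le ha1 hfin _)
        (mul_le_mul_of_nonneg_left (sum_ite_le_tail hw0 hw _) (by positivity))

/-- Bounds pass to pointwise limits. -/
theorem sum_fterm_le_of_tendsto {n : ℕ} {p : (Fin n → ℕ) → ℝ} {u : ℕ → (Fin n → ℕ) → ℝ}
    (hu : ∀ k, Tendsto (fun R => u R k) atTop (𝓝 (p k))) {a : ℝ}
    (hd : ∀ i k, den p a i k ≠ 0) {b : ℕ → ℝ} {B : ℝ} (hb : Tendsto b atTop (𝓝 B))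
    (s : Finset (Fin n → ℕ)) (h : ∀ R, ∑ i, ∑ k ∈ s, fterm (u R) a i k ≤ b R) :
    ∑ i, ∑ k ∈ s, fterm p a i k ≤ B := by
  refine le_of_tendsto_of_tendsto' ?_ hb h
  refine tendsto_finsetSum _ fun i _ => tendsto_finsetSum _ fun k _ => ?_
  exact (tendsto_const_nhds.mul (((hu k).sub (hu (up i k))).pow 2)).div
    ((hu (up i k)).add (tendsto_const_nhds.mul ((hu k).sub (hu (up i k))))) (hd i k)

end Vale.Agent.P369.Diag
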