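import Vale.Agent.P369.Diag.Noise
import Vale.Agent.P369.Diag.Fisher

/-!
The noisy evolution of a finitely supported weight: positivity, normalisation, mean, decay, derivative.
-/

namespace Vale.Agent.P369.Diag

open Finset Filter Topology

theorem noise_fin {n R : ℕ} {p : (Fin n → ℕ) → ℝ} (hp : InBox R p) (t : ℝ) (k : Fin n → ℕ) :
    noise t p k = ∑ m ∈ box n R, p m * ∏ i, nz t (m i) (k i) :=
  tsum_inBox hp _

theorem nz_pos {t : ℝ} (ht : 0 < t) (m k : ℕ) : 0 < nz t m k :=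
  sum_pos' (fun j _ => by positivity) ⟨0, by simp, by simp; positivity⟩

/-- Nonnegative mass one weight supported on a box. -/
structure Fin1 {n : ℕ} (R : ℕ) (p : (Fin n → ℕ) → ℝ) : Prop where
  inBox : InBox R p
  nonneg : ∀ k, 0 ≤ p k
  mass : ∑ k ∈ box n R, p k = 1

namespace Fin1

variable {n R : ℕ} {p : (Fin n → ℕ) → ℝ}

theorem noise_nonneg (h : Fin1 R p) {t : ℝ} (ht : 0 ≤ t) (k : Fin n → ℕ) : 0 ≤ noise t p k := by
  rw [noise_fin h.inBox]
  exact sum_nonneg fun m _ => mul_nonneg (h.nonneg m) (prod_nonneg fun i _ => nz_nonneg ht _ _)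

theorem noise_pos (h : Fin1 R p) {t : ℝ} (ht : 0 < t) (k : Fin n → ℕ) : 0 < noise t p k := by
  rw [noise_fin h.inBox]
  obtain ⟨m, hm, hpm⟩ : ∃ m ∈ box n R, p m ≠ 0 :=
    exists_ne_zero_of_sum_ne_zero (by rw [h.mass]; norm_num)
  exact sum_pos' (fun m _ => mul_nonneg (h.nonneg m) (prod_nonneg fun i _ => nz_nonneg ht.le _ _))
    ⟨m, hm, mul_pos ((h.nonneg m).lt_of_ne hpm.symm) (prod_pos fun i _ => nz_pos ht _ _)⟩

theorem hasSum_noise (h : Fin1 R p) {t : ℝ} (ht : 0 ≤ t) : HasSum (noise t p) 1 := by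
  have h1 := hasSum_sum fun (m : Fin n → ℕ) (_ : m ∈ box n R) =>
    ((hasSum_prod (f := fun i => nz t (m i)) (fun i j => nz_nonneg ht _ _)
      fun i => hasSum_nz ht (m i)).mul_left (p m))
  simp only [prod_const_one, mul_one, h.mass] at h1
  exact h1.congr_fun fun k => noise_fin h.inBox t k

theorem noise_le_one (h : Fin1 R p) {t : ℝ} (ht : 0 ≤ t) (k : Fin n → ℕ) : noise t p k ≤ 1 :=
  le_hasSum (h.hasSum_noise ht) k fun j _ => h.noise_nonneg ht j

theorem hasSum_tot_noise (h : Fin1 R p) {t : ℝ} (ht : 0 ≤ t) :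
    HasSum (fun k => (tot k : ℝ) * noise t p k)
      ((∑ k ∈ box n R, (tot k : ℝ) * p k) + n * t) := by
  classical
  have h0 : ∀ m : Fin n → ℕ, HasSum (fun k : Fin n → ℕ => (tot k : ℝ) * ∏ i, nz t (m i) (k i))
      ((tot m : ℝ) + n * t) := by
    intro m
    have h1 : ∀ i : Fin n, HasSum (fun k : Fin n → ℕ => (k i : ℝ) * ∏ j, nz t (m j) (k j))
        ((m i : ℝ) + t) := by
      intro i
      have h2 := hasSum_prod (f := fun j x => (if j = i then (x : ℝ) else 1) * nz t (m j) x)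
        (a := fun j => if j = i then (m j : ℝ) + t else 1)
        (fun j x => mul_nonneg (by split_ifs <;> simp) (nz_nonneg ht _ _))
        (fun j => by
          by_cases hj : j = i
          · simpa [hj] using hasSum_mul_nz ht (m i)
          · simpa [hj] using hasSum_nz ht (m j))
      simp only [prod_mul_distrib, prod_ite_eq', mem_univ, if_true] at h2
      exact h2
    have h3 := hasSum_sum fun i (_ : i ∈ (univ : Finset (Fin n))) => h1 i
    simpa [tot, ← sum_mul, sum_add_distrib] using h3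
  have h4 := hasSum_sum fun (m : Fin n → ℕ) (_ : m ∈ box n R) => (h0 m).mul_left (p m)
  have e : ∑ m ∈ box n R, p m * ((tot m : ℝ) + n * t) =
      (∑ k ∈ box n R, (tot k : ℝ) * p k) + n * t := by
    simp only [mul_add, sum_add_distrib, ← sum_mul, h.mass, one_mul]
    simp only [mul_comm]
  rw [e] at h4
  refine h4.congr_fun fun k => ?_
  rw [noise_fin h.inBox, mul_sum]
  exact sum_congr rfl fun m _ => by ring

end Fin1

theorem nz_le_uniform {T t : ℝ} (ht : 0 ≤ t) (htT : t ≤ T) (hT : 1 ≤ T) {m R : ℕ} (hm : m ≤ R) (k : ℕ) :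
    nz t m k ≤ ((R : ℝ) + 1) * 2 ^ R * ((T / (1 + T)) ^ R)⁻¹ * (((k : ℝ) + 1) ^ R * (T / (1 + T)) ^ k) := by
  set r := t / (1 + t) with hr
  set σ := T / (1 + T) with hσ
  have hr0 : 0 ≤ r := by positivity
  have hrσ : r ≤ σ := by rw [hr, hσ, div_le_div_iff₀ (by linarith) (by linarith)]; nlinarith
  have hσ0 : 0 < σ := by positivity
  have hσ1 : σ ≤ 1 := by rw [hσ, div_le_one (by linarith)]; linarith
  have hj : ∀ j ∈ range (min m k + 1),
      (m.choose j : ℝ) * (k.choose j : ℝ) * t ^ (m + k - 2 * j) / (1 + t) ^ (m + k + 1) ≤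
        2 ^ R * (((k : ℝ) + 1) ^ R * (σ ^ k * (σ ^ R)⁻¹)) := by
    intro j hj
    have hj' : j ≤ min m k := Nat.lt_succ_iff.1 (mem_range.1 hj)
    have a1 : (m.choose j : ℝ) ≤ 2 ^ R := by
      exact_mod_cast (Nat.choose_le_two_pow m j).trans (Nat.pow_le_pow_right (by norm_num) hm)
    have a2 : (k.choose j : ℝ) ≤ ((k : ℝ) + 1) ^ R := by
      exact_mod_cast (Nat.choose_le_pow k j).trans ((Nat.pow_le_pow_left (Nat.le_succ k) j).trans
        (Nat.pow_le_pow_right (Nat.succ_pos k) (by omega)))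
    have a3 : t ^ (m + k - 2 * j) / (1 + t) ^ (m + k + 1) ≤ σ ^ k * (σ ^ R)⁻¹ := by
      have b1 : t ^ (m + k - 2 * j) / (1 + t) ^ (m + k + 1) ≤ r ^ (m + k - 2 * j) := by
        rw [hr, div_pow]
        refine div_le_div_of_nonneg_left (pow_nonneg ht _) (by positivity) ?_
        exact pow_le_pow_right₀ (by linarith) (by omega)
      have b2 : σ ^ (m + k - 2 * j) * σ ^ R ≤ σ ^ k := by
        rw [← pow_add]
        exact pow_le_pow_of_le_one hσ0.le hσ1 (by omega)
      rw [← div_eq_mul_inv, le_div_iff₀ (by positivity)]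
      exact ((mul_le_mul_of_nonneg_right (b1.trans (pow_le_pow_left₀ hr0 hrσ _)) (by positivity)).trans b2)
    rw [mul_div_assoc]
    calc _ ≤ 2 ^ R * ((k : ℝ) + 1) ^ R * (σ ^ k * (σ ^ R)⁻¹) := by gcongr
      _ = _ := by ring
  refine (sum_le_card_nsmul _ _ _ hj).trans ?_
  rw [card_range, nsmul_eq_mul]
  have hcard : ((min m k + 1 : ℕ) : ℝ) ≤ (R : ℝ) + 1 := by
    exact_mod_cast (by omega : min m k + 1 ≤ R + 1)
  refine (mul_le_mul_of_nonneg_right hcard (by positivity)).trans_eq ?_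
  ring

/-- A summable envelope for `(tot k + 1) * sqrt (noise t p k)` on a time interval. -/
theorem Fin1.exists_envelope {n R : ℕ} {p : (Fin n → ℕ) → ℝ} (h : Fin1 R p) {T : ℝ} (hT : 1 ≤ T) :
    ∃ W : (Fin n → ℕ) → ℝ, Summable W ∧
      ∀ t ∈ Set.Icc 0 T, ∀ k, ((tot k : ℝ) + 1) * Real.sqrt (noise t p k) ≤ W k := by
  set σ := T / (1 + T) with hσ
  set C := ((R : ℝ) + 1) * 2 ^ R * (σ ^ R)⁻¹ with hC
  have hσ0 : 0 < σ := by positivity
  have hσ1 : σ < 1 := by rw [hσ, div_lt_one (by linarith)]; linarith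
  set f : ℕ → ℝ := fun k => ((k : ℝ) + 1) ^ (R + 1) * Real.sqrt σ ^ k with hf
  have hsq : Real.sqrt σ < 1 := by rwa [Real.sqrt_lt' one_pos, one_pow]
  have hs : Summable f := by
    have hgeo : Summable fun k : ℕ => (k : ℝ) ^ (R + 1) * Real.sqrt σ ^ k :=
      summable_pow_mul_geometric_of_norm_lt_one _
        (by rwa [Real.norm_eq_abs, abs_of_nonneg (Real.sqrt_nonneg _)])
    refine (((summable_nat_add_iff (f := fun k : ℕ => (k : ℝ) ^ (R + 1) * Real.sqrt σ ^ k) 1).2
      hgeo).mul_left (Real.sqrt σ)⁻¹).congr fun k => ?_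
    have := (Real.sqrt_pos.2 hσ0).ne'
    simp only [hf]; push_cast; rw [pow_succ (Real.sqrt σ) k]; field_simp
  refine ⟨fun k => Real.sqrt (C ^ n) * ∏ i, f (k i),
    (summable_prod (f := fun _ => f) (fun i j => by positivity) fun _ => hs).mul_left _,
    fun t ht k => ?_⟩
  have hC0 : 0 ≤ C := by positivity
  have h1 : noise t p k ≤ C ^ n * ∏ i, (((k i : ℝ) + 1) ^ (2 * R) * σ ^ k i) := by
    rw [noise_fin h.inBox]
    calc _ ≤ ∑ m ∈ box n R, p m * ∏ i, (C * (((k i : ℝ) + 1) ^ (2 * R) * σ ^ k i)) := by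
          refine sum_le_sum fun m hm => mul_le_mul_of_nonneg_left
            (prod_le_prod (fun i _ => nz_nonneg ht.1 _ _) fun i _ => ?_) (h.nonneg m)
          refine (nz_le_uniform ht.1 ht.2 hT (mem_box.1 hm i).le (k i)).trans ?_
          refine mul_le_mul_of_nonneg_left (mul_le_mul_of_nonneg_right ?_ (by positivity)) hC0
          exact pow_le_pow_right₀ (by simp) (by omega)
      _ = _ := by rw [← sum_mul, h.mass, one_mul, prod_mul_distrib, prod_const, card_univ,
            Fintype.card_fin]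
  have h2 : C ^ n * ∏ i, (((k i : ℝ) + 1) ^ (2 * R) * σ ^ k i) =
      C ^ n * (∏ i, (((k i : ℝ) + 1) ^ R * Real.sqrt σ ^ k i)) ^ 2 := by
    rw [← prod_pow]
    congr 1
    refine prod_congr rfl fun i _ => ?_
    rw [mul_pow, ← pow_mul, ← pow_mul, mul_comm R 2, mul_comm (k i) 2, pow_mul (Real.sqrt σ),
      Real.sq_sqrt hσ0.le]
  calc ((tot k : ℝ) + 1) * Real.sqrt (noise t p k)
      ≤ (∏ i, ((k i : ℝ) + 1)) *
          (Real.sqrt (C ^ n) * ∏ i, (((k i : ℝ) + 1) ^ R * Real.sqrt σ ^ k i)) := by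
        refine mul_le_mul (tot_add_one_le_prod k) ?_ (Real.sqrt_nonneg _) (prod_nonneg fun i _ => by positivity)
        refine (Real.sqrt_le_sqrt (h1.trans_eq h2)).trans_eq ?_
        rw [Real.sqrt_mul (by positivity), Real.sqrt_sq (prod_nonneg fun i _ => by positivity)]
    _ = _ := by
        simp only [hf, pow_succ, prod_mul_distrib]
        ring

theorem Fin1.continuousOn_noise {n R : ℕ} {p : (Fin n → ℕ) → ℝ} (h : Fin1 R p) (k : Fin n → ℕ) :
    ContinuousOn (fun t => noise t p k) (Set.Ici 0) := by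
  simp only [noise_fin h.inBox]
  refine continuousOn_finsetSum _ fun m _ => continuousOn_const.mul ?_
  refine continuousOn_finsetProd _ fun i _ => ?_
  intro t ht
  exact (nz_deriv (m i) (k i) (show -1 < t by linarith [Set.mem_Ici.1 ht])).continuousAt.continuousWithinAt

theorem Fin1.measurable_noise {n R : ℕ} {p : (Fin n → ℕ) → ℝ} (h : Fin1 R p) (k : Fin n → ℕ) :
    Measurable fun t => noise t p k := by
  simp only [noise_fin h.inBox, nz]
  fun_prop

/-- Remove one photon in mode `i`. -/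
def down {n : ℕ} (i : Fin n) (k : Fin n → ℕ) : Fin n → ℕ := Function.update k i (k i - 1)

/-- Flux through the upper edge of `k` in direction `i`. -/
noncomputable def flux {n : ℕ} (i : Fin n) (p : (Fin n → ℕ) → ℝ) (k : Fin n → ℕ) : ℝ :=
  ((k i : ℝ) + 1) * (p k - p (up i k))

/-- Flux through the lower edge of `k` in direction `i`. -/
noncomputable def fluxBelow {n : ℕ} (i : Fin n) (p : (Fin n → ℕ) → ℝ) (k : Fin n → ℕ) : ℝ :=
  (k i : ℝ) * (p (down i k) - p k)

theorem Fin1.hasDerivAt_noise {n R : ℕ} {p : (Fin n → ℕ) → ℝ} (h : Fin1 R p) (k : Fin n → ℕ)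
    {t : ℝ} (ht : -1 < t) :
    HasDerivAt (fun s => noise s p k)
      (∑ i, (fluxBelow i (noise t p) k - flux i (noise t p) k)) t := by
  classical
  simp only [noise_fin h.inBox]
  have h1 := HasDerivAt.fun_sum fun (m : Fin n → ℕ) (_ : m ∈ box n R) =>
    (HasDerivAt.fun_finsetProd (u := (univ : Finset (Fin n))) fun i _ =>
      nz_deriv (m i) (k i) ht).const_mul (p m)
  refine h1.congr_deriv ?_
  simp only [smul_eq_mul, mul_sum]
  rw [sum_comm]
  refine sum_congr rfl fun i _ => ?_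
  have key : ∀ m : Fin n → ℕ, ∀ v : ℕ,
      ∏ j, nz t (m j) (Function.update k i v j) =
        (∏ j ∈ univ.erase i, nz t (m j) (k j)) * nz t (m i) v := by
    intro m v
    rw [← prod_erase_mul univ _ (mem_univ i), Function.update_self]
    congr 1
    exact prod_congr rfl fun j hj => by rw [Function.update_of_ne (ne_of_mem_erase hj)]
  have key0 : ∀ m : Fin n → ℕ, ∏ j, nz t (m j) (k j) =
      (∏ j ∈ univ.erase i, nz t (m j) (k j)) * nz t (m i) (k i) := fun m =>
    (prod_erase_mul univ _ (mem_univ i)).symm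
  simp only [fluxBelow, flux, noise_fin h.inBox, up, down, key, key0, ← sum_sub_distrib, mul_sum]
  refine sum_congr rfl fun m _ => ?_
  simp only [nL]
  ring

end Vale.Agent.P369.Diag
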