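import Vale.Agent.P369.Diag.Jensen

/-!
Sums over photon-number configurations: products, boxes, vanishing tails, truncation.
-/

namespace Vale.Agent.P369.Diag

open Finset Filter Topology

theorem box_mono {n R S : ℕ} (h : R ≤ S) : box n R ⊆ box n S := fun _ hm =>
  mem_box.2 fun i => (mem_box.1 hm i).trans_le h

theorem le_tot {n : ℕ} (k : Fin n → ℕ) (i : Fin n) : k i ≤ tot k :=
  single_le_sum (fun _ _ => Nat.zero_le _) (mem_univ i)

theorem mem_box_of_tot {n R : ℕ} {k : Fin n → ℕ} (h : tot k < R) : k ∈ box n R :=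
  mem_box.2 fun i => (le_tot k i).trans_lt h

theorem tendsto_box (n : ℕ) : Tendsto (box n) atTop atTop :=
  tendsto_atTop_finset_of_monotone (fun _ _ h => box_mono h) fun k =>
    ⟨tot k + 1, mem_box_of_tot (Nat.lt_succ_self _)⟩

theorem tot_add_one_le_prod {n : ℕ} (k : Fin n → ℕ) :
    ((tot k : ℝ) + 1) ≤ ∏ i, ((k i : ℝ) + 1) := by
  have h : ∀ s : Finset (Fin n), (∑ i ∈ s, (k i : ℝ)) + 1 ≤ ∏ i ∈ s, ((k i : ℝ) + 1) := by
    intro s
    induction s using Finset.induction_on with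
    | empty => simp
    | insert a s ha ih =>
      rw [sum_insert ha, prod_insert ha]
      have h0 : (0 : ℝ) ≤ ∑ i ∈ s, (k i : ℝ) := sum_nonneg fun i _ => Nat.cast_nonneg _
      nlinarith [mul_le_mul_of_nonneg_left ih (show (0 : ℝ) ≤ (k a : ℝ) + 1 by positivity),
        mul_nonneg (Nat.cast_nonneg (α := ℝ) (k a)) h0]
  have := h univ
  simpa [tot] using this

theorem summable_prod {n : ℕ} {f : Fin n → ℕ → ℝ} (h0 : ∀ i j, 0 ≤ f i j)
    (hs : ∀ i, Summable (f i)) : Summable fun k : Fin n → ℕ => ∏ i, f i (k i) := by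
  refine summable_of_sum_le (c := ∏ i, ∑' j, f i j) (fun k => prod_nonneg fun i _ => h0 i _) fun s => ?_
  obtain ⟨R, hR⟩ := ((tendsto_box n).eventually (eventually_ge_atTop s)).exists
  refine (sum_le_sum_of_subset_of_nonneg hR fun k _ _ => prod_nonneg fun i _ => h0 i _).trans ?_
  rw [box, ← prod_univ_sum]
  exact prod_le_prod (fun i _ => sum_nonneg fun j _ => h0 i j)
    fun i _ => (hs i).sum_le_tsum _ (fun j _ => h0 i j)

theorem hasSum_prod {n : ℕ} {f : Fin n → ℕ → ℝ} {a : Fin n → ℝ} (h0 : ∀ i j, 0 ≤ f i j)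
    (h : ∀ i, HasSum (f i) (a i)) :
    HasSum (fun k : Fin n → ℕ => ∏ i, f i (k i)) (∏ i, a i) := by
  have hs := summable_prod h0 fun i => (h i).summable
  have h1 : Tendsto (fun R => ∑ k ∈ box n R, ∏ i, f i (k i)) atTop (𝓝 (∑' k : Fin n → ℕ, ∏ i, f i (k i))) :=
    hs.hasSum.comp (tendsto_box n)
  have h2 : Tendsto (fun R => ∑ k ∈ box n R, ∏ i, f i (k i)) atTop (𝓝 (∏ i, a i)) := by
    have e : (fun R => ∑ k ∈ box n R, ∏ i, f i (k i)) = fun R => ∏ i, ∑ j ∈ range R, f i j :=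
      funext fun R => by rw [box, ← prod_univ_sum]
    rw [e]
    exact tendsto_finsetProd _ fun i _ => (h i).tendsto_sum_nat
  rw [← tendsto_nhds_unique h1 h2]
  exact hs.hasSum

/-- Tail beyond total number `R`. -/
noncomputable def tail {n : ℕ} (R : ℕ) (w : (Fin n → ℕ) → ℝ) : ℝ :=
  ∑' k, if R ≤ tot k + 1 then w k else 0

theorem tendsto_tail {n : ℕ} {w : (Fin n → ℕ) → ℝ} (hw : Summable w) :
    Tendsto (fun R => tail R w) atTop (𝓝 0) := by
  have h := tendsto_tsum_of_dominated_convergence (𝓕 := atTop)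
    (f := fun R k => if R ≤ tot k + 1 then w k else 0) (g := fun _ => (0 : ℝ))
    (bound := fun k => |w k|) hw.abs (fun k => ?_) (Eventually.of_forall fun R k => ?_)
  · simpa [tail] using h
  · refine tendsto_nhds_of_eventually_eq ?_
    filter_upwards [eventually_gt_atTop (tot k + 1)] with R hR
    rw [if_neg (by omega)]
  · split_ifs <;> simp

theorem sum_ite_le_tail {n R : ℕ} {w : (Fin n → ℕ) → ℝ} (h0 : ∀ k, 0 ≤ w k) (hw : Summable w)
    (s : Finset (Fin n → ℕ)) : ∑ k ∈ s, (if R ≤ tot k + 1 then w k else 0) ≤ tail R w := by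
  have h : Summable fun k => if R ≤ tot k + 1 then w k else 0 :=
    hw.of_nonneg_of_le (fun k => by split_ifs <;> simp [h0]) (fun k => by split_ifs <;> simp [h0])
  exact h.sum_le_tsum _ fun k _ => by split_ifs <;> simp [h0]

/-- Restriction to a box. -/
noncomputable def trunc {n : ℕ} (R : ℕ) (p : (Fin n → ℕ) → ℝ) (k : Fin n → ℕ) : ℝ :=
  if k ∈ box n R then p k else 0

theorem inBox_trunc {n R : ℕ} (p : (Fin n → ℕ) → ℝ) : InBox R (trunc R p) := fun _ hk => if_neg hk

theorem trunc_nonneg {n R : ℕ} {p : (Fin n → ℕ) → ℝ} (h0 : ∀ k, 0 ≤ p k) (k : Fin n → ℕ) :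
    0 ≤ trunc R p k := by
  unfold trunc; split_ifs <;> simp [h0]

theorem trunc_le {n R : ℕ} {p : (Fin n → ℕ) → ℝ} (h0 : ∀ k, 0 ≤ p k) (k : Fin n → ℕ) :
    trunc R p k ≤ p k := by
  unfold trunc; split_ifs <;> simp [h0]

theorem le_up {n : ℕ} (i : Fin n) (k : Fin n → ℕ) (j : Fin n) : k j ≤ up i k j := by
  by_cases h : j = i
  · subst h; simp [up]
  · simp [up, Function.update_of_ne h]

theorem decr_trunc {n R : ℕ} {p : (Fin n → ℕ) → ℝ} (h0 : ∀ k, 0 ≤ p k) (hd : Decr p) :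
    Decr (trunc R p) := by
  intro i k
  by_cases h : up i k ∈ box n R
  · have hk : k ∈ box n R := mem_box.2 fun j => (le_up i k j).trans_lt (mem_box.1 h j)
    simp only [trunc, if_pos h, if_pos hk]; exact hd i k
  · simp only [trunc, if_neg h]; split_ifs <;> simp [h0]

theorem tendsto_trunc {n : ℕ} (p : (Fin n → ℕ) → ℝ) (k : Fin n → ℕ) :
    Tendsto (fun R => trunc R p k) atTop (𝓝 (p k)) := by
  refine tendsto_nhds_of_eventually_eq ?_
  filter_upwards [eventually_gt_atTop (tot k)] with R hR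
  exact if_pos (mem_box_of_tot hR)

theorem tsum_inBox {n R : ℕ} {p : (Fin n → ℕ) → ℝ} (hp : InBox R p) (f : (Fin n → ℕ) → ℝ) :
    ∑' k, p k * f k = ∑ k ∈ box n R, p k * f k :=
  tsum_eq_sum fun k hk => by rw [hp k hk, zero_mul]

end Vale.Agent.P369.Diag
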