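import Vale.Agent.P369.Diag.BeamBox
import Vale.Agent.P369.Diag.Sums

/-!
From finitely supported decreasing weights with positive entropy to all decreasing number-diagonal
states with finite mean photon number: mixing with a uniform weight, and truncation with dominated
convergence of the entropies.
-/

namespace Vale.Agent.P369.Diag

open Finset Filter Real Function
open scoped Topology

variable {n : ℕ}

/-- The inequality for normalised finitely supported decreasing weights of positive entropy. -/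
def CoreStmt : Prop :=
  ∀ (n R : ℕ) (η : ℝ) (p q : (Fin n → ℕ) → ℝ), 1 ≤ n → 0 < η → η < 1 → InBox R p → InBox R q →
    (∀ k, 0 ≤ p k) → (∀ k, 0 ≤ q k) → Decr p → Decr q → ∑ k ∈ box n R, p k = 1 →
    ∑ k ∈ box n R, q k = 1 → 0 < diagEntropy p → 0 < diagEntropy q →
      η * phN (diagEntropy p / n) + (1 - η) * phN (diagEntropy q / n) ≤
        phN (diagEntropy (bsOut η p q) / n)

/-! ### Entropy -/

lemma negMulLog_le {x a : ℝ} (hx : 0 ≤ x) : negMulLog x ≤ a * x + exp (-a - 1) := by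
  rcases hx.eq_or_lt with rfl | h
  · simp [negMulLog, (exp_pos _).le]
  · have h1 := log_le_sub_one_of_pos (show 0 < exp (-a - 1) / x by positivity)
    rw [log_div (exp_pos _).ne' h.ne', log_exp] at h1
    have h2 := mul_le_mul_of_nonneg_left h1 hx
    rw [mul_sub, mul_sub x (exp _ / x) 1, mul_one, mul_div_cancel₀ _ h.ne', mul_sub, mul_one] at h2
    rw [negMulLog]
    nlinarith [h2]

/-- A summable majorant of entropy terms. -/
noncomputable def expTot (k : Fin n → ℕ) : ℝ := exp (-(tot k : ℝ) - 1)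

lemma summable_expTot : Summable (expTot : (Fin n → ℕ) → ℝ) := by
  refine ((summable_prod (f := fun _ j => exp (-1) ^ j) (fun _ j => pow_nonneg (exp_pos _).le j)
    fun _ => summable_geometric_of_lt_one (exp_pos _).le
      (exp_lt_one_iff.2 (by norm_num))).mul_left (exp (-1))).congr fun k => ?_
  rw [prod_pow_eq_pow_sum, ← exp_nat_mul, ← exp_add, expTot]
  congr 1
  rw [tot]; push_cast; ring

lemma abs_negMulLog_le {C : (Fin n → ℕ) → ℝ} (h0 : ∀ k, 0 ≤ C k) (h1 : ∀ k, C k ≤ 1)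
    (k : Fin n → ℕ) : |negMulLog (C k)| ≤ (tot k : ℝ) * C k + expTot k := by
  rw [abs_of_nonneg (negMulLog_nonneg (h0 k) (h1 k))]
  exact negMulLog_le (h0 k)

lemma summable_negMulLog {C : (Fin n → ℕ) → ℝ} (h0 : ∀ k, 0 ≤ C k) (h1 : ∀ k, C k ≤ 1)
    (hC : Summable fun k => (tot k : ℝ) * C k) : Summable (negMulLog ∘ C) :=
  Summable.of_norm_bounded (hC.add summable_expTot) fun k => abs_negMulLog_le h0 h1 k

namespace IsState

variable {p : (Fin n → ℕ) → ℝ}

lemma summable (hp : IsState p) : Summable p := by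
  by_contra h
  have := hp.2.1
  rw [tsum_eq_zero_of_not_summable h] at this
  exact zero_ne_one this

lemma le_one (hp : IsState p) (k : Fin n → ℕ) : p k ≤ 1 :=
  hp.2.1 ▸ hp.summable.le_tsum k fun j _ => hp.1 j

end IsState

lemma tendsto_box_prod (n : ℕ) : Tendsto (fun R => box n R ×ˢ box n R) atTop atTop :=
  tendsto_atTop_finset_of_monotone
    (fun _ _ h => Finset.product_subset_product (box_mono h) (box_mono h)) fun x =>
      ⟨tot x.1 + tot x.2 + 1, mem_product.2
        ⟨mem_box_of_tot (by omega), mem_box_of_tot (by omega)⟩⟩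

/-! ### The output of two states -/

section Out

variable {η : ℝ} {p q : (Fin n → ℕ) → ℝ}

lemma kprod_le_one (e0 : 0 ≤ η) (e1 : η ≤ 1) (m l k : Fin n → ℕ) : kprod η m l k ≤ 1 :=
  prod_le_one (fun _ _ => kerN_nonneg _ _ _ _) fun _j _ => kerN_le_one e0 e1 _ _ _

lemma tot_le_of_kprod_ne {m l k : Fin n → ℕ} (h : kprod η m l k ≠ 0) : tot k ≤ tot m + tot l := by
  rw [tot, tot, tot, ← sum_add_distrib]
  refine sum_le_sum fun j _ => not_lt.1 fun hj => h ?_
  exact prod_eq_zero (mem_univ j) (kerN_high hj)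

lemma sum_kprod_le_one (e0 : 0 ≤ η) (e1 : η ≤ 1) (m l : Fin n → ℕ) (s : Finset (Fin n → ℕ)) :
    ∑ k ∈ s, kprod η m l k ≤ 1 := by
  have h : HasSum (fun k : Fin n → ℕ => kprod η m l k) (∏ _j : Fin n, (1 : ℝ)) :=
    hasSum_prod (f := fun j x => kerN η (m j) (l j) x) (fun j x => kerN_nonneg _ _ _ _)
      fun j => hasSum_kerN e0 e1 (m j) (l j)
  rw [prod_const_one] at h
  exact sum_le_hasSum s (fun k _ => kprod_nonneg η m l k) h

lemma summable_out (e0 : 0 ≤ η) (e1 : η ≤ 1) (hp : IsState p) (hq : IsState q)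
    (k : Fin n → ℕ) :
    Summable fun x : (Fin n → ℕ) × (Fin n → ℕ) => p x.1 * q x.2 * kprod η x.1 x.2 k :=
  (hp.summable.mul_of_nonneg hq.summable hp.1 hq.1).of_nonneg_of_le
    (fun x => mul_nonneg (mul_nonneg (hp.1 _) (hq.1 _)) (kprod_nonneg η _ _ _))
    fun x => mul_le_of_le_one_right (mul_nonneg (hp.1 _) (hq.1 _)) (kprod_le_one e0 e1 _ _ _)

lemma hasSum_out (e0 : 0 ≤ η) (e1 : η ≤ 1) (hp : IsState p) (hq : IsState q) (k : Fin n → ℕ) :
    HasSum (fun x : (Fin n → ℕ) × (Fin n → ℕ) => p x.1 * q x.2 * kprod η x.1 x.2 k)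
      (bsOut η p q k) := by
  have h := summable_out e0 e1 hp hq k
  have e : bsOut η p q k = ∑' x : (Fin n → ℕ) × (Fin n → ℕ),
      p x.1 * q x.2 * kprod η x.1 x.2 k := by
    rw [h.tsum_prod]
    rfl
  rw [e]
  exact h.hasSum

lemma tsum_pq (hp : IsState p) (hq : IsState q) :
    HasSum (fun x : (Fin n → ℕ) × (Fin n → ℕ) => p x.1 * q x.2) 1 := by
  have h := hp.summable.mul_of_nonneg hq.summable hp.1 hq.1
  have e := hp.summable.tsum_mul_tsum hq.summable h
  rw [hp.2.1, hq.2.1, one_mul] at e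
  rw [e]
  exact h.hasSum

lemma out_nonneg (e0 : 0 ≤ η) (e1 : η ≤ 1) (hp : IsState p) (hq : IsState q)
    (k : Fin n → ℕ) : 0 ≤ bsOut η p q k :=
  (hasSum_out e0 e1 hp hq k).nonneg fun _ =>
    mul_nonneg (mul_nonneg (hp.1 _) (hq.1 _)) (kprod_nonneg η _ _ _)

lemma out_le_one (e0 : 0 ≤ η) (e1 : η ≤ 1) (hp : IsState p) (hq : IsState q)
    (k : Fin n → ℕ) : bsOut η p q k ≤ 1 :=
  hasSum_le (fun x => mul_le_of_le_one_right (mul_nonneg (hp.1 _) (hq.1 _))
    (kprod_le_one e0 e1 _ _ _)) (hasSum_out e0 e1 hp hq k) (tsum_pq hp hq)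

lemma summable_tot_out (e0 : 0 ≤ η) (e1 : η ≤ 1) (hp : IsState p) (hq : IsState q) :
    Summable fun k => (tot k : ℝ) * bsOut η p q k := by
  have hw : Summable fun x : (Fin n → ℕ) × (Fin n → ℕ) =>
      ((tot x.1 : ℝ) + tot x.2) * (p x.1 * q x.2) := by
    have h1 := hp.2.2.mul_of_nonneg hq.summable (fun k => mul_nonneg (Nat.cast_nonneg _) (hp.1 k)) hq.1
    have h2 := hp.summable.mul_of_nonneg hq.2.2 hp.1 fun k => mul_nonneg (Nat.cast_nonneg _) (hq.1 k)
    exact (h1.add h2).congr fun x => by ring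
  refine summable_of_sum_le (c := ∑' x : (Fin n → ℕ) × (Fin n → ℕ),
      ((tot x.1 : ℝ) + tot x.2) * (p x.1 * q x.2))
    (fun k => mul_nonneg (Nat.cast_nonneg _) (out_nonneg e0 e1 hp hq k)) fun s => ?_
  refine hasSum_le (fun x => ?_)
    (hasSum_sum fun k (_ : k ∈ s) => (hasSum_out e0 e1 hp hq k).mul_left (tot k : ℝ)) hw.hasSum
  have hpq := mul_nonneg (hp.1 x.1) (hq.1 x.2)
  calc ∑ k ∈ s, (tot k : ℝ) * (p x.1 * q x.2 * kprod η x.1 x.2 k)
      ≤ ∑ k ∈ s, ((tot x.1 : ℝ) + tot x.2) * (p x.1 * q x.2) * kprod η x.1 x.2 k := by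
        refine sum_le_sum fun k _ => ?_
        by_cases h : kprod η x.1 x.2 k = 0
        · simp [h]
        · rw [← mul_assoc]
          refine mul_le_mul_of_nonneg_right (mul_le_mul_of_nonneg_right ?_ hpq) (kprod_nonneg η _ _ _)
          exact_mod_cast tot_le_of_kprod_ne h
    _ ≤ _ := by
        rw [← mul_sum]
        exact mul_le_of_le_one_right (by positivity) (sum_kprod_le_one e0 e1 _ _ s)

lemma bsOut_smul (η a b : ℝ) (p q : (Fin n → ℕ) → ℝ) (R : ℕ) (hp : InBox R p) (hq : InBox R q)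
    (k : Fin n → ℕ) :
    bsOut η (fun m => a * p m) (fun l => b * q l) k = a * b * bsOut η p q k := by
  rw [bsOut_eq η (R := R) (fun m hm => by simp [hp m hm]) (fun l hl => by simp [hq l hl]),
    bsOut_eq η hp hq, mul_sum]
  refine sum_congr rfl fun m _ => ?_
  rw [mul_sum]
  exact sum_congr rfl fun l _ => by ring

end Out

lemma isState_inBox {R : ℕ} {p : (Fin n → ℕ) → ℝ} (hp : InBox R p) (h0 : ∀ k, 0 ≤ p k)
    (h1 : ∑ k ∈ box n R, p k = 1) : IsState p :=
  ⟨h0, by rwa [tsum_eq_sum fun k hk => hp k hk],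
    summable_of_ne_finset_zero (s := box n R) fun k hk => by simp [hp k hk]⟩

lemma diagEntropy_inBox {R : ℕ} {p : (Fin n → ℕ) → ℝ} (hp : InBox R p) :
    diagEntropy p = ∑ k ∈ box n R, negMulLog (p k) :=
  tsum_eq_sum fun k hk => by simp [hp k hk]

lemma diagEntropy_nonneg {p : (Fin n → ℕ) → ℝ} (h0 : ∀ k, 0 ≤ p k) (h1 : ∀ k, p k ≤ 1) :
    0 ≤ diagEntropy p :=
  tsum_nonneg fun k => negMulLog_nonneg (h0 k) (h1 k)

lemma decr_mix {p u : (Fin n → ℕ) → ℝ} (hp : Decr p) (hu : Decr u) {a b : ℝ} (ha : 0 ≤ a)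
    (hb : 0 ≤ b) : Decr fun k => a * p k + b * u k :=
  fun i k => add_le_add (mul_le_mul_of_nonneg_left (hp i k) ha)
    (mul_le_mul_of_nonneg_left (hu i k) hb)

lemma tendsto_phN {α : Type*} {l : Filter α} {f : α → ℝ} {x : ℝ} (hx : 0 ≤ x)
    (hf : ∀ᶠ a in l, 0 ≤ f a) (h : Tendsto f l (𝓝 x)) :
    Tendsto (fun a => phN (f a / n)) l (𝓝 (phN (x / n))) := by
  refine ((continuousOn_phN _ (div_nonneg hx (Nat.cast_nonneg n))).tendsto).comp
    (tendsto_nhdsWithin_iff.2 ⟨h.div_const _, ?_⟩)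
  filter_upwards [hf] with a ha using div_nonneg ha (Nat.cast_nonneg n)

/-! ### Finite support: mixing with a uniform weight -/

/-- The uniform weight on the bit strings. -/
noncomputable def unifBits (n : ℕ) : (Fin n → ℕ) → ℝ := trunc 2 fun _ => ((2 : ℝ) ^ n)⁻¹

lemma unifBits_mass (n : ℕ) : ∑ k ∈ box n 2, unifBits n k = 1 := by
  rw [sum_congr rfl fun k hk => show unifBits n k = ((2 : ℝ) ^ n)⁻¹ from if_pos hk, sum_const,
    box, Fintype.card_piFinset]
  simp

lemma unifBits_nonneg (k : Fin n → ℕ) : 0 ≤ unifBits n k :=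
  trunc_nonneg (fun _ => by positivity) k

lemma unifBits_decr : Decr (unifBits n) :=
  decr_trunc (fun _ => by positivity) fun _ _ => le_rfl

lemma inBox_mono {R S : ℕ} {p : (Fin n → ℕ) → ℝ} (hp : InBox R p) (h : R ≤ S) : InBox S p :=
  fun k hk => hp k fun hk' => hk (box_mono h hk')

lemma sum_box_mono {R S : ℕ} {p : (Fin n → ℕ) → ℝ} (hp : InBox R p) (h : R ≤ S) :
    ∑ k ∈ box n S, p k = ∑ k ∈ box n R, p k :=
  (sum_subset (box_mono h) fun k _ hk => hp k hk).symm

lemma diagEntropy_mix_pos {R : ℕ} (hn : 1 ≤ n) (hR : 2 ≤ R) {p : (Fin n → ℕ) → ℝ}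
    (hp0 : ∀ k, 0 ≤ p k) (hp : InBox R p) (hp1 : ∑ k ∈ box n R, p k = 1) {ε : ℝ} (h0 : 0 < ε)
    (h1 : ε ≤ 1) : 0 < diagEntropy fun k => (1 - ε) * p k + ε * unifBits n k := by
  set P := fun k => (1 - ε) * p k + ε * unifBits n k with hP
  have hPB : InBox R P := fun k hk => by
    simp [hP, hp k hk, inBox_mono (inBox_trunc _) hR k hk, unifBits]
  have hP0 : ∀ k, 0 ≤ P k := fun k =>
    add_nonneg (mul_nonneg (by linarith) (hp0 k)) (mul_nonneg h0.le (unifBits_nonneg k))
  have hmass : ∑ k ∈ box n R, P k = 1 := by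
    rw [sum_add_distrib, ← mul_sum, ← mul_sum, hp1,
      sum_box_mono (show InBox 2 (unifBits n) from inBox_trunc _) hR, unifBits_mass]
    ring
  have hP1 : ∀ k, P k ≤ 1 := fun k => by
    by_cases hk : k ∈ box n R
    · exact hmass ▸ single_le_sum (fun j _ => hP0 j) hk
    · rw [hPB k hk]; exact zero_le_one
  have hb : ∀ k ∈ box n 2, 0 < P k := fun k hk => by
    refine add_pos_of_nonneg_of_pos (mul_nonneg (by linarith) (hp0 k)) (mul_pos h0 ?_)
    rw [show unifBits n k = ((2 : ℝ) ^ n)⁻¹ from if_pos hk]; positivity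
  obtain ⟨i⟩ : Nonempty (Fin n) := ⟨⟨0, hn⟩⟩
  set e : Fin n → ℕ := update 0 i 1 with he
  have heB : e ∈ box n 2 := mem_box.2 fun j => by
    by_cases hj : j = i
    · subst hj; simp [he]
    · simp [he, hj]
  have h0B : (0 : Fin n → ℕ) ∈ box n 2 := mem_box.2 fun j => by simp
  have hne : e ≠ 0 := fun h => by simpa [he] using congrFun h i
  have hlt : P 0 < 1 := by
    have h2 : P 0 + P e ≤ 1 := by
      rw [← sum_pair hne.symm, ← hmass]
      exact sum_le_sum_of_subset_of_nonneg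
        (insert_subset_iff.2 ⟨box_mono hR h0B, singleton_subset_iff.2 (box_mono hR heB)⟩)
        fun j _ _ => hP0 j
    linarith [hb e heB]
  rw [diagEntropy_inBox hPB]
  refine lt_of_lt_of_le ?_
    (single_le_sum (fun k _ => negMulLog_nonneg (hP0 k) (hP1 k)) (box_mono hR h0B))
  rw [negMulLog, neg_mul, neg_pos]
  exact mul_neg_of_pos_of_neg (hb 0 h0B) (log_neg (hb 0 h0B) hlt)

lemma epni_finite (core : CoreStmt) (hn : 1 ≤ n) {η : ℝ} (e0 : 0 ≤ η) (e1 : η ≤ 1) {R : ℕ}
    (hR : 2 ≤ R) {p q : (Fin n → ℕ) → ℝ} (hp : InBox R p) (hq : InBox R q) (hp0 : ∀ k, 0 ≤ p k)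
    (hq0 : ∀ k, 0 ≤ q k) (hpd : Decr p) (hqd : Decr q) (hp1 : ∑ k ∈ box n R, p k = 1)
    (hq1 : ∑ k ∈ box n R, q k = 1) :
    η * phN (diagEntropy p / n) + (1 - η) * phN (diagEntropy q / n) ≤
      phN (diagEntropy (bsOut η p q) / n) := by
  set mix : ((Fin n → ℕ) → ℝ) → ℝ → (Fin n → ℕ) → ℝ :=
    fun w ε k => (1 - ε) * w k + ε * unifBits n k with hmix
  set et : ℝ → ℝ := fun ε => (1 - ε) * η + ε * (1 / 2) with het
  have mB : ∀ w, InBox R w → ∀ ε, InBox R (mix w ε) := fun w hw ε k hk => by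
    simp [hmix, hw k hk, inBox_mono (inBox_trunc _) hR k hk, unifBits]
  have m0 : ∀ w : (Fin n → ℕ) → ℝ, (∀ k, 0 ≤ w k) → ∀ ε : ℝ, 0 ≤ ε → ε ≤ 1 →
      ∀ k, 0 ≤ mix w ε k := fun w hw ε a b k =>
    add_nonneg (mul_nonneg (by linarith) (hw k)) (mul_nonneg a (unifBits_nonneg k))
  have m1 : ∀ w, InBox R w → ∑ k ∈ box n R, w k = 1 → ∀ ε,
      ∑ k ∈ box n R, mix w ε k = 1 := fun w hw hw1 ε => by
    simp only [hmix, sum_add_distrib, ← mul_sum]
    rw [hw1, sum_box_mono (show InBox 2 (unifBits n) from inBox_trunc _) hR, unifBits_mass]; ring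
  have hev : ∀ᶠ ε : ℝ in 𝓝[>] 0, 0 < ε ∧ ε ≤ 1 := by
    filter_upwards [self_mem_nhdsWithin, nhdsWithin_le_nhds (eventually_le_nhds zero_lt_one)]
      with ε a b using ⟨a, b⟩
  have hnn : ∀ w, InBox R w → (∀ k, 0 ≤ w k) → ∑ k ∈ box n R, w k = 1 →
      ∀ᶠ ε in 𝓝[>] 0, 0 ≤ diagEntropy (mix w ε) := fun w hw hw0 hw1 => by
    filter_upwards [hev] with ε hε
    exact diagEntropy_nonneg (m0 w hw0 ε hε.1.le hε.2)
      (isState_inBox (mB w hw ε) (m0 w hw0 ε hε.1.le hε.2) (m1 w hw hw1 ε)).le_one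
  have hS : ∀ w, InBox R w →
      Tendsto (fun ε => diagEntropy (mix w ε)) (𝓝[>] 0) (𝓝 (diagEntropy w)) := fun w hw => by
    simp only [fun ε => diagEntropy_inBox (mB w hw ε), diagEntropy_inBox hw]
    have hc : Continuous fun ε => ∑ k ∈ box n R, negMulLog (mix w ε k) :=
      continuous_finsetSum _ fun k _ => continuous_negMulLog.comp
        (((continuous_const.sub continuous_id).mul continuous_const).add
          (continuous_id.mul continuous_const))
    simpa [hmix] using (hc.tendsto 0).mono_left nhdsWithin_le_nhds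
  have hC : Tendsto (fun ε => diagEntropy (bsOut (et ε) (mix p ε) (mix q ε))) (𝓝[>] 0)
      (𝓝 (diagEntropy (bsOut η p q))) := by
    simp only [fun ε => diagEntropy_inBox (bsOut_inBox (et ε) (mB p hp ε) (mB q hq ε)),
      diagEntropy_inBox (bsOut_inBox η hp hq)]
    have hcm : ∀ w k, Continuous fun ε => mix w ε k := fun w k =>
      ((continuous_const.sub continuous_id).mul continuous_const).add
        (continuous_id.mul continuous_const)
    have hcet : Continuous et :=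
      ((continuous_const.sub continuous_id).mul continuous_const).add
        (continuous_id.mul continuous_const)
    have hc : Continuous fun ε =>
        ∑ k ∈ box n (2 * R), negMulLog (bsOut (et ε) (mix p ε) (mix q ε) k) := by
      simp only [fun ε k => bsOut_eq (et ε) (mB p hp ε) (mB q hq ε) k, kprod]
      exact continuous_finsetSum _ fun k _ => continuous_negMulLog.comp
        (continuous_finsetSum _ fun m _ => continuous_finsetSum _ fun l _ =>
          ((hcm p m).mul (hcm q l)).mul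
            (continuous_finsetProd _ fun j _ => (continuous_kerN _ _ _).comp hcet))
    simpa [hmix, het] using (hc.tendsto 0).mono_left nhdsWithin_le_nhds
  have het0 : Tendsto et (𝓝[>] 0) (𝓝 η) := by
    have hc : Continuous et := ((continuous_const.sub continuous_id).mul continuous_const).add
      (continuous_id.mul continuous_const)
    simpa [het] using (hc.tendsto 0).mono_left nhdsWithin_le_nhds
  have hev2 : ∀ᶠ ε in 𝓝[>] 0, 0 ≤ diagEntropy (bsOut (et ε) (mix p ε) (mix q ε)) := by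
    filter_upwards [hev] with ε hε
    have sp := isState_inBox (mB p hp ε) (m0 p hp0 ε hε.1.le hε.2) (m1 p hp hp1 ε)
    have sq' := isState_inBox (mB q hq ε) (m0 q hq0 ε hε.1.le hε.2) (m1 q hq hq1 ε)
    have a : 0 ≤ et ε := add_nonneg (mul_nonneg (by linarith [hε.2]) e0) (by linarith [hε.1])
    have b : et ε ≤ 1 := by
      simp only [het]; nlinarith [mul_le_of_le_one_right (sub_nonneg.2 hε.2) e1, hε.1]
    exact diagEntropy_nonneg (out_nonneg a b sp sq') (out_le_one a b sp sq')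
  have sp0 := isState_inBox hp hp0 hp1
  have sq0 := isState_inBox hq hq0 hq1
  refine le_of_tendsto_of_tendsto
    ((het0.mul (tendsto_phN (diagEntropy_nonneg hp0 sp0.le_one) (hnn p hp hp0 hp1) (hS p hp))).add
      ((tendsto_const_nhds.sub het0).mul
        (tendsto_phN (diagEntropy_nonneg hq0 sq0.le_one) (hnn q hq hq0 hq1) (hS q hq))))
    (tendsto_phN (diagEntropy_nonneg (out_nonneg e0 e1 sp0 sq0) (out_le_one e0 e1 sp0 sq0))
      hev2 hC) ?_
  filter_upwards [hev] with ε hε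
  refine core n R (et ε) (mix p ε) (mix q ε) hn ?_ ?_ (mB p hp ε) (mB q hq ε)
    (m0 p hp0 ε hε.1.le hε.2) (m0 q hq0 ε hε.1.le hε.2)
    (decr_mix hpd unifBits_decr (by linarith [hε.2]) hε.1.le)
    (decr_mix hqd unifBits_decr (by linarith [hε.2]) hε.1.le)
    (m1 p hp hp1 ε) (m1 q hq hq1 ε) (diagEntropy_mix_pos hn hR hp0 hp hp1 hε.1 hε.2)
    (diagEntropy_mix_pos hn hR hq0 hq hq1 hε.1 hε.2)
  · exact lt_add_of_nonneg_of_lt (mul_nonneg (by linarith [hε.2]) e0) (by linarith [hε.1])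
  · simp only [het]; nlinarith [mul_le_of_le_one_right (sub_nonneg.2 hε.2) e1, hε.1]

/-! ### Truncation -/

/-- Normalised truncation. -/
noncomputable def ntrunc (R : ℕ) (p : (Fin n → ℕ) → ℝ) (k : Fin n → ℕ) : ℝ :=
  (∑ m ∈ box n R, p m)⁻¹ * trunc R p k

lemma inBox_ntrunc (R : ℕ) (p : (Fin n → ℕ) → ℝ) : InBox R (ntrunc R p) :=
  fun k hk => by rw [ntrunc, inBox_trunc p k hk, mul_zero]

lemma ntrunc_mass {R : ℕ} {p : (Fin n → ℕ) → ℝ} (h : ∑ m ∈ box n R, p m ≠ 0) :
    ∑ k ∈ box n R, ntrunc R p k = 1 := by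
  simp only [ntrunc, ← mul_sum]
  rw [sum_congr rfl fun k hk => show trunc R p k = p k from if_pos hk, inv_mul_cancel₀ h]

lemma ntrunc_nonneg {R : ℕ} {p : (Fin n → ℕ) → ℝ} (h0 : ∀ k, 0 ≤ p k) (k : Fin n → ℕ) :
    0 ≤ ntrunc R p k :=
  mul_nonneg (inv_nonneg.2 (sum_nonneg fun m _ => h0 m)) (trunc_nonneg h0 k)

lemma ntrunc_decr {R : ℕ} {p : (Fin n → ℕ) → ℝ} (h0 : ∀ k, 0 ≤ p k) (hd : Decr p) :
    Decr (ntrunc R p) :=
  fun i k => mul_le_mul_of_nonneg_left (decr_trunc h0 hd i k)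
    (inv_nonneg.2 (sum_nonneg fun m _ => h0 m))

lemma tendsto_mass {p : (Fin n → ℕ) → ℝ} (hp : IsState p) :
    Tendsto (fun R => ∑ m ∈ box n R, p m) atTop (𝓝 1) := by
  have h := hp.summable.hasSum
  rw [hp.2.1] at h
  exact h.comp (tendsto_box n)

lemma tendsto_entropy_ntrunc {p : (Fin n → ℕ) → ℝ} (hp : IsState p) :
    Tendsto (fun R => diagEntropy (ntrunc R p)) atTop (𝓝 (diagEntropy p)) := by
  have hm := tendsto_mass hp
  have h := (((continuous_negMulLog.tendsto _).comp (hm.inv₀ one_ne_zero)).mul hm).add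
    ((hm.inv₀ one_ne_zero).mul
      ((summable_negMulLog hp.1 hp.le_one hp.2.2).hasSum.comp (tendsto_box n)))
  simp only [inv_one, negMulLog_one, zero_mul, one_mul, zero_add] at h
  refine Tendsto.congr' (Eventually.of_forall fun R => ?_) h
  simp only [comp_apply, diagEntropy_inBox (inBox_ntrunc R p), mul_sum, ← sum_add_distrib]
  refine sum_congr rfl fun k hk => ?_
  rw [ntrunc, show trunc R p k = p k from if_pos hk, negMulLog_mul]
  ring

lemma tendsto_entropy_out {η : ℝ} (e0 : 0 ≤ η) (e1 : η ≤ 1) {p q : (Fin n → ℕ) → ℝ}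
    (hp : IsState p) (hq : IsState q) :
    Tendsto (fun R => diagEntropy (bsOut η (ntrunc R p) (ntrunc R q))) atTop
      (𝓝 (diagEntropy (bsOut η p q))) := by
  set c : ℕ → ℝ := fun R => (∑ m ∈ box n R, p m)⁻¹ * (∑ m ∈ box n R, q m)⁻¹ with hc
  have hc1 : Tendsto c atTop (𝓝 1) := by
    simpa using ((tendsto_mass hp).inv₀ one_ne_zero).mul ((tendsto_mass hq).inv₀ one_ne_zero)
  have hcut : ∀ R k, bsOut η (ntrunc R p) (ntrunc R q) k =
      c R * ∑ x ∈ box n R ×ˢ box n R, p x.1 * q x.2 * kprod η x.1 x.2 k := by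
    intro R k
    rw [show bsOut η (ntrunc R p) (ntrunc R q) k =
      bsOut η (fun m => _ * trunc R p m) (fun l => _ * trunc R q l) k from rfl,
      bsOut_smul η _ _ _ _ R (inBox_trunc p) (inBox_trunc q),
      bsOut_eq η (inBox_trunc p) (inBox_trunc q), sum_product]
    refine congrArg _ (sum_congr rfl fun m hm => sum_congr rfl fun l hl => ?_)
    rw [show trunc R p m = p m from if_pos hm, show trunc R q l = q l from if_pos hl]
  refine tendsto_tsum_of_dominated_convergence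
    (bound := fun k => 2 * ((tot k : ℝ) * bsOut η p q k) + expTot k)
    (((summable_tot_out e0 e1 hp hq).mul_left 2).add summable_expTot) (fun k => ?_) ?_
  · refine (continuous_negMulLog.tendsto _).comp ?_
    simp only [hcut]
    simpa using hc1.mul ((hasSum_out e0 e1 hp hq k).comp (tendsto_box_prod n))
  · filter_upwards [hc1.eventually (eventually_le_nhds one_lt_two),
      (tendsto_mass hp).eventually (eventually_gt_nhds zero_lt_one),
      (tendsto_mass hq).eventually (eventually_gt_nhds zero_lt_one)] with R hcR hP hQ k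
    have sp := isState_inBox (inBox_ntrunc R p) (ntrunc_nonneg hp.1) (ntrunc_mass hP.ne')
    have sq' := isState_inBox (inBox_ntrunc R q) (ntrunc_nonneg hq.1) (ntrunc_mass hQ.ne')
    have hle : bsOut η (ntrunc R p) (ntrunc R q) k ≤ 2 * bsOut η p q k := by
      rw [hcut]
      have hnn : ∀ x : (Fin n → ℕ) × (Fin n → ℕ), 0 ≤ p x.1 * q x.2 * kprod η x.1 x.2 k :=
        fun x => mul_nonneg (mul_nonneg (hp.1 _) (hq.1 _)) (kprod_nonneg η _ _ _)
      exact mul_le_mul hcR
        (sum_le_hasSum _ (fun x _ => hnn x) (hasSum_out e0 e1 hp hq k))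
        (sum_nonneg fun x _ => hnn x) zero_le_two
    refine (abs_negMulLog_le (out_nonneg e0 e1 sp sq') (out_le_one e0 e1 sp sq') k).trans ?_
    nlinarith [mul_le_mul_of_nonneg_left hle (Nat.cast_nonneg (α := ℝ) (tot k))]

/-- The entropy photon-number inequality for decreasing states, from the finite core. -/
theorem epni_of_core (core : CoreStmt) (n : ℕ) (hn : 1 ≤ n) (η : ℝ) (e0 : 0 ≤ η) (e1 : η ≤ 1)
    (p q : (Fin n → ℕ) → ℝ) (hp : IsState p) (hq : IsState q) (hpd : Decr p) (hqd : Decr q) :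
    (∀ i i', outEntry η p q i i' = if i = i' then bsOut η p q i else 0) ∧
      Summable (negMulLog ∘ p) ∧ Summable (negMulLog ∘ q) ∧
      Summable (negMulLog ∘ bsOut η p q) ∧
      η * phN (diagEntropy p / n) + (1 - η) * phN (diagEntropy q / n) ≤
        phN (diagEntropy (bsOut η p q) / n) := by
  have o0 := out_nonneg e0 e1 hp hq
  have o1 := out_le_one e0 e1 hp hq
  refine ⟨fun i i' => ?_, summable_negMulLog hp.1 hp.le_one hp.2.2,
    summable_negMulLog hq.1 hq.le_one hq.2.2,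
    summable_negMulLog o0 o1 (summable_tot_out e0 e1 hp hq), ?_⟩
  · unfold outEntry
    simp_rw [tsum_amp]
    split_ifs with h
    · rfl
    · simp
  · have hev : ∀ᶠ R in atTop, 2 ≤ R ∧ 0 < (∑ m ∈ box n R, p m) ∧ 0 < ∑ m ∈ box n R, q m :=
      (eventually_ge_atTop 2).and (((tendsto_mass hp).eventually (eventually_gt_nhds zero_lt_one)).and
        ((tendsto_mass hq).eventually (eventually_gt_nhds zero_lt_one)))
    have st : ∀ {w : (Fin n → ℕ) → ℝ}, (∀ k, 0 ≤ w k) → ∀ {R : ℕ},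
        0 < (∑ m ∈ box n R, w m) → IsState (ntrunc R w) := fun {w} hw {R} h =>
      isState_inBox (inBox_ntrunc R w) (ntrunc_nonneg hw) (ntrunc_mass h.ne')
    refine le_of_tendsto_of_tendsto
      (((tendsto_phN (diagEntropy_nonneg hp.1 hp.le_one) ?_ (tendsto_entropy_ntrunc hp)).const_mul η).add
        ((tendsto_phN (diagEntropy_nonneg hq.1 hq.le_one) ?_
          (tendsto_entropy_ntrunc hq)).const_mul (1 - η)))
      (tendsto_phN (diagEntropy_nonneg o0 o1) ?_ (tendsto_entropy_out e0 e1 hp hq)) ?_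
    · filter_upwards [hev] with R hR
      exact diagEntropy_nonneg (st hp.1 hR.2.1).1 (st hp.1 hR.2.1).le_one
    · filter_upwards [hev] with R hR
      exact diagEntropy_nonneg (st hq.1 hR.2.2).1 (st hq.1 hR.2.2).le_one
    · filter_upwards [hev] with R hR
      exact diagEntropy_nonneg (out_nonneg e0 e1 (st hp.1 hR.2.1) (st hq.1 hR.2.2))
        (out_le_one e0 e1 (st hp.1 hR.2.1) (st hq.1 hR.2.2))
    · filter_upwards [hev] with R hR
      exact epni_finite core hn e0 e1 hR.1 (inBox_ntrunc R p) (inBox_ntrunc R q)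
        (ntrunc_nonneg hp.1) (ntrunc_nonneg hq.1) (ntrunc_decr hp.1 hpd) (ntrunc_decr hq.1 hqd)
        (ntrunc_mass hR.2.1.ne') (ntrunc_mass hR.2.2.ne')

end Vale.Agent.P369.Diag
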