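import Vale.Agent.P369.Diag.Master
import Vale.Agent.P369.Diag.Entropy2

/-!
Finiteness and time integrability of the Fisher information of an evolved finitely supported weight,
with no monotonicity assumption.
-/

namespace Vale.Agent.P369.Diag

open Finset Filter Topology MeasureTheory

theorem fterm_le_sum {n : ℕ} {p : (Fin n → ℕ) → ℝ} (h0 : ∀ k, 0 ≤ p k) {lam : ℝ} (hl : 0 < lam)
    (hl1 : lam < 1) (i : Fin n) (k : Fin n → ℕ) :
    fterm p lam i k ≤ ((k i : ℝ) + 1) * (p k + p (up i k)) / min lam (1 - lam) := by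
  set c := min lam (1 - lam) with hc
  have hc0 : 0 < c := lt_min hl (by linarith)
  have ha := h0 k
  have hb := h0 (up i k)
  have hden : c * (p k + p (up i k)) ≤ den p lam i k := by
    unfold den
    nlinarith [mul_le_mul_of_nonneg_right (min_le_left lam (1 - lam)) ha,
      mul_le_mul_of_nonneg_right (min_le_right lam (1 - lam)) hb]
  rcases (add_nonneg ha hb).eq_or_lt with h | h
  · rw [fterm, show p k = 0 by linarith, show p (up i k) = 0 by linarith]
    simp
  · have hd0 : 0 < den p lam i k := (mul_pos hc0 h).trans_le hden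
    rw [fterm, div_le_div_iff₀ hd0 hc0]
    have h1 : (p k - p (up i k)) ^ 2 ≤ (p k + p (up i k)) ^ 2 := by nlinarith [mul_nonneg ha hb]
    have h2 : (p k - p (up i k)) ^ 2 * c ≤ (p k + p (up i k)) * den p lam i k := by
      refine (mul_le_mul_of_nonneg_right h1 hc0.le).trans ?_
      nlinarith [mul_le_mul_of_nonneg_left hden h.le]
    nlinarith [mul_le_mul_of_nonneg_left h2 (show (0 : ℝ) ≤ (k i : ℝ) + 1 by positivity)]

namespace Fin1

variable {n R : ℕ} {p : (Fin n → ℕ) → ℝ}

/-- The Fisher information of the evolved weight is bounded by its mean photon number. -/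
theorem fishE_noise_le' (h : Fin1 R p) {t lam : ℝ} (ht : 0 ≤ t) (hl : 0 < lam) (hl1 : lam < 1) :
    fishE (noise t p) lam ≤
      ENNReal.ofReal (2 * n * ((∑ k ∈ box n R, (tot k : ℝ) * p k) + n * t + 1) /
        min lam (1 - lam)) := by
  classical
  set c := min lam (1 - lam) with hc
  have hc0 : 0 < c := lt_min hl (by linarith)
  set M := (∑ k ∈ box n R, (tot k : ℝ) * p k) + n * t + 1 with hM
  have hs1 : HasSum (fun k => ((tot k : ℝ) + 1) * noise t p k) M := by
    simpa [add_mul, hM] using (h.hasSum_tot_noise ht).add (h.hasSum_noise ht)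
  have hn0 : ∀ k, 0 ≤ ((tot k : ℝ) + 1) * noise t p k := fun k =>
    mul_nonneg (by positivity) (h.noise_nonneg ht k)
  refine fishE_le (h.noise_nonneg ht) hl.le hl1.le fun s => ?_
  calc ∑ i, ∑ k ∈ s, fterm (noise t p) lam i k
      ≤ ∑ _i : Fin n, (2 * M) / c := by
        refine sum_le_sum fun i _ => ?_
        refine (sum_le_sum fun k _ => fterm_le_sum (h.noise_nonneg ht) hl hl1 i k).trans ?_
        rw [← sum_div, ← hc]
        gcongr
        calc ∑ k ∈ s, ((k i : ℝ) + 1) * (noise t p k + noise t p (up i k))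
            ≤ ∑ k ∈ s, (((tot k : ℝ) + 1) * noise t p k +
                ((tot (up i k) : ℝ) + 1) * noise t p (up i k)) := by
              refine sum_le_sum fun k _ => ?_
              rw [mul_add]
              refine add_le_add (mul_le_mul_of_nonneg_right ?_ (h.noise_nonneg ht k))
                (mul_le_mul_of_nonneg_right ?_ (h.noise_nonneg ht _))
              · exact_mod_cast Nat.add_le_add_right (le_tot k i) 1
              · exact_mod_cast Nat.add_le_add_right ((le_up i k i).trans (le_tot _ i)) 1
          _ ≤ M + M := by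
              rw [sum_add_distrib]
              refine add_le_add (sum_le_hasSum s (fun k _ => hn0 k) hs1) ?_
              rw [← sum_image (f := fun k => ((tot k : ℝ) + 1) * noise t p k) (up_injective i).injOn]
              exact sum_le_hasSum _ (fun k _ => hn0 k) hs1
          _ = 2 * M := by ring
    _ = _ := by simp [sum_const]; ring

theorem fishE_noise_ne_top' (h : Fin1 R p) {t lam : ℝ} (ht : 0 ≤ t) (hl : 0 < lam) (hl1 : lam < 1) :
    fishE (noise t p) lam ≠ ⊤ :=
  ne_top_of_le_ne_top ENNReal.ofReal_ne_top (h.fishE_noise_le' ht hl hl1)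

theorem fishR_noise_le' (h : Fin1 R p) {t lam : ℝ} (ht : 0 ≤ t) (hl : 0 < lam) (hl1 : lam < 1) :
    fishR (noise t p) lam ≤
      2 * n * ((∑ k ∈ box n R, (tot k : ℝ) * p k) + n * t + 1) / min lam (1 - lam) := by
  refine ENNReal.toReal_le_of_le_ofReal ?_ (h.fishE_noise_le' ht hl hl1)
  have := sum_nonneg (s := box n R) (f := fun k => (tot k : ℝ) * p k) fun k _ =>
    mul_nonneg (Nat.cast_nonneg _) (h.nonneg k)
  exact div_nonneg (by positivity) (le_min hl.le (by linarith))

theorem intervalIntegrable_fishR' (h : Fin1 R p) {lam : ℝ} (hl : 0 < lam) (hl1 : lam < 1) {T : ℝ}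
    (hT : 0 ≤ T) : IntervalIntegrable (fun t => fishR (noise t p) lam) volume 0 T := by
  rw [intervalIntegrable_iff_integrableOn_Ioc_of_le hT]
  refine Integrable.mono' (integrableOn_const
    (C := 2 * n * ((∑ k ∈ box n R, (tot k : ℝ) * p k) + n * T + 1) / min lam (1 - lam)) (by simp))
    (h.measurable_fishR lam).aestronglyMeasurable ?_
  filter_upwards [ae_restrict_mem measurableSet_Ioc] with t ht
  rw [Real.norm_eq_abs, abs_of_nonneg (fishR_nonneg _ _)]
  refine (h.fishR_noise_le' ht.1.le hl hl1).trans ?_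
  have : 0 < min lam (1 - lam) := lt_min hl (by linarith)
  gcongr
  exact ht.2

/-- The time-integrated Fisher information integrates to the entropy gain. -/
theorem integral_psi' (h : Fin1 R p) {T : ℝ} (hT : 1 ≤ T) :
    IntegrableOn (psi p T) (Set.Ioo 0 1) ∧
    ∫ lam in Set.Ioo (0 : ℝ) 1, psi p T lam = diagEntropy (noise T p) - diagEntropy p := by
  have hT0 : (0 : ℝ) ≤ T := by linarith
  obtain ⟨hnn, hid⟩ := h.entropy_identity' hT
  rw [noise_zero] at hnn hid
  set G := fun lam => ∫⁻ t in Set.Ioo 0 T, fishE (noise t p) lam with hG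
  have hGm : Measurable G := h.measurable_fishE.lintegral_prod_right'
  have hGtop : ∫⁻ lam in Set.Ioo (0 : ℝ) 1, G lam ≠ ⊤ := by
    rw [hG, hid]; exact ENNReal.ofReal_ne_top
  have hfin : ∀ᵐ lam ∂volume.restrict (Set.Ioo (0 : ℝ) 1), G lam < ⊤ := ae_lt_top hGm hGtop
  have he : Set.EqOn (fun lam => (G lam).toReal) (psi p T) (Set.Ioo 0 1) := by
    intro lam hl
    simp only [psi, hG]
    rw [intervalIntegral.integral_of_le hT0, integral_Ioc_eq_integral_Ioo]
    simp only [fishR]
    refine (integral_toReal ?_ ?_).symm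
    · exact (h.measurable_fishE.comp (measurable_const.prodMk measurable_id)).aemeasurable
    · filter_upwards [ae_restrict_mem measurableSet_Ioo] with t ht
      exact (h.fishE_noise_ne_top' ht.1.le hl.1 hl.2).lt_top
  have hi := integrable_toReal_of_lintegral_ne_top hGm.aemeasurable hGtop
  refine ⟨IntegrableOn.congr_fun hi he measurableSet_Ioo, ?_⟩
  rw [← setIntegral_congr_fun measurableSet_Ioo he, integral_toReal hGm.aemeasurable hfin]
  exact (congrArg ENNReal.toReal hid).trans (ENNReal.toReal_ofReal hnn)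

end Fin1

end Vale.Agent.P369.Diag
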