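import Vale.Agent.P369.Diag.Beam
import Mathlib.Analysis.SpecialFunctions.Sqrt
import Mathlib.Analysis.Calculus.Deriv.Add
import Mathlib.Analysis.Calculus.Deriv.Mul
import Mathlib.Analysis.Calculus.Deriv.Pow

/-!
The derivative of the beam-splitter kernel in the transmissivity.
-/

namespace Vale.Agent.P369.Diag

open Polynomial Finset

variable {η : ℝ}

lemma bcf_zero_zero (η : ℝ) (k : ℕ) : bcf η 0 0 k = if k = 0 then 1 else 0 := by
  simp [bcf, coeff_one]

/-- The logarithmic-derivative coefficient of the amplitude. -/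
noncomputable def bco (η : ℝ) (m l k : ℕ) : ℝ := ((k : ℝ) - l) / η + ((m : ℝ) - k) / (1 - η)

/-- The derivative of the amplitude coefficient. -/
noncomputable def bcfD (η : ℝ) (m l k : ℕ) : ℝ :=
  bcf η m l k * bco η m l k / 2 +
    ((k : ℝ) + 1) * bcf η m l (k + 1) / (Real.sqrt η * Real.sqrt (1 - η))

lemma hasDerivAt_sqrt_one_sub (e1 : η < 1) :
    HasDerivAt (fun x : ℝ => Real.sqrt (1 - x)) (-(1 / (2 * Real.sqrt (1 - η)))) η :=
  (((hasDerivAt_id' η).const_sub 1).sqrt (by linarith)).congr_deriv (by ring)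

lemma step_inv {η a b : ℝ} (ha : a * a = η) (hb : b * b = 1 - η) (a0 : a ≠ 0) (b0 : b ≠ 0) :
    a / η = 1 / a ∧ b / (1 - η) = 1 / b :=
  ⟨by rw [← ha]; field_simp, by rw [← hb]; field_simp⟩

lemma hasDerivAt_bcf (e0 : 0 < η) (e1 : η < 1) :
    ∀ m l k : ℕ, HasDerivAt (fun x => bcf x m l k) (bcfD η m l k) η := by
  have a0 : Real.sqrt η ≠ 0 := (Real.sqrt_pos.2 e0).ne'
  have b0 : Real.sqrt (1 - η) ≠ 0 := (Real.sqrt_pos.2 (by linarith)).ne'
  obtain ⟨ha, hb⟩ := step_inv (Real.mul_self_sqrt e0.le)
    (Real.mul_self_sqrt (show 0 ≤ 1 - η by linarith)) a0 b0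
  have hA := Real.hasDerivAt_sqrt e0.ne'
  have hB := hasDerivAt_sqrt_one_sub e1
  set a := Real.sqrt η
  set b := Real.sqrt (1 - η)
  have ia : a * (a * b)⁻¹ = b⁻¹ := by field_simp
  have ib : b * (a * b)⁻¹ = a⁻¹ := by field_simp
  intro m
  induction m with
  | zero =>
    intro l
    induction l with
    | zero =>
      intro k
      rcases k with _ | k <;>
        simpa [bcfD, bco, bcf_zero_zero] using hasDerivAt_const η _
    | succ l ih =>
      intro k
      rcases k with _ | k
      · simp only [bcf_succ_right_zero]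
        refine (hA.mul (ih 0)).congr_deriv ?_
        simp only [bcfD, bco, bcf_succ_right, bcf_succ_right_zero]
        push_cast
        linear_combination (bcf η 0 l 0 / 2) * ha - bcf η 0 l 0 * ib +
          (0 : ℝ) * hb
      · simp only [bcf_succ_right]
        refine ((hB.mul (ih k)).add (hA.mul (ih (k + 1)))).congr_deriv ?_
        simp only [bcfD, bco, bcf_succ_right]
        push_cast
        linear_combination (bcf η 0 l (k + 1) / 2) * ha + (bcf η 0 l k / 2) * hb +
          (-1 : ℝ) * bcf η 0 l (k + 1) * ib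
  | succ m ih =>
    intro l k
    rcases k with _ | k
    · simp only [bcf_succ_left_zero]
      refine (hB.mul (ih l 0)).neg.congr_deriv ?_
      simp only [bcfD, bco, bcf_succ_left, bcf_succ_left_zero]
      push_cast
      linear_combination (bcf η m l 0 / 2) * hb - bcf η m l 0 * ia
    · simp only [bcf_succ_left]
      refine ((hA.mul (ih l k)).sub (hB.mul (ih l (k + 1)))).congr_deriv ?_
      simp only [bcfD, bco, bcf_succ_left]
      push_cast
      linear_combination -(bcf η m l k / 2) * ha + (bcf η m l (k + 1) / 2) * hb -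
        bcf η m l (k + 1) * ia

lemma ker_deriv_identity {η a b m l k e u w P Q : ℝ} (ha : a * a = η) (hb : b * b = 1 - η)
    (a0 : a ≠ 0) (b0 : b ≠ 0) (hn : m + l = k + e) (hP : P = a * e * u + b * w)
    (hQ : Q = a * w - b * e * u) :
    e * u * (u * ((k - l) / η + (m - k) / (1 - η))) + e * (2 * u * (w / (a * b))) =
      P ^ 2 / (1 - η) - Q ^ 2 / η + e * u ^ 2 * (m / η - l / (1 - η)) := by
  have hs : a * a + b * b = 1 := by rw [ha, hb]; ring
  have hPQ1 : P * a - Q * b = e * u := by rw [hP, hQ]; linear_combination (e * u) * hs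
  have hPQ2 : P * a + Q * b = e * u * (a * a - b * b) + 2 * (a * b) * w := by rw [hP, hQ]; ring
  have hfac : P ^ 2 / (b * b) - Q ^ 2 / (a * a) =
      (P * a - Q * b) * (P * a + Q * b) / (a * a * (b * b)) := by
    field_simp
    ring
  obtain rfl : m = k + e - l := by linarith
  rw [← hb, ← ha, hfac, hPQ1, hPQ2]
  field_simp
  ring

/-- The transmissivity derivative of the beam-splitter kernel. -/
theorem kerN_deriv (e0 : 0 < η) (e1 : η < 1) (m l k : ℕ) :
    HasDerivAt (fun x => kerN x m l k)
      ((l : ℝ) / (1 - η) * (kerN η m (l - 1) k - kerN η m l k) -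
        (m : ℝ) / η * (kerN η (m - 1) l k - kerN η m l k)) η := by
  rcases Nat.lt_or_ge (m + l) k with h | h
  · simp only [kerN_high h, kerN_high (show m + (l - 1) < k by omega),
      kerN_high (show m - 1 + l < k by omega), sub_zero, mul_zero]
    exact hasDerivAt_const η (0 : ℝ)
  obtain ⟨e, he⟩ : ∃ e, m + l = k + e := ⟨m + l - k, by omega⟩
  have he' : (m : ℝ) + l = k + e := by exact_mod_cast he
  have a0 : Real.sqrt η ≠ 0 := (Real.sqrt_pos.2 e0).ne'
  have b0 : Real.sqrt (1 - η) ≠ 0 := (Real.sqrt_pos.2 (by linarith)).ne'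
  set M := (m.factorial : ℝ) * l.factorial with hM
  have hM0 : M ≠ 0 := by positivity
  set c := (k.factorial : ℝ) * e.factorial / M with hc
  have hK : ∀ x, kerN x m l k = c * bcf x m l k ^ 2 := fun x => by
    have := kerN_mul_factorial x h
    rw [show m + l - k = e by omega] at this
    rw [hc, div_mul_eq_mul_div, eq_div_iff hM0]
    exact this
  refine ((((hasDerivAt_bcf e0 e1 m l k).pow 2).const_mul c).congr_of_eventuallyEq
    (Filter.Eventually.of_forall hK)).congr_deriv ?_
  rw [hK η]
  rcases e with _ | f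
  · have hv : bcf η m l (k + 1) = 0 := bcf_high (by omega)
    have z1 : (l : ℝ) * kerN η m (l - 1) k = 0 := by
      rcases l with _ | l
      · simp
      · rw [kerN_high (by omega), mul_zero]
    have z2 : (m : ℝ) * kerN η (m - 1) l k = 0 := by
      rcases m with _ | m
      · simp
      · rw [kerN_high (by omega), mul_zero]
    simp only [Nat.cast_zero, add_zero] at he'
    simp only [bcfD, bco, hv, mul_zero, zero_div, add_zero]
    rw [show (k : ℝ) - l = m by linarith, show (m : ℝ) - k = -l by linarith]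
    push_cast
    linear_combination -(1 / (1 - η)) * z1 + (1 / η) * z2
  have d1 : (l : ℝ) * kerN η m (l - 1) k * M =
      (k.factorial : ℝ) * f.factorial * ((l : ℝ) * bcf η m (l - 1) k) ^ 2 := by
    rcases l with _ | l
    · simp
    · have := kerN_mul_factorial η (m := m) (l := l) (k := k) (by omega)
      rw [show m + l - k = f by omega] at this
      simp only [Nat.add_sub_cancel, hM, Nat.factorial_succ, Nat.cast_mul]
      linear_combination ((l + 1 : ℕ) : ℝ) ^ 2 * this
  have d2 : (m : ℝ) * kerN η (m - 1) l k * M =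
      (k.factorial : ℝ) * f.factorial * ((m : ℝ) * bcf η (m - 1) l k) ^ 2 := by
    rcases m with _ | m
    · simp
    · have := kerN_mul_factorial η (m := m) (l := l) (k := k) (by omega)
      rw [show m + l - k = f by omega] at this
      simp only [Nat.add_sub_cancel, hM, Nat.factorial_succ, Nat.cast_mul]
      linear_combination ((m + 1 : ℕ) : ℝ) ^ 2 * this
  have hR := bcf_deriv_right e0.le e1.le m l k
  have hL := bcf_deriv_left e0.le e1.le m l k
  rw [he', add_sub_cancel_left] at hR hL
  have hid := ker_deriv_identity (u := bcf η m l k) (w := ((k : ℝ) + 1) * bcf η m l (k + 1))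
    (Real.mul_self_sqrt e0.le) (Real.mul_self_sqrt (show 0 ≤ 1 - η by linarith)) a0 b0 he'
    (P := (l : ℝ) * bcf η m (l - 1) k) (Q := (m : ℝ) * bcf η (m - 1) l k)
    (by linear_combination -hR) (by linear_combination -hL)
  have hcM : c * M = (k.factorial : ℝ) * (f + 1).factorial := by
    rw [hc, div_mul_cancel₀ _ hM0]
  simp only [Nat.factorial_succ, Nat.cast_mul] at hcM
  refine mul_right_cancel₀ hM0 ?_
  simp only [bcfD, bco, Nat.cast_ofNat]
  linear_combination -(1 / (1 - η)) * d1 + (1 / η) * d2 +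
    ((k.factorial : ℝ) * f.factorial) * hid +
    (2 * bcf η m l k * (bcf η m l k * (((k : ℝ) - l) / η + ((m : ℝ) - k) / (1 - η)) / 2 +
      ((k : ℝ) + 1) * bcf η m l (k + 1) / (Real.sqrt η * Real.sqrt (1 - η))) -
      bcf η m l k ^ 2 * ((m : ℝ) / η - (l : ℝ) / (1 - η))) * hcM

end Vale.Agent.P369.Diag
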