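import Vale.Agent.P369.Diag.Noise

/-!
Semigroup law of the noise channel and its intertwining with the beam splitter, first for one mode
and then for product kernels on `n` modes.
-/

namespace Vale.Agent.P369.Diag

open Finset Filter Topology

theorem summable_nz_mul {t : ℝ} (ht : 0 ≤ t) (m : ℕ) {g : ℕ → ℝ} {C : ℝ} (hg : ∀ j, |g j| ≤ C) :
    Summable fun j => nz t m j * g j :=
  Summable.of_norm_bounded ((summable_nz ht m).mul_left C) fun j => by
    rw [Real.norm_eq_abs, abs_mul, abs_of_nonneg (nz_nonneg ht m j)]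
    exact (mul_le_mul_of_nonneg_left (hg j) (nz_nonneg ht m j)).trans_eq (mul_comm _ _)

/-- The transform of a sequence by the kernel. -/
noncomputable def nTr (t : ℝ) (g : ℕ → ℝ) (m : ℕ) : ℝ := ∑' j, nz t m j * g j

theorem hasSum_nTr {t : ℝ} (ht : 0 ≤ t) (m : ℕ) {g : ℕ → ℝ} {C : ℝ} (hg : ∀ j, |g j| ≤ C) :
    HasSum (fun j => nz t m j * g j) (nTr t g m) :=
  (summable_nz_mul ht m hg).hasSum

theorem abs_nTr_le {t : ℝ} (ht : 0 ≤ t) (m : ℕ) {g : ℕ → ℝ} {C : ℝ} (hg : ∀ j, |g j| ≤ C) :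
    |nTr t g m| ≤ C := by
  have h1 := (hasSum_nz ht m).mul_left C
  rw [mul_one] at h1
  have h2 : ‖nTr t g m‖ ≤ C := tsum_of_norm_bounded h1 fun j => by
    rw [Real.norm_eq_abs, abs_mul, abs_of_nonneg (nz_nonneg ht m j), mul_comm]
    exact mul_le_mul_of_nonneg_right (hg j) (nz_nonneg ht m j)
  exact h2

/-- The adjoint form of the recurrence, first input. -/
theorem nTr_zero {t : ℝ} (ht : 0 ≤ t) {g : ℕ → ℝ} {C : ℝ} (hg : ∀ j, |g j| ≤ C) :
    (1 + t) * nTr t g 0 = t * nTr t (fun j => g (j + 1)) 0 + g 0 := by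
  have ht1 : 1 + t ≠ 0 := by positivity
  have h := (hasSum_nat_add_iff' 1).2 (hasSum_nTr ht 0 hg)
  simp only [sum_range_one] at h
  have h2 := (hasSum_nTr ht 0 (g := fun j => g (j + 1)) fun j => hg (j + 1)).mul_left t
  have he : (fun j => (1 + t) * (nz t 0 (j + 1) * g (j + 1))) =
      fun j => t * (nz t 0 j * g (j + 1)) := by
    funext j
    rw [nz_zero_left, nz_zero_left]
    field_simp
    ring
  have h1 := h.mul_left (1 + t)
  rw [he] at h1
  have hu := h1.unique h2
  have h0 : (1 + t) * nz t 0 0 = 1 := by rw [nz_zero_left]; field_simp; ring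
  linear_combination hu + g 0 * h0

/-- The adjoint form of the recurrence. -/
theorem nTr_succ {t : ℝ} (ht : 0 ≤ t) (m : ℕ) {g : ℕ → ℝ} {C : ℝ} (hg : ∀ j, |g j| ≤ C) :
    (1 + t) * nTr t g (m + 1) - t * nTr t g m =
      t * nTr t (fun j => g (j + 1)) (m + 1) + (1 - t) * nTr t (fun j => g (j + 1)) m := by
  have ht1 : 1 + t ≠ 0 := by positivity
  have hX := (hasSum_nat_add_iff' 1).2 (hasSum_nTr ht (m + 1) hg)
  have hY := (hasSum_nat_add_iff' 1).2 (hasSum_nTr ht m hg)
  simp only [sum_range_one] at hX hY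
  have hg' : ∀ j, |(fun j => g (j + 1)) j| ≤ C := fun j => hg (j + 1)
  have h1 := (hX.mul_left (1 + t)).sub (hY.mul_left t)
  have h2 := ((hasSum_nTr ht (m + 1) hg').mul_left t).add
    ((hasSum_nTr ht m hg').mul_left (1 - t))
  have he : (fun j => (1 + t) * (nz t (m + 1) (j + 1) * g (j + 1)) -
        t * (nz t m (j + 1) * g (j + 1))) =
      fun j => t * (nz t (m + 1) j * g (j + 1)) + (1 - t) * (nz t m j * g (j + 1)) := by
    funext j
    linear_combination g (j + 1) * nz_rec ht1 m j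
  rw [he] at h1
  linear_combination h1.unique h2 + g 0 * nz_step_zero ht1 m

theorem nTr_pow {t : ℝ} (ht : 0 ≤ t) (m : ℕ) {z : ℝ} (h0 : 0 ≤ z) (h1 : z ≤ 1) :
    nTr t (fun j => z ^ j) m = (t + (1 - t) * z) ^ m / (1 + t - t * z) ^ (m + 1) :=
  (hasSum_nz_mul_pow ht m h0 h1).tsum_eq

theorem nz_comp_zero {a b : ℝ} (ha : 0 ≤ a) (hb : 0 ≤ b) (k : ℕ) :
    ∑' j, nz a 0 j * nz b j k = nz (a + b) 0 k := by
  have ha1 : 1 + a ≠ 0 := by positivity
  have h : ∀ j, nz a 0 j * nz b j k = (1 / (1 + a)) * (nz b k j * (a / (1 + a)) ^ j) := fun j => by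
    rw [nz_zero_left, nz_symm b j k, div_pow]
    field_simp
    ring
  simp only [h]
  rw [tsum_mul_left, (hasSum_nz_mul_pow hb k (by positivity)
    (by rw [div_le_one (by positivity)]; linarith)).tsum_eq, nz_zero_left]
  have e1 : b + (1 - b) * (a / (1 + a)) = (a + b) / (1 + a) := by field_simp; ring
  have e2 : 1 + b - b * (a / (1 + a)) = (1 + (a + b)) / (1 + a) := by field_simp; ring
  rw [e1, e2, div_pow, div_pow]
  have : 1 + (a + b) ≠ 0 := by positivity
  field_simp
  ring

/-- The semigroup law of the kernel. -/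
theorem tsum_nz_comp {a b : ℝ} (ha : 0 ≤ a) (hb : 0 ≤ b) (m k : ℕ) :
    ∑' j, nz a m j * nz b j k = nz (a + b) m k := by
  have hab : 0 ≤ a + b := by positivity
  have hb1 : 1 + b ≠ 0 := by positivity
  have ht1 : 1 + (a + b) ≠ 0 := by positivity
  have hbd : ∀ (k : ℕ) j, |(fun j => nz b j k) j| ≤ 1 := fun k j => by
    rw [abs_of_nonneg (nz_nonneg hb j k)]; exact nz_le_one hb j k
  show nTr a (fun j => nz b j k) m = nz (a + b) m k
  induction m generalizing k with
  | zero => exact nz_comp_zero ha hb k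
  | succ m ihm =>
    induction k with
    | zero =>
      rw [nz_symm (a + b) (m + 1) 0, add_comm a b, ← nz_comp_zero hb ha (m + 1)]
      refine tsum_congr fun j => ?_
      simp only
      rw [nz_symm a, nz_symm b j 0, mul_comm]
    | succ k ih =>
      set P := fun j => nz b j (k + 1) with hP
      set Q := fun j => nz b j k with hQ
      have e1 := nTr_succ ha m (hbd (k + 1))
      have e2 := nTr_succ ha m (hbd k)
      have hlin : ∀ i, (1 + b) * nTr a (fun j => P (j + 1)) i =
          b * nTr a P i + b * nTr a (fun j => Q (j + 1)) i + (1 - b) * nTr a Q i := fun i => by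
        have h1 := (((hasSum_nTr ha i (hbd (k + 1))).mul_left b).add
          ((hasSum_nTr ha i (g := fun j => Q (j + 1)) fun j => hbd k (j + 1)).mul_left b)).add
          ((hasSum_nTr ha i (hbd k)).mul_left (1 - b))
        have h2 := (hasSum_nTr ha i (g := fun j => P (j + 1)) fun j => hbd (k + 1) (j + 1)).mul_left (1 + b)
        refine h2.unique ?_
        refine h1.congr_fun fun j => ?_
        simp only [hP, hQ]
        linear_combination nz a i j * nz_rec hb1 j k
      have hrec := nz_rec ht1 m k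
      have hm1 := ihm (k + 1)
      have hm0 := ihm k
      refine mul_left_cancel₀ ht1 ?_
      linear_combination (1 + b) * e1 + a * hlin (m + 1) + (1 - a) * hlin m - b * e2 +
        (a + b) * ih + (a + b) * hm1 + (1 - a - b) * hm0 - hrec

theorem hasSum_nz_comp {a b : ℝ} (ha : 0 ≤ a) (hb : 0 ≤ b) (m k : ℕ) :
    HasSum (fun j => nz a m j * nz b j k) (nz (a + b) m k) := by
  rw [← tsum_nz_comp ha hb m k]
  exact (summable_nz_mul ha m (g := fun j => nz b j k) (C := 1) fun j => by
    rw [abs_of_nonneg (nz_nonneg hb j k)]; exact nz_le_one hb j k).hasSum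

/-! ### Intertwining with the beam splitter -/

/-- The properties of the beam-splitter kernel used here. -/
structure BeamRec (η : ℝ) : Prop where
  nonneg : ∀ m l k, 0 ≤ kerN η m l k
  hasSum : ∀ m l, HasSum (fun k => kerN η m l k) 1
  zero : kerN η 0 0 0 = 1
  left₀ : ∀ m, kerN η (m + 1) 0 0 = (1 - η) * kerN η m 0 0
  left : ∀ m k, kerN η (m + 1) 0 (k + 1) = (1 - η) * kerN η m 0 (k + 1) + η * kerN η m 0 k
  right₀ : ∀ l, kerN η 0 (l + 1) 0 = η * kerN η 0 l 0
  right : ∀ l k, kerN η 0 (l + 1) (k + 1) = η * kerN η 0 l (k + 1) + (1 - η) * kerN η 0 l k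
  step₀ : ∀ m l, kerN η (m + 1) (l + 1) 0 =
    (1 - η) * kerN η m (l + 1) 0 + η * kerN η (m + 1) l 0
  step : ∀ m l k, kerN η (m + 1) (l + 1) (k + 1) + kerN η m l k =
    (1 - η) * (kerN η m (l + 1) (k + 1) + kerN η (m + 1) l k) +
      η * (kerN η (m + 1) l (k + 1) + kerN η m (l + 1) k)

/-- The generating function of the beam-splitter kernel. -/
noncomputable def bR (η z : ℝ) (m l : ℕ) : ℝ := ∑' k, kerN η m l k * z ^ k

theorem hasSum_bR (η z : ℝ) (m l : ℕ) : HasSum (fun k => kerN η m l k * z ^ k) (bR η z m l) :=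
  (summable_of_ne_finset_zero (s := range (m + l + 1)) fun k hk => by
    rw [mem_range, not_lt] at hk
    rw [kerN_high (by omega), zero_mul]).hasSum

theorem hasSum_bR_shift (η z : ℝ) (m l : ℕ) :
    HasSum (fun k => kerN η m l (k + 1) * z ^ (k + 1)) (bR η z m l - kerN η m l 0) := by
  simpa using (hasSum_nat_add_iff' 1).2 (hasSum_bR η z m l)

namespace BeamRec

variable {η : ℝ} (h : BeamRec η)
include h

theorem le_one (m l k : ℕ) : kerN η m l k ≤ 1 :=
  le_hasSum (h.hasSum m l) k fun j _ => h.nonneg m l j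

theorem bR_bounds {z : ℝ} (z0 : 0 ≤ z) (z1 : z ≤ 1) (m l : ℕ) :
    0 ≤ bR η z m l ∧ |bR η z m l| ≤ 1 := by
  have h0 : 0 ≤ bR η z m l :=
    (hasSum_bR η z m l).nonneg fun k => mul_nonneg (h.nonneg _ _ _) (pow_nonneg z0 k)
  refine ⟨h0, ?_⟩
  rw [abs_of_nonneg h0]
  exact hasSum_le (fun k => mul_le_of_le_one_right (h.nonneg _ _ _) (pow_le_one₀ z0 z1))
    (hasSum_bR η z m l) (h.hasSum m l)

theorem bR_zero (z : ℝ) : bR η z 0 0 = 1 := by
  rw [bR, tsum_eq_single 0 fun k hk => by rw [kerN_high (by omega), zero_mul]]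
  simp [h.zero]

theorem bR_left (z : ℝ) (m : ℕ) :
    bR η z (m + 1) 0 = ((1 - η) + η * z) * bR η z m 0 := by
  have h1 := ((hasSum_bR_shift η z m 0).mul_left (1 - η)).add
    ((hasSum_bR η z m 0).mul_left (η * z))
  have he : (fun k => (1 - η) * (kerN η m 0 (k + 1) * z ^ (k + 1)) +
      η * z * (kerN η m 0 k * z ^ k)) = fun k => kerN η (m + 1) 0 (k + 1) * z ^ (k + 1) := by
    funext k; rw [h.left]; ring
  rw [he] at h1
  linear_combination (hasSum_bR_shift η z (m + 1) 0).unique h1 + h.left₀ m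

theorem bR_right (z : ℝ) (l : ℕ) :
    bR η z 0 (l + 1) = (η + (1 - η) * z) * bR η z 0 l := by
  have h1 := ((hasSum_bR_shift η z 0 l).mul_left η).add
    ((hasSum_bR η z 0 l).mul_left ((1 - η) * z))
  have he : (fun k => η * (kerN η 0 l (k + 1) * z ^ (k + 1)) +
      (1 - η) * z * (kerN η 0 l k * z ^ k)) = fun k => kerN η 0 (l + 1) (k + 1) * z ^ (k + 1) := by
    funext k; rw [h.right]; ring
  rw [he] at h1
  linear_combination (hasSum_bR_shift η z 0 (l + 1)).unique h1 + h.right₀ l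

theorem bR_step (z : ℝ) (m l : ℕ) :
    bR η z (m + 1) (l + 1) + z * bR η z m l =
      ((1 - η) + η * z) * bR η z m (l + 1) + (η + (1 - η) * z) * bR η z (m + 1) l := by
  have h1 := (hasSum_bR_shift η z (m + 1) (l + 1)).add ((hasSum_bR η z m l).mul_left z)
  have h2 := ((((hasSum_bR_shift η z m (l + 1)).mul_left (1 - η)).add
    ((hasSum_bR η z (m + 1) l).mul_left ((1 - η) * z))).add
    ((hasSum_bR_shift η z (m + 1) l).mul_left η)).add
    ((hasSum_bR η z m (l + 1)).mul_left (η * z))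
  have he : (fun k => kerN η (m + 1) (l + 1) (k + 1) * z ^ (k + 1) + z * (kerN η m l k * z ^ k)) =
      fun k => (1 - η) * (kerN η m (l + 1) (k + 1) * z ^ (k + 1)) +
        (1 - η) * z * (kerN η (m + 1) l k * z ^ k) +
        η * (kerN η (m + 1) l (k + 1) * z ^ (k + 1)) + η * z * (kerN η m (l + 1) k * z ^ k) := by
    funext k
    linear_combination z ^ (k + 1) * h.step m l k
  rw [he] at h1
  linear_combination h1.unique h2 + h.step₀ m l

end BeamRec

/-- The two-input transform. -/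
noncomputable def nW (a b : ℝ) (f : ℕ → ℕ → ℝ) (m l : ℕ) : ℝ :=
  nTr a (fun j => nTr b (f j) l) m

theorem nTr_lin {t : ℝ} (ht : 0 ≤ t) (m : ℕ) {f₁ f₂ f₃ : ℕ → ℝ} {C : ℝ} (x y w : ℝ)
    (h1 : ∀ j, |f₁ j| ≤ C) (h2 : ∀ j, |f₂ j| ≤ C) (h3 : ∀ j, |f₃ j| ≤ C) :
    nTr t (fun j => x * f₁ j + y * f₂ j + w * f₃ j) m =
      x * nTr t f₁ m + y * nTr t f₂ m + w * nTr t f₃ m :=
  ((((hasSum_nTr ht m h1).mul_left x).add ((hasSum_nTr ht m h2).mul_left y)).add
    ((hasSum_nTr ht m h3).mul_left w)).congr_fun (fun j => by ring) |>.tsum_eq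

theorem nTr_lin2 {t : ℝ} (ht : 0 ≤ t) (m : ℕ) {f₁ f₂ : ℕ → ℝ} {C : ℝ} (x y : ℝ)
    (h1 : ∀ j, |f₁ j| ≤ C) (h2 : ∀ j, |f₂ j| ≤ C) :
    nTr t (fun j => x * f₁ j + y * f₂ j) m = x * nTr t f₁ m + y * nTr t f₂ m :=
  (((hasSum_nTr ht m h1).mul_left x).add ((hasSum_nTr ht m h2).mul_left y)).congr_fun
    (fun j => by ring) |>.tsum_eq

section Transform

variable {a b η z : ℝ} (ha : 0 ≤ a) (hb : 0 ≤ b) (hη1 : η ≤ 1) (z1 : z ≤ 1) {R : ℕ → ℕ → ℝ} (hR : ∀ j i, |R j i| ≤ 1) (R0 : R 0 0 = 1)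
  (Rl : ∀ j, R (j + 1) 0 = ((1 - η) + η * z) * R j 0)
  (Rr : ∀ i, R 0 (i + 1) = (η + (1 - η) * z) * R 0 i)
  (Rs : ∀ j i, R (j + 1) (i + 1) + z * R j i =
    ((1 - η) + η * z) * R j (i + 1) + (η + (1 - η) * z) * R (j + 1) i)
include ha hb hη1 z1 hR R0 Rl Rr Rs

/-- The transformed table obeys the same recurrences with `z` replaced by the transformed value. -/
theorem nW_recs :
    let t := η * a + (1 - η) * b
    let Δ := 1 + t - t * z
    Δ * nW a b R 0 0 = 1 ∧
      (∀ m, Δ * nW a b R (m + 1) 0 = ((1 - η) * Δ + η * (t + (1 - t) * z)) * nW a b R m 0) ∧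
      (∀ l, Δ * nW a b R 0 (l + 1) = (η * Δ + (1 - η) * (t + (1 - t) * z)) * nW a b R 0 l) ∧
      (∀ m l, Δ * nW a b R (m + 1) (l + 1) + (t + (1 - t) * z) * nW a b R m l =
        ((1 - η) * Δ + η * (t + (1 - t) * z)) * nW a b R m (l + 1) +
          (η * Δ + (1 - η) * (t + (1 - t) * z)) * nW a b R (m + 1) l) := by
  intro t Δ
  set p := (1 - η) + η * z with hp
  set q := η + (1 - η) * z with hq
  set U : ℕ → ℕ → ℝ := nW a b (fun j i => R j (i + 1)) with hU
  set V : ℕ → ℕ → ℝ := nW a b (fun j i => R (j + 1) i) with hV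
  set X : ℕ → ℕ → ℝ := nW a b (fun j i => R (j + 1) (i + 1)) with hX
  set F : ℕ → ℕ → ℝ := nW a b R with hF
  have bd : ∀ (f : ℕ → ℕ → ℝ), (∀ j i, |f j i| ≤ 1) → ∀ l j, |nTr b (f j) l| ≤ 1 :=
    fun f hf l j => abs_nTr_le hb l (hf j)
  have bU : ∀ j i, |R j (i + 1)| ≤ 1 := fun j i => hR _ _
  have bV : ∀ j i, |R (j + 1) i| ≤ 1 := fun j i => hR _ _
  have bX : ∀ j i, |R (j + 1) (i + 1)| ≤ 1 := fun j i => hR _ _
  have a1F : ∀ m l, (1 + a) * F (m + 1) l - a * F m l = a * V (m + 1) l + (1 - a) * V m l :=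
    fun m l => nTr_succ ha m (bd R hR l)
  have a1U : ∀ m l, (1 + a) * U (m + 1) l - a * U m l = a * X (m + 1) l + (1 - a) * X m l :=
    fun m l => nTr_succ ha m (bd _ bU l)
  have a2F : ∀ m l, (1 + b) * F m (l + 1) - b * F m l = b * U m (l + 1) + (1 - b) * U m l := by
    intro m l
    have e1 := nTr_lin2 ha m (f₁ := fun j => nTr b (R j) (l + 1)) (f₂ := fun j => nTr b (R j) l)
      (1 + b) (-b) (bd R hR (l + 1)) (bd R hR l)
    have e2 := nTr_lin2 ha m (f₁ := fun j => nTr b (fun i => R j (i + 1)) (l + 1))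
      (f₂ := fun j => nTr b (fun i => R j (i + 1)) l) b (1 - b) (bd _ bU (l + 1)) (bd _ bU l)
    have e3 : (fun j => (1 + b) * nTr b (R j) (l + 1) + -b * nTr b (R j) l) =
        fun j => b * nTr b (fun i => R j (i + 1)) (l + 1) +
          (1 - b) * nTr b (fun i => R j (i + 1)) l := by
      funext j
      linear_combination nTr_succ hb l (hR j)
    rw [e3, e2] at e1
    simp only [hF, hU, nW]
    linear_combination -e1
  have lX : ∀ m l, X m l = -z * F m l + p * U m l + q * V m l := by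
    intro m l
    have e : ∀ j, nTr b (fun i => R (j + 1) (i + 1)) l =
        -z * nTr b (R j) l + p * nTr b (fun i => R j (i + 1)) l +
          q * nTr b (fun i => R (j + 1) i) l := fun j => by
      rw [← nTr_lin hb l (-z) p q (hR j) (bU j) (bV j)]
      congr 1
      funext i
      linear_combination Rs j i
    simp only [hX, hF, hU, hV, nW, e]
    exact nTr_lin ha m (-z) p q (bd R hR l) (bd _ bU l) (bd _ bV l)
  -- the first column
  set D := 1 + b - b * q with hD
  have hDpos : D ≠ 0 := by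
    have : q ≤ 1 := by
      show η + (1 - η) * z ≤ 1
      nlinarith
    have : 0 < D := by rw [hD]; nlinarith
    exact this.ne'
  have hH : ∀ j, D * nTr b (R (j + 1)) 0 = (p * (1 + b) - b * z) * nTr b (R j) 0 := by
    intro j
    have e1 := nTr_zero hb (g := R (j + 1)) (C := 1) (hR _)
    have e2 := nTr_zero hb (g := R j) (C := 1) (hR _)
    have e3 : nTr b (fun i => R (j + 1) (i + 1)) 0 =
        -z * nTr b (R j) 0 + p * nTr b (fun i => R j (i + 1)) 0 + q * nTr b (R (j + 1)) 0 := by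
      rw [← nTr_lin hb 0 (-z) p q (hR j) (bU j) (hR (j + 1))]
      congr 1
      funext i
      linear_combination Rs j i
    linear_combination e1 - p * e2 + b * e3 + Rl j
  have hH0 : D * nTr b (R 0) 0 = 1 := by
    have e1 := nTr_zero hb (g := R 0) (C := 1) (hR _)
    have e3 : nTr b (fun i => R 0 (i + 1)) 0 = q * nTr b (R 0) 0 := by
      rw [show (fun i => R 0 (i + 1)) = fun i => q * R 0 i from funext Rr]
      simp only [nTr, mul_left_comm _ q, tsum_mul_left]
    linear_combination e1 + b * e3 + R0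
  have hVcol : ∀ m, D * V m 0 = (p * (1 + b) - b * z) * F m 0 := by
    intro m
    simp only [hV, hF, nW]
    rw [nTr, nTr, ← tsum_mul_left, ← tsum_mul_left]
    exact tsum_congr fun j => by linear_combination nz a m j * hH j
  refine ⟨?_, fun m => ?_, fun l => ?_, fun m l => ?_⟩
  · have e1 := nTr_zero ha (bd R hR 0)
    have e2 : (1 + a) * F 0 0 = a * V 0 0 + nTr b (R 0) 0 := e1
    have key : Δ * F 0 0 = 1 := by
      linear_combination D * e2 + a * hVcol 0 + hH0
    exact key
  · refine mul_left_cancel₀ (one_ne_zero (α := ℝ)) ?_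
    linear_combination D * a1F m 0 + a * hVcol (m + 1) + (1 - a) * hVcol m
  · have e1 : ∀ l, (1 + a) * F 0 l = a * V 0 l + nTr b (R 0) l := fun l => nTr_zero ha (bd R hR l)
    have e2 : ∀ l, (1 + a) * U 0 l = a * X 0 l + q * nTr b (R 0) l := fun l => by
      have e3 : (1 + a) * U 0 l = a * X 0 l + nTr b (fun i => R 0 (i + 1)) l :=
        nTr_zero ha (bd _ bU l)
      rw [show (fun i => R 0 (i + 1)) = fun i => q * R 0 i from funext Rr] at e3
      simp only [nTr, mul_left_comm _ q, tsum_mul_left] at e3 ⊢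
      exact e3
    have hUrow : ∀ l, (1 + a - a * p) * U 0 l = (q * (1 + a) - a * z) * F 0 l := fun l => by
      linear_combination e2 l + a * lX 0 l - q * e1 l
    linear_combination (1 + a - a * p) * a2F 0 l + b * hUrow (l + 1) + (1 - b) * hUrow l
  · linear_combination (1 + a) * a2F (m + 1) l - a * a2F m l + b * a1U m (l + 1) +
      (1 - b) * a1U m l + (a * b) * lX (m + 1) (l + 1) + (a * (1 - b)) * lX (m + 1) l +
      ((1 - a) * b) * lX m (l + 1) + ((1 - a) * (1 - b)) * lX m l -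
      p * (a * a2F (m + 1) l + (1 - a) * a2F m l) - q * (b * a1F m (l + 1) + (1 - b) * a1F m l)

end Transform

theorem eq_zero_of_tsum_pow {a : ℕ → ℝ} (ha : Summable fun k => |a k|)
    (h : ∀ z : ℝ, 0 < z → z ≤ 1 → HasSum (fun k => a k * z ^ k) 0) : ∀ k, a k = 0 := by
  intro n
  induction n using Nat.strong_induction_on with
  | _ n ih =>
    have hshift : ∀ z : ℝ, 0 < z → z ≤ 1 → HasSum (fun k => a (k + n) * z ^ k) 0 := by
      intro z z0 z1
      have h1 := (hasSum_nat_add_iff' n).2 (h z z0 z1)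
      rw [sum_eq_zero (fun i hi => by rw [ih i (mem_range.1 hi), zero_mul]), sub_zero] at h1
      have h2 := h1.mul_left ((z ^ n)⁻¹)
      rw [mul_zero] at h2
      refine h2.congr_fun fun k => ?_
      rw [pow_add]
      field_simp
    set K := ∑' k, |a (k + n + 1)| with hK
    have hs : Summable fun k => |a (k + n + 1)| := by
      simpa only [add_assoc] using (summable_nat_add_iff (f := fun k => |a k|) (n + 1)).2 ha
    have key : ∀ z : ℝ, 0 < z → z ≤ 1 → |a n| ≤ z * K := by
      intro z z0 z1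
      have h1 := (hasSum_nat_add_iff' 1).2 (hshift z z0 z1)
      simp only [sum_range_one, pow_zero, mul_one, zero_add, zero_sub] at h1
      have h2 : ‖∑' k, a (k + 1 + n) * z ^ (k + 1)‖ ≤ z * K :=
        tsum_of_norm_bounded (hs.hasSum.mul_left z) fun k => by
          rw [Real.norm_eq_abs, abs_mul, abs_pow, abs_of_pos z0, pow_succ,
            show k + 1 + n = k + n + 1 by omega, mul_comm z |a (k + n + 1)|]
          refine mul_le_mul_of_nonneg_left ?_ (abs_nonneg _)
          exact mul_le_of_le_one_left z0.le (pow_le_one₀ z0.le z1)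
      rw [h1.tsum_eq, Real.norm_eq_abs, abs_neg] at h2
      exact h2
    by_contra hn
    have hpos : 0 < |a n| := abs_pos.2 hn
    have hK0 : 0 ≤ K := tsum_nonneg fun _ => abs_nonneg _
    have h1 := key (min 1 (|a n| / (2 * (K + 1)))) (lt_min one_pos (by positivity)) (min_le_left _ _)
    have h2 : min 1 (|a n| / (2 * (K + 1))) * K ≤ |a n| / (2 * (K + 1)) * (K + 1) :=
      mul_le_mul (min_le_right _ _) (by linarith) hK0 (by positivity)
    have h3 : |a n| / (2 * (K + 1)) * (K + 1) = |a n| / 2 := by field_simp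
    linarith

theorem nW_bR {η a b z : ℝ} (h : BeamRec η) (hη : 0 ≤ η) (hη1 : η ≤ 1) (ha : 0 ≤ a) (hb : 0 ≤ b)
    (z0 : 0 ≤ z) (z1 : z ≤ 1) (m l : ℕ) :
    nW a b (bR η z) m l =
      bR η ((η * a + (1 - η) * b + (1 - (η * a + (1 - η) * b)) * z) /
          (1 + (η * a + (1 - η) * b) - (η * a + (1 - η) * b) * z)) m l /
        (1 + (η * a + (1 - η) * b) - (η * a + (1 - η) * b) * z) := by
  obtain ⟨F0, Fl, Fr, Fs⟩ := nW_recs ha hb hη1 z1 (fun j i => (h.bR_bounds z0 z1 j i).2)
    (h.bR_zero z) (h.bR_left z) (h.bR_right z) (h.bR_step z)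
  have ht0 : 0 ≤ η * a + (1 - η) * b := by nlinarith
  set t := η * a + (1 - η) * b with ht
  set Δ := 1 + t - t * z with hΔ
  have hΔ0 : 0 < Δ := by rw [hΔ]; nlinarith
  set w := (t + (1 - t) * z) / Δ with hw
  have hw' : t + (1 - t) * z = w * Δ := by rw [hw]; field_simp
  suffices hs : ∀ N m l, m + l = N → Δ * nW a b (bR η z) m l = bR η w m l by
    rw [eq_div_iff hΔ0.ne', mul_comm]; exact hs _ m l rfl
  intro N
  induction N using Nat.strong_induction_on with
  | _ N ih =>
    intro m l hml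
    rcases m with _ | m <;> rcases l with _ | l
    · rw [h.bR_zero]; exact F0
    · rw [h.bR_right]
      linear_combination Fr l + (η + (1 - η) * w) * ih l (by omega) 0 l (by omega) +
        (1 - η) * nW a b (bR η z) 0 l * hw'
    · rw [h.bR_left]
      linear_combination Fl m + ((1 - η) + η * w) * ih m (by omega) m 0 (by omega) +
        η * nW a b (bR η z) m 0 * hw'
    · linear_combination Fs m l - h.bR_step w m l +
        ((1 - η) + η * w) * ih (m + (l + 1)) (by omega) m (l + 1) rfl +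
        (η + (1 - η) * w) * ih (m + 1 + l) (by omega) (m + 1) l rfl -
        w * ih (m + l) (by omega) m l rfl +
        (η * nW a b (bR η z) m (l + 1) + (1 - η) * nW a b (bR η z) (m + 1) l -
          nW a b (bR η z) m l) * hw'

/-- Noise before the beam splitter is noise after it. -/
theorem hasSum_nz_kerN {η a b : ℝ} (h : BeamRec η) (hη : 0 ≤ η) (hη1 : η ≤ 1) (ha : 0 ≤ a)
    (hb : 0 ≤ b) (m l k : ℕ) :
    HasSum (fun x : ℕ × ℕ => nz a m x.1 * nz b l x.2 * kerN η x.1 x.2 k)
      (∑' r, kerN η m l r * nz (η * a + (1 - η) * b) r k) := by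
  set t := η * a + (1 - η) * b with ht
  have ht0 : 0 ≤ t := by rw [ht]; nlinarith
  have hprod : Summable fun x : ℕ × ℕ => nz a m x.1 * nz b l x.2 :=
    (summable_nz ha m).mul_of_nonneg (summable_nz hb l) (nz_nonneg ha m) (nz_nonneg hb l)
  set f : (ℕ × ℕ) × ℕ → ℝ := fun y => nz a m y.1.1 * nz b l y.1.2 * kerN η y.1.1 y.1.2 y.2 with hf
  have hf0 : 0 ≤ f := fun y =>
    mul_nonneg (mul_nonneg (nz_nonneg ha _ _) (nz_nonneg hb _ _)) (h.nonneg _ _ _)
  have hfs : Summable f := by
    have hfib : ∀ x : ℕ × ℕ, HasSum (fun k => f (x, k)) (nz a m x.1 * nz b l x.2) := fun x => by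
      have := (h.hasSum x.1 x.2).mul_left (nz a m x.1 * nz b l x.2)
      rwa [mul_one] at this
    refine (summable_prod_of_nonneg hf0).2 ⟨fun x => (hfib x).summable, ?_⟩
    exact hprod.congr fun x => ((hfib x).tsum_eq).symm
  set g : ℕ × (ℕ × ℕ) → ℝ := fun y => f (y.2, y.1) with hg
  have hg0 : 0 ≤ g := fun y => hf0 _
  have hgs : Summable g := hfs.prod_symm
  set L : ℕ → ℝ := fun k => ∑' x : ℕ × ℕ, f (x, k) with hL
  have hL0 : ∀ k, 0 ≤ L k := fun k => tsum_nonneg fun x => hf0 _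
  have hLs : Summable L := ((summable_prod_of_nonneg hg0).1 hgs).2
  set M : ℕ → ℝ := fun k => ∑' r, kerN η m l r * nz t r k with hM
  have hM' : ∀ k, M k = ∑ r ∈ range (m + l + 1), kerN η m l r * nz t r k := fun k =>
    tsum_eq_sum fun r hr => by
      rw [mem_range, not_lt] at hr
      rw [kerN_high (by omega), zero_mul]
  have hMs : Summable M := by
    rw [show M = fun k => ∑ r ∈ range (m + l + 1), kerN η m l r * nz t r k from funext hM']
    exact summable_sum fun r _ => (summable_nz ht0 r).mul_left _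
  have hGF : ∀ z : ℝ, 0 < z → z ≤ 1 → HasSum (fun k => (L k - M k) * z ^ k) 0 := by
    intro z z0 z1
    have hFs : Summable fun y : (ℕ × ℕ) × ℕ => f y * z ^ y.2 :=
      hfs.of_nonneg_of_le (fun y => mul_nonneg (hf0 y) (pow_nonneg z0.le _))
        fun y => mul_le_of_le_one_right (hf0 y) (pow_le_one₀ z0.le z1)
    have h1 : HasSum (fun k => L k * z ^ k) (∑' y, f y * z ^ y.2) := by
      have hsw := (Equiv.prodComm ℕ (ℕ × ℕ)).hasSum_iff.2 hFs.hasSum
      refine hsw.prod_fiberwise fun k => ?_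
      exact ((((summable_prod_of_nonneg hg0).1 hgs).1 k).hasSum.mul_right (z ^ k))
    have h2 : (∑' y, f y * z ^ y.2) = nW a b (bR η z) m l := by
      have hx := hFs.hasSum.prod_fiberwise
        (g := fun x : ℕ × ℕ => nz a m x.1 * nz b l x.2 * bR η z x.1 x.2) fun x => by
          refine ((hasSum_bR η z x.1 x.2).mul_left (nz a m x.1 * nz b l x.2)).congr_fun fun k => ?_
          simp only [hf]; ring
      refine (hx.prod_fiberwise (g := fun j => nz a m j * nTr b (bR η z j) l) fun j => ?_).tsum_eq.symm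
      refine ((hasSum_nTr hb l fun i => (h.bR_bounds z0.le z1 j i).2).mul_left (nz a m j)).congr_fun
        fun i => ?_
      ring
    have h3 : HasSum (fun k => M k * z ^ k) (nW a b (bR η z) m l) := by
      rw [nW_bR h hη hη1 ha hb z0.le z1 m l, ← ht]
      have hsum := hasSum_sum fun r (_ : r ∈ range (m + l + 1)) =>
        (hasSum_nz_mul_pow ht0 r z0.le z1).mul_left (kerN η m l r)
      have e : (∑ r ∈ range (m + l + 1), kerN η m l r *
          ((t + (1 - t) * z) ^ r / (1 + t - t * z) ^ (r + 1))) =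
          bR η ((t + (1 - t) * z) / (1 + t - t * z)) m l / (1 + t - t * z) := by
        rw [bR, tsum_eq_sum (s := range (m + l + 1)) fun r hr => by
          rw [mem_range, not_lt] at hr
          rw [kerN_high (by omega), zero_mul], sum_div]
        refine sum_congr rfl fun r _ => ?_
        rw [div_pow, pow_succ (1 + t - t * z) r, ← div_div, mul_div_assoc]
      rw [e] at hsum
      refine hsum.congr_fun fun k => ?_
      rw [hM', sum_mul]
      exact sum_congr rfl fun r _ => by ring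
    have h4 := h1.sub h3
    rw [h2, sub_self] at h4
    exact h4.congr_fun fun k => by ring
  have hzero := eq_zero_of_tsum_pow ((hLs.sub hMs).abs) hGF k
  have : L k = M k := by linarith
  show HasSum (fun x : ℕ × ℕ => f (x, k)) (M k)
  rw [← this]
  exact (((summable_prod_of_nonneg hg0).1 hgs).1 k).hasSum

end Vale.Agent.P369.Diag
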