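import Vale.Agent.P369.Diag.NoiseBox
import Vale.Agent.P369.Diag.NoiseSplit
import Vale.Agent.P369.Diag.BeamBox

/-!
Semigroup law and beam-splitter intertwining of the noise channel on `n` modes.
-/

namespace Vale.Agent.P369.Diag

open Finset

theorem beamRec {η : ℝ} (e0 : 0 ≤ η) (e1 : η ≤ 1) : BeamRec η where
  nonneg := kerN_nonneg η
  hasSum := hasSum_kerN e0 e1
  zero := by simp [kerN_zero_zero]
  left₀ := kerN_rec_right_zero e0 e1
  left := kerN_rec_right e0 e1
  right₀ := kerN_rec_left_zero e0 e1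
  right l k := by rw [kerN_rec_left e0 e1]; ring
  step₀ := kerN_rec_zero e0 e1
  step := kerN_rec e0 e1

variable {n : ℕ}

theorem nprod_le_one {t : ℝ} (ht : 0 ≤ t) (m k : Fin n → ℕ) : nprod t m k ≤ 1 :=
  le_hasSum (hasSum_nprod ht m) k fun j _ => nprod_nonneg ht m j

theorem summable_mul_nprod {t : ℝ} (ht : 0 ≤ t) {p : (Fin n → ℕ) → ℝ} (hp0 : ∀ m, 0 ≤ p m)
    (hps : Summable p) (k : Fin n → ℕ) : Summable fun m => p m * nprod t m k :=
  hps.of_nonneg_of_le (fun m => mul_nonneg (hp0 m) (nprod_nonneg ht m k))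
    fun m => mul_le_of_le_one_right (hp0 m) (nprod_le_one ht m k)

theorem hasSum_nprod_comp {a b : ℝ} (ha : 0 ≤ a) (hb : 0 ≤ b) (m k : Fin n → ℕ) :
    HasSum (fun j => nprod a m j * nprod b j k) (nprod (a + b) m k) := by
  have h := hasSum_pi_prod (f := fun i x => nz a (m i) x * nz b x (k i))
    (fun i x => mul_nonneg (nz_nonneg ha _ _) (nz_nonneg hb _ _))
    fun i => hasSum_nz_comp ha hb (m i) (k i)
  simpa only [nprod, prod_mul_distrib] using h

/-- The semigroup law. -/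
theorem noise_noise {a b : ℝ} (ha : 0 ≤ a) (hb : 0 ≤ b) {p : (Fin n → ℕ) → ℝ}
    (hp0 : ∀ m, 0 ≤ p m) (hps : Summable p) : noise b (noise a p) = noise (a + b) p := by
  funext k
  set F : (Fin n → ℕ) × (Fin n → ℕ) → ℝ := fun y => p y.1 * (nprod a y.1 y.2 * nprod b y.2 k)
    with hF
  have hF0 : 0 ≤ F := fun y =>
    mul_nonneg (hp0 _) (mul_nonneg (nprod_nonneg ha _ _) (nprod_nonneg hb _ _))
  have hfib : ∀ m, HasSum (fun j => F (m, j)) (p m * nprod (a + b) m k) := fun m =>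
    (hasSum_nprod_comp ha hb m k).mul_left (p m)
  have hFs : Summable F := (summable_prod_of_nonneg hF0).2 ⟨fun m => (hfib m).summable,
    (summable_mul_nprod (by linarith) hp0 hps k).congr fun m => ((hfib m).tsum_eq).symm⟩
  have h1 := hFs.hasSum.prod_fiberwise hfib
  have hsw := (Equiv.prodComm (Fin n → ℕ) (Fin n → ℕ)).hasSum_iff.2 hFs.hasSum
  have h2 := hsw.prod_fiberwise (g := fun j => noise a p j * nprod b j k) fun j => by
    refine (((summable_mul_nprod ha hp0 hps j).hasSum).mul_right (nprod b j k)).congr_fun fun m => ?_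
    show F (m, j) = _
    simp only [hF]; ring
  exact h2.tsum_eq.trans h1.tsum_eq.symm

theorem noise_noise' {a b : ℝ} (ha : 0 ≤ a) (hb : 0 ≤ b) {p : (Fin n → ℕ) → ℝ}
    (hp0 : ∀ m, 0 ≤ p m) (hps : Summable p) : noise a (noise b p) = noise (a + b) p := by
  rw [noise_noise hb ha hp0 hps, add_comm]

theorem kprod_le_one {η : ℝ} (e0 : 0 ≤ η) (e1 : η ≤ 1) (m l k : Fin n → ℕ) : kprod η m l k ≤ 1 :=
  prod_le_one (fun _ _ => kerN_nonneg _ _ _ _) fun _ _ => kerN_le_one e0 e1 _ _ _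

/-- Noise before the beam splitter is noise after it. -/
theorem bsOut_noise {η a b : ℝ} (e0 : 0 ≤ η) (e1 : η ≤ 1) (ha : 0 ≤ a) (hb : 0 ≤ b)
    {p q : (Fin n → ℕ) → ℝ} (hp0 : ∀ m, 0 ≤ p m) (hps : Summable p) (hq0 : ∀ m, 0 ≤ q m)
    (hqs : Summable q) :
    bsOut η (noise a p) (noise b q) = noise (η * a + (1 - η) * b) (bsOut η p q) := by
  funext k
  set t := η * a + (1 - η) * b with ht
  have ht0 : 0 ≤ t := by rw [ht]; nlinarith
  set T : (Fin n → ℕ) × (Fin n → ℕ) → ℝ := fun x =>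
    ∏ i, ∑' r, kerN η (x.1 i) (x.2 i) r * nz t r (k i) with hT
  -- noise first
  have hA : ∀ x : (Fin n → ℕ) × (Fin n → ℕ),
      HasSum (fun y : (Fin n → ℕ) × (Fin n → ℕ) =>
        nprod a x.1 y.1 * nprod b x.2 y.2 * kprod η y.1 y.2 k) (T x) := fun x => by
    have h := hasSum_pi_prod (κ := ℕ × ℕ)
      (f := fun i z => nz a (x.1 i) z.1 * nz b (x.2 i) z.2 * kerN η z.1 z.2 (k i))
      (fun i z => mul_nonneg (mul_nonneg (nz_nonneg ha _ _) (nz_nonneg hb _ _))
        (kerN_nonneg _ _ _ _))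
      fun i => hasSum_nz_kerN (beamRec e0 e1) e0 e1 ha hb (x.1 i) (x.2 i) (k i)
    refine (Equiv.hasSum_iff (Equiv.arrowProdEquivProdArrow (Fin n) (fun _ => ℕ) (fun _ => ℕ))).1
      (h.congr_fun fun z => ?_)
    simp [nprod, kprod, prod_mul_distrib, Equiv.arrowProdEquivProdArrow]
  -- noise last
  have hB : ∀ x : (Fin n → ℕ) × (Fin n → ℕ),
      HasSum (fun r => kprod η x.1 x.2 r * nprod t r k) (T x) := fun x => by
    have h := hasSum_pi_prod (f := fun i r => kerN η (x.1 i) (x.2 i) r * nz t r (k i))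
      (fun i r => mul_nonneg (kerN_nonneg _ _ _ _) (nz_nonneg ht0 _ _))
      fun i => (summable_of_ne_finset_zero (s := range (x.1 i + x.2 i + 1)) fun r hr => by
        rw [Finset.mem_range] at hr
        rw [kerN_high (by omega), zero_mul]).hasSum
    simpa only [nprod, kprod, prod_mul_distrib] using h
  have hT0 : ∀ x, 0 ≤ T x := fun x => (hB x).nonneg fun r =>
    mul_nonneg (kprod_nonneg η _ _ _) (nprod_nonneg ht0 _ _)
  have hT1 : ∀ x, T x ≤ 1 := fun x => by
    refine hasSum_le (fun y => mul_le_of_le_one_right (mul_nonneg (nprod_nonneg ha _ _)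
      (nprod_nonneg hb _ _)) (kprod_le_one e0 e1 _ _ _)) (hA x) ?_
    have h := (hasSum_nprod ha x.1).mul (hasSum_nprod hb x.2)
      ((hasSum_nprod ha x.1).summable.mul_of_nonneg (hasSum_nprod hb x.2).summable
        (nprod_nonneg ha x.1) (nprod_nonneg hb x.2))
    rwa [one_mul] at h
  have hpq : Summable fun x : (Fin n → ℕ) × (Fin n → ℕ) => p x.1 * q x.2 :=
    hps.mul_of_nonneg hqs hp0 hq0
  have hw : Summable fun x : (Fin n → ℕ) × (Fin n → ℕ) => p x.1 * q x.2 * T x :=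
    hpq.of_nonneg_of_le (fun x => mul_nonneg (mul_nonneg (hp0 _) (hq0 _)) (hT0 x))
      fun x => mul_le_of_le_one_right (mul_nonneg (hp0 _) (hq0 _)) (hT1 x)
  set F : ((Fin n → ℕ) × (Fin n → ℕ)) × ((Fin n → ℕ) × (Fin n → ℕ)) → ℝ := fun z =>
    p z.1.1 * q z.1.2 * (nprod a z.1.1 z.2.1 * nprod b z.1.2 z.2.2 * kprod η z.2.1 z.2.2 k)
    with hF
  have hF0 : 0 ≤ F := fun z => mul_nonneg (mul_nonneg (hp0 _) (hq0 _))
    (mul_nonneg (mul_nonneg (nprod_nonneg ha _ _) (nprod_nonneg hb _ _)) (kprod_nonneg _ _ _ _))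
  have hFfib : ∀ x, HasSum (fun y => F (x, y)) (p x.1 * q x.2 * T x) := fun x =>
    (hA x).mul_left (p x.1 * q x.2)
  have hFs : Summable F := (summable_prod_of_nonneg hF0).2
    ⟨fun x => (hFfib x).summable, hw.congr fun x => ((hFfib x).tsum_eq).symm⟩
  set G : ((Fin n → ℕ) × (Fin n → ℕ)) × (Fin n → ℕ) → ℝ := fun z =>
    p z.1.1 * q z.1.2 * (kprod η z.1.1 z.1.2 z.2 * nprod t z.2 k) with hG
  have hG0 : 0 ≤ G := fun z => mul_nonneg (mul_nonneg (hp0 _) (hq0 _))
    (mul_nonneg (kprod_nonneg _ _ _ _) (nprod_nonneg ht0 _ _))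
  have hGfib : ∀ x, HasSum (fun r => G (x, r)) (p x.1 * q x.2 * T x) := fun x =>
    (hB x).mul_left (p x.1 * q x.2)
  have hGs : Summable G := (summable_prod_of_nonneg hG0).2
    ⟨fun x => (hGfib x).summable, hw.congr fun x => ((hGfib x).tsum_eq).symm⟩
  have hFtot := hFs.hasSum.prod_fiberwise hFfib
  have hGtot := hGs.hasSum.prod_fiberwise hGfib
  -- the left side
  have hL := ((Equiv.prodComm ((Fin n → ℕ) × (Fin n → ℕ)) ((Fin n → ℕ) × (Fin n → ℕ))).hasSum_iff.2
    hFs.hasSum).prod_fiberwise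
    (g := fun y => noise a p y.1 * noise b q y.2 * kprod η y.1 y.2 k) fun y => by
      have h1 := (summable_mul_nprod ha hp0 hps y.1).hasSum
      have h2 := (summable_mul_nprod hb hq0 hqs y.2).hasSum
      have h := h1.mul h2 (h1.summable.mul_of_nonneg h2.summable
        (fun m => mul_nonneg (hp0 m) (nprod_nonneg ha _ _))
        (fun m => mul_nonneg (hq0 m) (nprod_nonneg hb _ _)))
      refine (h.mul_right (kprod η y.1 y.2 k)).congr_fun fun x => ?_
      show F (x, y) = _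
      simp only [hF]; ring
  -- the right side
  have hR := ((Equiv.prodComm (Fin n → ℕ) ((Fin n → ℕ) × (Fin n → ℕ))).hasSum_iff.2
    hGs.hasSum).prod_fiberwise (g := fun r => bsOut η p q r * nprod t r k) fun r => by
      have hs : Summable fun x : (Fin n → ℕ) × (Fin n → ℕ) => p x.1 * q x.2 * kprod η x.1 x.2 r :=
        hpq.of_nonneg_of_le (fun x => mul_nonneg (mul_nonneg (hp0 _) (hq0 _)) (kprod_nonneg _ _ _ _))
          fun x => mul_le_of_le_one_right (mul_nonneg (hp0 _) (hq0 _)) (kprod_le_one e0 e1 _ _ _)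
      have e : bsOut η p q r = ∑' x : (Fin n → ℕ) × (Fin n → ℕ),
          p x.1 * q x.2 * kprod η x.1 x.2 r := hs.tsum_prod.symm
      rw [e]
      refine (hs.hasSum.mul_right (nprod t r k)).congr_fun fun x => ?_
      show G (x, r) = _
      simp only [hG]; ring
  calc bsOut η (noise a p) (noise b q) k
      = ∑' y : (Fin n → ℕ) × (Fin n → ℕ), noise a p y.1 * noise b q y.2 * kprod η y.1 y.2 k :=
        hL.summable.tsum_prod.symm
    _ = ∑' z, F z := hL.tsum_eq
    _ = ∑' x : (Fin n → ℕ) × (Fin n → ℕ), p x.1 * q x.2 * T x := hFtot.tsum_eq.symm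
    _ = ∑' z, G z := hGtot.tsum_eq
    _ = noise t (bsOut η p q) k := hR.tsum_eq.symm

end Vale.Agent.P369.Diag
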