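import Vale.Agent.P369.Diag.Extend
import Vale.Agent.P369.Diag.NoiseLift
import Vale.Agent.P369.Diag.Entropy

/-!
The Fisher-information inequality along the coupled evolutions, and its time integrals.
-/

namespace Vale.Agent.P369.Diag

open Finset Filter Topology MeasureTheory

variable {n R : ℕ} {p q : (Fin n → ℕ) → ℝ} {η : ℝ}

theorem fterm_eq_zero_of_not_mem {p : (Fin n → ℕ) → ℝ} (hp : InBox R p) (lam : ℝ) (i : Fin n)
    {k : Fin n → ℕ} (hk : k ∉ box n R) : fterm p lam i k = 0 := by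
  have h : up i k ∉ box n R := fun h => hk (mem_box.2 fun j => (le_up i k j).trans_lt (mem_box.1 h j))
  simp [fterm, hp k hk, hp _ h]

theorem sum_fterm_le_bfish {p : (Fin n → ℕ) → ℝ} (hp : InBox R p) (h0 : ∀ k, 0 ≤ p k) {lam : ℝ}
    (hl : 0 ≤ lam) (hl1 : lam ≤ 1) (s : Finset (Fin n → ℕ)) :
    ∑ i, ∑ k ∈ s, fterm p lam i k ≤ bfish R p lam :=
  sum_le_sum fun i _ => by
    rw [← sum_filter_of_ne (p := fun k => k ∈ box n R) fun k _ hk => by
      by_contra h; exact hk (fterm_eq_zero_of_not_mem hp lam i h)]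
    exact sum_le_sum_of_subset_of_nonneg (fun k hk => (mem_filter.1 hk).2)
      fun k _ _ => fterm_nonneg h0 hl hl1 i k

theorem bfish_nonneg {p : (Fin n → ℕ) → ℝ} (h0 : ∀ k, 0 ≤ p k) {lam : ℝ} (hl : 0 ≤ lam)
    (hl1 : lam ≤ 1) : 0 ≤ bfish R p lam :=
  sum_nonneg fun i _ => sum_nonneg fun k _ => fterm_nonneg h0 hl hl1 i k

/-- The two steps on finitely supported inputs. -/
theorem master_box (e0 : 0 < η) (e1 : η < 1) (hp : InBox R p) (hq : InBox R q)
    (hp0 : ∀ m, 0 ≤ p m) (hq0 : ∀ m, 0 ≤ q m) (hpd : Decr p) (hqd : Decr q)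
    (hP : ∑ m ∈ box n R, p m ≤ 1) (hQ : ∑ m ∈ box n R, q m ≤ 1)
    {t α β δ wA wB w3 b3 : ℝ} (ht : 0 ≤ t) (hα : 0 < α) (hα1 : α ≤ 1) (hβ : 0 < β) (hβ1 : β ≤ 1)
    (hδ : 0 ≤ δ) (hwA : 0 < wA) (hwB : 0 < wB) (hw3 : 0 ≤ w3) (hw : wA + wB + w3 = 1)
    (hb : 0 ≤ b3) (h3 : w3 ^ 2 ≤ b3 * (t + δ)) (s : Finset (Fin n → ℕ)) :
    ∑ i, ∑ k ∈ s, fterm (noise t (bsOut η p q)) (η * α + (1 - η) * β + δ) i k ≤
      wA ^ 2 / η * bfish R p α + wB ^ 2 / (1 - η) * bfish R q β + (n : ℝ) * b3 := by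
  set X := bsOut η p q with hX
  set μ := η * α + (1 - η) * β with hμ
  set π := wA / (wA + wB) with hπ
  have hc : 0 < 1 - η := by linarith
  have hμ0 : 0 < μ := add_pos (mul_pos e0 hα) (mul_pos hc hβ)
  have hμ1 : μ ≤ 1 := by rw [hμ]; nlinarith
  have hXB : InBox (2 * R) X := bsOut_inBox η hp hq
  have hX0 : ∀ k, 0 ≤ X k := bsOut_nonneg hp hq hp0 hq0 η
  have hXd : Decr X := bsOut_decr e0.le e1.le hp hq hp0 hpd hqd
  have hXm : ∑ k ∈ box n (2 * R), X k ≤ 1 := by
    rw [hX, bsOut_mass e0.le e1.le hp hq]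
    exact mul_le_one₀ hP (sum_nonneg fun m _ => hq0 m) hQ
  have hS : 0 < wA + wB := by linarith
  have hF : (wA + wB) ^ 2 * bfish (2 * R) X μ ≤
      wA ^ 2 / η * bfish R p α + wB ^ 2 / (1 - η) * bfish R q β := by
    have h := stam_box e0 e1 hα hβ (π := π) (by positivity)
      (by rw [hπ, div_le_one hS]; linarith) hp hq hp0 hq0 hpd hqd (box n (2 * R))
    have f1 := bfish_nonneg (R := R) hp0 hα.le hα1
    have f2 := bfish_nonneg (R := R) hq0 hβ.le hβ1
    have g1 : π ^ 2 / η * (∑ l ∈ box n R, q l) * bfish R p α ≤ π ^ 2 / η * bfish R p α :=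
      mul_le_mul_of_nonneg_right (mul_le_of_le_one_right (by positivity) hQ) f1
    have g2 : (1 - π) ^ 2 / (1 - η) * (∑ m ∈ box n R, p m) * bfish R q β ≤
        (1 - π) ^ 2 / (1 - η) * bfish R q β :=
      mul_le_mul_of_nonneg_right (mul_le_of_le_one_right (div_nonneg (sq_nonneg _) hc.le) hP) f2
    have h2 : bfish (2 * R) X μ ≤ π ^ 2 / η * bfish R p α + (1 - π) ^ 2 / (1 - η) * bfish R q β := by
      rw [bfish]; linarith
    refine (mul_le_mul_of_nonneg_left h2 (sq_nonneg _)).trans_eq ?_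
    have a : (wA + wB) ^ 2 * π ^ 2 = wA ^ 2 := by rw [← mul_pow, hπ, mul_div_cancel₀ _ hS.ne']
    have b : (wA + wB) ^ 2 * (1 - π) ^ 2 = wB ^ 2 := by
      rw [← mul_pow, mul_sub, mul_one, hπ, mul_div_cancel₀ _ hS.ne']; ring
    rw [← a, ← b]; ring
  rcases (add_nonneg ht hδ).eq_or_lt with h | h
  · have ht0 : t = 0 := by linarith
    have hδ0 : δ = 0 := by linarith
    rw [← h, mul_zero] at h3
    have hz : w3 = 0 := pow_eq_zero_iff two_ne_zero |>.1 (le_antisymm h3 (sq_nonneg _))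
    subst ht0 hδ0
    rw [noise_zero, add_zero]
    have hw1 : (wA + wB) ^ 2 = 1 := by rw [show wA + wB = 1 by linarith]; norm_num
    rw [hw1, one_mul] at hF
    have := mul_nonneg (Nat.cast_nonneg (α := ℝ) n) hb
    exact (sum_fterm_le_bfish hXB hX0 hμ0.le hμ1 s).trans (by linarith)
  · have hn := noise_box hXB hX0 hXd ht hμ0 hδ h (π := wA + wB) hS.le (by linarith) s
    refine hn.trans (add_le_add hF ?_)
    rw [show 1 - (wA + wB) = w3 by linarith, div_le_iff₀ h]
    calc (n : ℝ) * w3 ^ 2 * ∑ m ∈ box n (2 * R), X m ≤ (n : ℝ) * w3 ^ 2 :=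
          mul_le_of_le_one_right (by positivity) hXm
      _ ≤ (n : ℝ) * (b3 * (t + δ)) := mul_le_mul_of_nonneg_left h3 (Nat.cast_nonneg n)
      _ = _ := by ring

namespace Fin1

theorem isState_noise (h : Fin1 R p) {t : ℝ} (ht : 0 ≤ t) : IsState (noise t p) :=
  ⟨h.noise_nonneg ht, (h.hasSum_noise ht).tsum_eq, (h.hasSum_tot_noise ht).summable⟩

theorem fishE_noise_le (h : Fin1 R p) (hd : Decr p) {t lam : ℝ} (ht : 0 ≤ t) (hl : 0 < lam)
    (hl1 : lam ≤ 1) : fishE (noise t p) lam ≤ ENNReal.ofReal ((n : ℝ) / (t + lam)) :=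
  fishE_le (h.noise_nonneg ht) hl.le hl1 fun s => by
    have := noise_box_zero h.inBox h.nonneg hd ht hl.le (by linarith) s
    rwa [h.mass, mul_one] at this

theorem fishE_noise_ne_top (h : Fin1 R p) (hd : Decr p) {t lam : ℝ} (ht : 0 ≤ t) (hl : 0 < lam)
    (hl1 : lam ≤ 1) : fishE (noise t p) lam ≠ ⊤ :=
  ne_top_of_le_ne_top ENNReal.ofReal_ne_top (h.fishE_noise_le hd ht hl hl1)

theorem fishR_noise_le (h : Fin1 R p) (hd : Decr p) {t lam : ℝ} (ht : 0 ≤ t) (hl : 0 < lam)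
    (hl1 : lam ≤ 1) : fishR (noise t p) lam ≤ (n : ℝ) / (t + lam) :=
  ENNReal.toReal_le_of_le_ofReal (div_nonneg (Nat.cast_nonneg n) (by linarith))
    (h.fishE_noise_le hd ht hl hl1)

theorem measurable_fishR (h : Fin1 R p) (lam : ℝ) : Measurable fun t => fishR (noise t p) lam :=
  (h.measurable_fishE.comp (measurable_const.prodMk measurable_id)).ennreal_toReal

end Fin1

/-- The Fisher inequality along the coupled evolutions. -/
theorem fishR_master (e0 : 0 < η) (e1 : η < 1) (hp : Fin1 R p) (hq : Fin1 R q) (hpd : Decr p)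
    (hqd : Decr q) {a b t α β δ wA wB w3 b3 : ℝ} (ha : 0 < a) (hb' : 0 < b) (ht : 0 ≤ t)
    (hα : 0 < α) (hα1 : α ≤ 1) (hβ : 0 < β) (hβ1 : β ≤ 1) (hδ : 0 ≤ δ)
    (hl1 : η * α + (1 - η) * β + δ ≤ 1) (hwA : 0 < wA) (hwB : 0 < wB) (hw3 : 0 ≤ w3)
    (hw : wA + wB + w3 = 1) (hb : 0 ≤ b3) (h3 : w3 ^ 2 ≤ b3 * (t + δ)) :
    fishR (noise (η * a + (1 - η) * b + t) (bsOut η p q)) (η * α + (1 - η) * β + δ) ≤
      wA ^ 2 / η * fishR (noise a p) α + wB ^ 2 / (1 - η) * fishR (noise b q) β + (n : ℝ) * b3 := by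
  set lam := η * α + (1 - η) * β + δ with hlam
  set τ := η * a + (1 - η) * b with hτ
  have hc : 0 < 1 - η := by linarith
  have hτ0 : 0 < τ := add_pos (mul_pos e0 ha) (mul_pos hc hb')
  have hl0 : 0 < lam := by nlinarith
  set C := bsOut η p q with hC
  have hC1 : Fin1 (2 * R) C :=
    ⟨bsOut_inBox η hp.inBox hq.inBox, bsOut_nonneg hp.inBox hq.inBox hp.nonneg hq.nonneg η, by
      rw [hC, bsOut_mass e0.le e1.le hp.inBox hq.inBox, hp.mass, hq.mass, one_mul]⟩
  have hA := hp.isState_noise ha.le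
  have hB := hq.isState_noise hb'.le
  have hAd := noise_decr ha.le hp.inBox hp.nonneg hpd
  have hBd := noise_decr hb'.le hq.inBox hq.nonneg hqd
  have hX : bsOut η (noise a p) (noise b q) = noise τ C :=
    bsOut_noise e0.le e1.le ha.le hb'.le hp.nonneg (inBox_summable hp.inBox) hq.nonneg
      (inBox_summable hq.inBox)
  have hY : noise t (noise τ C) = noise (τ + t) C :=
    noise_noise hτ0.le ht hC1.nonneg (inBox_summable hC1.inBox)
  have hsum : Summable (noise τ C) := (hC1.hasSum_noise hτ0.le).summable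
  set uA := fun S => trunc S (noise a p) with huA
  set uB := fun S => trunc S (noise b q) with huB
  set X := fun S => bsOut η (uA S) (uB S) with hXS
  have hXeq : ∀ S j, X S j = ∑ x ∈ box n S ×ˢ box n S,
      noise a p x.1 * noise b q x.2 * kprod η x.1 x.2 j := by
    intro S j
    simp only [hXS, huA, huB]
    rw [bsOut_eq η (inBox_trunc _) (inBox_trunc _), sum_product]
    exact sum_congr rfl fun m hm => sum_congr rfl fun l hl => by
      rw [trunc, trunc, if_pos hm, if_pos hl]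
  have hXt : ∀ j, Tendsto (fun S => X S j) atTop (𝓝 (noise τ C j)) := fun j => by
    simp only [hXeq, ← hX]
    exact (hasSum_out e0.le e1.le hA hB j).comp (tendsto_box_prod n)
  have hX0 : ∀ S j, 0 ≤ X S j := fun S j =>
    bsOut_nonneg (inBox_trunc _) (inBox_trunc _) (trunc_nonneg hA.1) (trunc_nonneg hB.1) η j
  have hXle : ∀ S j, X S j ≤ noise τ C j := fun S j => by
    rw [hXeq, ← hX]
    exact sum_le_hasSum _ (fun x _ => mul_nonneg (mul_nonneg (hA.1 _) (hB.1 _)) (kprod_nonneg η _ _ _))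
      (hasSum_out e0.le e1.le hA hB j)
  have hYt : ∀ k, Tendsto (fun S => noise t (X S) k) atTop (𝓝 (noise (τ + t) C k)) := by
    intro k
    rw [← hY]
    refine tendsto_tsum_of_dominated_convergence hsum (fun j => (hXt j).mul_const _)
      (Eventually.of_forall fun S j => ?_)
    rw [Real.norm_eq_abs, abs_of_nonneg (mul_nonneg (hX0 S j) (prod_nonneg fun i _ => nz_nonneg ht _ _))]
    exact (mul_le_of_le_one_right (hX0 S j) (prod_le_one (fun i _ => nz_nonneg ht _ _)
      fun i _ => nz_le_one ht _ _)).trans (hXle S j)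
  have hwA' : 0 ≤ wA ^ 2 / η := div_nonneg (sq_nonneg _) e0.le
  have hwB' : 0 ≤ wB ^ 2 / (1 - η) := div_nonneg (sq_nonneg _) hc.le
  refine fishR_le (hC1.noise_nonneg (by linarith)) hl0.le hl1
    (add_nonneg (add_nonneg (mul_nonneg hwA' (fishR_nonneg _ _)) (mul_nonneg hwB' (fishR_nonneg _ _)))
      (mul_nonneg (Nat.cast_nonneg n) hb)) fun s => ?_
  have hwa : Summable fun k => ((tot k : ℝ) + 1) * noise a p k :=
    (hA.2.2.add hA.summable).congr fun k => by ring
  have hwb : Summable fun k => ((tot k : ℝ) + 1) * noise b q k :=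
    (hB.2.2.add hB.summable).congr fun k => by ring
  refine sum_fterm_le_of_tendsto (u := fun S => noise t (X S)) hYt
    (fun i k => (den_pos (fun k => hC1.noise_pos (by linarith) k) hl0.le hl1 i k).ne')
    (b := fun S =>
      wA ^ 2 / η * (fishR (noise a p) α + (n : ℝ) * α⁻¹ * tail S (fun k => ((tot k : ℝ) + 1) * noise a p k)) +
      wB ^ 2 / (1 - η) *
        (fishR (noise b q) β + (n : ℝ) * β⁻¹ * tail S (fun k => ((tot k : ℝ) + 1) * noise b q k)) +
      (n : ℝ) * b3) ?_ s fun S => ?_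
  · have h1 := (((tendsto_tail hwa).const_mul ((n : ℝ) * α⁻¹)).const_add (fishR (noise a p) α)).const_mul
      (wA ^ 2 / η)
    have h2 := (((tendsto_tail hwb).const_mul ((n : ℝ) * β⁻¹)).const_add (fishR (noise b q) β)).const_mul
      (wB ^ 2 / (1 - η))
    simpa using (h1.add h2).add_const ((n : ℝ) * b3)
  · have hm : ∀ {w : (Fin n → ℕ) → ℝ}, IsState w → ∑ m ∈ box n S, trunc S w m ≤ 1 := fun {w} hw' => by
      rw [sum_congr rfl fun k hk => show trunc S w k = w k from if_pos hk, ← hw'.2.1]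
      exact hw'.summable.sum_le_tsum _ fun k _ => hw'.1 k
    refine (master_box e0 e1 (inBox_trunc _) (inBox_trunc _) (trunc_nonneg hA.1) (trunc_nonneg hB.1)
      (decr_trunc hA.1 hAd) (decr_trunc hB.1 hBd) (hm hA) (hm hB) ht hα hα1 hβ hβ1 hδ hwA hwB hw3 hw
      hb h3 s).trans (add_le_add (add_le_add
        (mul_le_mul_of_nonneg_left
          (bfish_trunc_le hA.1 hα hα1 (hp.fishE_noise_ne_top hpd ha.le hα hα1) hwa) hwA')
        (mul_le_mul_of_nonneg_left
          (bfish_trunc_le hB.1 hβ hβ1 (hq.fishE_noise_ne_top hqd hb'.le hβ hβ1) hwb) hwB')) le_rfl)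

/-- The time integral of the Fisher information. -/
noncomputable def psi {n : ℕ} (p : (Fin n → ℕ) → ℝ) (T lam : ℝ) : ℝ :=
  ∫ t in (0 : ℝ)..T, fishR (noise t p) lam

namespace Fin1

theorem intervalIntegrable_fishR (h : Fin1 R p) (hd : Decr p) {lam : ℝ} (hl : 0 < lam)
    (hl1 : lam ≤ 1) {a b : ℝ} (ha : 0 ≤ a) (hab : a ≤ b) :
    IntervalIntegrable (fun t => fishR (noise t p) lam) volume a b := by
  rw [intervalIntegrable_iff_integrableOn_Ioc_of_le hab]
  refine Integrable.mono' (integrableOn_const (C := (n : ℝ) / lam) (by simp))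
    (h.measurable_fishR lam).aestronglyMeasurable ?_
  filter_upwards [ae_restrict_mem measurableSet_Ioc] with t ht
  rw [Real.norm_eq_abs, abs_of_nonneg (fishR_nonneg _ _)]
  exact (h.fishR_noise_le hd (ha.trans ht.1.le) hl hl1).trans
    (div_le_div_of_nonneg_left (Nat.cast_nonneg n) hl (by linarith [ht.1]))

theorem psi_le (h : Fin1 R p) (hd : Decr p) {lam : ℝ} (hl : 0 < lam)
    (hl1 : lam ≤ 1) {T₁ T₂ : ℝ} (h1 : 0 ≤ T₁) (h12 : T₁ ≤ T₂) :
    psi p T₂ lam ≤ psi p T₁ lam + n * (Real.log (T₂ + lam) - Real.log (T₁ + lam)) := by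
  have i1 := h.intervalIntegrable_fishR hd hl hl1 le_rfl h1
  have i2 := h.intervalIntegrable_fishR hd hl hl1 h1 h12
  rw [psi, psi, ← intervalIntegral.integral_add_adjacent_intervals i1 i2]
  refine add_le_add le_rfl ?_
  have hc : ContinuousOn (fun t : ℝ => (n : ℝ) / (t + lam)) (Set.uIcc T₁ T₂) :=
    continuousOn_const.div (by fun_prop) fun t ht => by
      rw [Set.uIcc_of_le h12] at ht; linarith [ht.1]
  refine (intervalIntegral.integral_mono_on h12 i2 hc.intervalIntegrable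
    fun t ht => h.fishR_noise_le hd (h1.trans ht.1) hl hl1).trans_eq ?_
  rw [intervalIntegral.integral_eq_sub_of_hasDerivAt
    (f := fun t => (n : ℝ) * Real.log (t + lam)) (fun t ht => ?_) hc.intervalIntegrable]
  · ring
  · rw [Set.uIcc_of_le h12] at ht
    have := (((hasDerivAt_id t).add_const lam).log (by simp; linarith [ht.1])).const_mul (n : ℝ)
    simpa [div_eq_mul_inv] using this

theorem integral_psi (h : Fin1 R p) (hd : Decr p) {T : ℝ} (hT : 1 ≤ T) :
    IntegrableOn (psi p T) (Set.Ioo 0 1) ∧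
    ∫ lam in Set.Ioo (0 : ℝ) 1, psi p T lam = diagEntropy (noise T p) - diagEntropy p := by
  have hT0 : (0 : ℝ) ≤ T := by linarith
  have hd' : ∀ t, 0 ≤ t → Decr (noise t p) := fun t ht => noise_decr ht h.inBox h.nonneg hd
  obtain ⟨hnn, hid⟩ := h.entropy_identity hd' hT
  rw [noise_zero] at hnn hid
  set G := fun lam => ∫⁻ t in Set.Ioo 0 T, fishE (noise t p) lam with hG
  have hGm : Measurable G := h.measurable_fishE.lintegral_prod_right'
  have hGtop : ∫⁻ lam in Set.Ioo (0 : ℝ) 1, G lam ≠ ⊤ := by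
    rw [hG, hid]; exact ENNReal.ofReal_ne_top
  have hfin : ∀ᵐ lam ∂volume.restrict (Set.Ioo (0 : ℝ) 1), G lam < ⊤ :=
    ae_lt_top hGm hGtop
  have he : Set.EqOn (fun lam => (G lam).toReal) (psi p T) (Set.Ioo 0 1) := by
    intro lam hl
    simp only [psi, hG]
    rw [intervalIntegral.integral_of_le hT0, integral_Ioc_eq_integral_Ioo]
    simp only [fishR]
    refine (integral_toReal ?_ ?_).symm
    · exact (h.measurable_fishE.comp (measurable_const.prodMk measurable_id)).aemeasurable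
    · filter_upwards [ae_restrict_mem measurableSet_Ioo] with t ht
      exact (h.fishE_noise_ne_top hd ht.1.le hl.1 hl.2.le).lt_top
  have hi := integrable_toReal_of_lintegral_ne_top hGm.aemeasurable hGtop
  refine ⟨IntegrableOn.congr_fun hi he measurableSet_Ioo, ?_⟩
  rw [← setIntegral_congr_fun measurableSet_Ioo he, integral_toReal hGm.aemeasurable hfin]
  exact (congrArg ENNReal.toReal hid).trans (ENNReal.toReal_ofReal hnn)

end Fin1

end Vale.Agent.P369.Diag
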