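import Vale.Agent.P369.Diag.StamMixed
import Vale.Agent.P369.Diag.Master
import Vale.Agent.P369.Diag.Integrable2

/-!
The Fisher-information inequality along coupled evolutions for an arbitrary first weight and a
decreasing second weight, and the noise step for the decreasing weight.
-/

namespace Vale.Agent.P369.Diag

open Finset Filter Topology MeasureTheory

variable {n R : ℕ} {p q : (Fin n → ℕ) → ℝ} {η : ℝ}

theorem trunc_mass_le {w : (Fin n → ℕ) → ℝ} (hw : IsState w) (S : ℕ) :
    ∑ m ∈ box n S, trunc S w m ≤ 1 := by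
  rw [sum_congr rfl fun k hk => show trunc S w k = w k from if_pos hk, ← hw.2.1]
  exact hw.summable.sum_le_tsum _ fun k _ => hw.1 k

/-- Stam along the evolutions, arbitrary first weight. -/
theorem fishR_mixed (e0 : 0 < η) (e1 : η < 1) (hp : Fin1 R p) (hq : Fin1 R q) (hqd : Decr q)
    {a b α β w : ℝ} (ha : 0 ≤ a) (hb : 0 < b) (hβ : 0 < β) (hβα : β ≤ α) (hα : α < 1) :
    fishR (noise (η * a + (1 - η) * b) (bsOut η p q)) (η * α + (1 - η) * β) ≤
      w ^ 2 / η * fishR (noise a p) α + (1 - w) ^ 2 / (1 - η) * fishR (noise b q) β := by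
  set lam := η * α + (1 - η) * β with hlam
  set τ := η * a + (1 - η) * b with hτ
  have hc : 0 < 1 - η := by linarith
  have hτ0 : 0 < τ := add_pos_of_nonneg_of_pos (mul_nonneg e0.le ha) (mul_pos hc hb)
  have hl0 : 0 < lam := add_pos (mul_pos e0 (hβ.trans_le hβα)) (mul_pos hc hβ)
  have hl1 : lam ≤ 1 := by rw [hlam]; nlinarith
  set C := bsOut η p q with hC
  have hC1 : Fin1 (2 * R) C :=
    ⟨bsOut_inBox η hp.inBox hq.inBox, bsOut_nonneg hp.inBox hq.inBox hp.nonneg hq.nonneg η, by
      rw [hC, bsOut_mass e0.le e1.le hp.inBox hq.inBox, hp.mass, hq.mass, one_mul]⟩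
  have hA := hp.isState_noise ha
  have hB := hq.isState_noise hb.le
  have hBd := noise_decr hb.le hq.inBox hq.nonneg hqd
  have hX : bsOut η (noise a p) (noise b q) = noise τ C :=
    bsOut_noise e0.le e1.le ha hb.le hp.nonneg (inBox_summable hp.inBox) hq.nonneg
      (inBox_summable hq.inBox)
  set X := fun S => bsOut η (trunc S (noise a p)) (trunc S (noise b q)) with hXS
  have hXt : ∀ j, Tendsto (fun S => X S j) atTop (𝓝 (noise τ C j)) := fun j => by
    have e : ∀ S, X S j = ∑ x ∈ box n S ×ˢ box n S,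
        noise a p x.1 * noise b q x.2 * kprod η x.1 x.2 j := by
      intro S
      simp only [hXS]
      rw [bsOut_eq η (inBox_trunc _) (inBox_trunc _), sum_product]
      exact sum_congr rfl fun m hm => sum_congr rfl fun l hl => by
        rw [trunc, trunc, if_pos hm, if_pos hl]
    simp only [e, ← hX]
    exact (hasSum_out e0.le e1.le hA hB j).comp (tendsto_box_prod n)
  have hwA : 0 ≤ w ^ 2 / η := div_nonneg (sq_nonneg _) e0.le
  have hwB : 0 ≤ (1 - w) ^ 2 / (1 - η) := div_nonneg (sq_nonneg _) hc.le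
  refine fishR_le (hC1.noise_nonneg hτ0.le) hl0.le hl1
    (add_nonneg (mul_nonneg hwA (fishR_nonneg _ _)) (mul_nonneg hwB (fishR_nonneg _ _))) fun s => ?_
  have hwa : Summable fun k => ((tot k : ℝ) + 1) * noise a p k :=
    (hA.2.2.add hA.summable).congr fun k => by ring
  have hwb : Summable fun k => ((tot k : ℝ) + 1) * noise b q k :=
    (hB.2.2.add hB.summable).congr fun k => by ring
  refine sum_fterm_le_of_tendsto (u := X) hXt
    (fun i k => (den_pos (fun k => hC1.noise_pos hτ0 k) hl0.le hl1 i k).ne')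
    (b := fun S =>
      w ^ 2 / η * (fishR (noise a p) α + (n : ℝ) * α⁻¹ * tail S (fun k => ((tot k : ℝ) + 1) * noise a p k)) +
      (1 - w) ^ 2 / (1 - η) *
        (fishR (noise b q) β + (n : ℝ) * β⁻¹ * tail S (fun k => ((tot k : ℝ) + 1) * noise b q k))) ?_ s
    fun S => ?_
  · have h1 := (((tendsto_tail hwa).const_mul ((n : ℝ) * α⁻¹)).const_add (fishR (noise a p) α)).const_mul
      (w ^ 2 / η)
    have h2 := (((tendsto_tail hwb).const_mul ((n : ℝ) * β⁻¹)).const_add (fishR (noise b q) β)).const_mul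
      ((1 - w) ^ 2 / (1 - η))
    simpa using h1.add h2
  · exact (stam_mixed (π := w) e0 e1 hβ hβα hα (inBox_trunc _) (inBox_trunc _) (trunc_nonneg hA.1)
      (trunc_nonneg hB.1) (decr_trunc hB.1 hBd) (trunc_mass_le hA S) (trunc_mass_le hB S) s).trans
      (add_le_add
        (mul_le_mul_of_nonneg_left
          (bfish_trunc_le hA.1 (hβ.trans_le hβα) hα.le
            (hp.fishE_noise_ne_top' ha (hβ.trans_le hβα) hα) hwa) hwA)
        (mul_le_mul_of_nonneg_left
          (bfish_trunc_le hB.1 hβ (hβα.trans hα.le)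
            (hq.fishE_noise_ne_top hqd hb.le hβ (hβα.trans hα.le)) hwb) hwB))

/-- The noise step for a decreasing weight. -/
theorem fishR_step (hq : Fin1 R q) (hqd : Decr q) {b τ β d w c3 : ℝ} (hb : 0 < b) (hτ : 0 ≤ τ)
    (hβ : 0 < β) (hd : 0 ≤ d) (h1 : β + d ≤ 1) (hw0 : 0 ≤ w) (hw1 : w ≤ 1) (hc3 : 0 ≤ c3)
    (h3 : (1 - w) ^ 2 ≤ c3 * (τ + d)) :
    fishR (noise (b + τ) q) (β + d) ≤ w ^ 2 * fishR (noise b q) β + (n : ℝ) * c3 := by
  rcases (add_nonneg hτ hd).eq_or_lt with h | h
  · have hτ0 : τ = 0 := by linarith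
    have hd0 : d = 0 := by linarith
    rw [← h, mul_zero] at h3
    have : w = 1 := by nlinarith [sq_nonneg (1 - w)]
    subst hτ0 hd0 this
    simp only [add_zero, one_pow, one_mul]
    linarith [mul_nonneg (Nat.cast_nonneg (α := ℝ) n) hc3]
  have hB := hq.isState_noise hb.le
  have hBd := noise_decr hb.le hq.inBox hq.nonneg hqd
  have hw : Summable fun k => ((tot k : ℝ) + 1) * noise b q k :=
    (hB.2.2.add hB.summable).congr fun k => by ring
  set X := fun S => trunc S (noise b q) with hXS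
  have hY : noise τ (noise b q) = noise (b + τ) q :=
    noise_noise hb.le hτ hq.nonneg (inBox_summable hq.inBox)
  have hYt : ∀ k, Tendsto (fun S => noise τ (X S) k) atTop (𝓝 (noise (b + τ) q k)) := by
    intro k
    rw [← hY]
    refine tendsto_tsum_of_dominated_convergence hB.summable
      (fun j => (tendsto_trunc (noise b q) j).mul_const _) (Eventually.of_forall fun S j => ?_)
    rw [Real.norm_eq_abs, abs_of_nonneg (mul_nonneg (trunc_nonneg hB.1 j)
      (prod_nonneg fun i _ => nz_nonneg hτ _ _))]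
    exact (mul_le_of_le_one_right (trunc_nonneg hB.1 j) (prod_le_one (fun i _ => nz_nonneg hτ _ _)
      fun i _ => nz_le_one hτ _ _)).trans (trunc_le hB.1 j)
  refine fishR_le (hq.noise_nonneg (by linarith)) (by linarith) h1
    (add_nonneg (mul_nonneg (sq_nonneg w) (fishR_nonneg _ _)) (mul_nonneg (Nat.cast_nonneg n) hc3))
    fun s => ?_
  refine sum_fterm_le_of_tendsto (u := fun S => noise τ (X S)) hYt
    (fun i k => (den_pos (fun k => hq.noise_pos (by linarith) k) (by linarith) h1 i k).ne')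
    (b := fun S => w ^ 2 *
      (fishR (noise b q) β + (n : ℝ) * β⁻¹ * tail S (fun k => ((tot k : ℝ) + 1) * noise b q k)) +
      (n : ℝ) * c3) ?_ s fun S => ?_
  · simpa using ((((tendsto_tail hw).const_mul ((n : ℝ) * β⁻¹)).const_add
      (fishR (noise b q) β)).const_mul (w ^ 2)).add_const ((n : ℝ) * c3)
  · refine (noise_box (inBox_trunc _) (trunc_nonneg hB.1) (decr_trunc hB.1 hBd) hτ hβ hd h hw0 hw1 s).trans
      (add_le_add (mul_le_mul_of_nonneg_left (bfish_trunc_le hB.1 hβ (by linarith)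
        (hq.fishE_noise_ne_top hqd hb.le hβ (by linarith)) hw) (sq_nonneg w)) ?_)
    rw [div_le_iff₀ h]
    calc (n : ℝ) * (1 - w) ^ 2 * ∑ m ∈ box n S, trunc S (noise b q) m ≤ (n : ℝ) * (1 - w) ^ 2 :=
          mul_le_of_le_one_right (by positivity) (trunc_mass_le hB S)
      _ ≤ (n : ℝ) * (c3 * (τ + d)) := mul_le_mul_of_nonneg_left h3 (Nat.cast_nonneg n)
      _ = _ := by ring

/-- The output Fisher information decays like `1/t` as soon as one input is decreasing. -/
theorem fishR_out_le (e0 : 0 < η) (e1 : η < 1) (hp : Fin1 R p) (hq : Fin1 R q) (hqd : Decr q)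
    {T lam : ℝ} (hT : 0 < T) (hl : 0 < lam) (hl1 : lam < 1) :
    fishR (noise T (bsOut η p q)) lam ≤ (n : ℝ) / T := by
  have hc : 0 < 1 - η := by linarith
  set a := min ((1 - η) * lam / η) (T / (2 * η)) with ha
  have ha0 : 0 ≤ a := le_min (by positivity) (by positivity)
  have ha1 : η * a ≤ (1 - η) * lam := by
    have := mul_le_mul_of_nonneg_left (min_le_left ((1 - η) * lam / η) (T / (2 * η))) e0.le
    rwa [mul_div_cancel₀ _ e0.ne'] at this
  have ha2 : η * a ≤ T / 2 := by
    have h := mul_le_mul_of_nonneg_left (min_le_right ((1 - η) * lam / η) (T / (2 * η))) e0.le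
    rwa [show η * (T / (2 * η)) = T / 2 by field_simp] at h
  set b := (T - η * a) / (1 - η) with hb
  have hb0 : 0 < b := div_pos (by linarith) hc
  have h := fishR_mixed (w := 0) e0 e1 hp hq hqd ha0 hb0 hl le_rfl hl1
  rw [show η * a + (1 - η) * b = T by rw [hb, mul_div_cancel₀ _ hc.ne']; ring,
    show η * lam + (1 - η) * lam = lam by ring] at h
  refine h.trans ?_
  simp only [ne_eq, OfNat.ofNat_ne_zero, not_false_eq_true, zero_pow, zero_div, zero_mul, zero_add,
    sub_zero, one_pow]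
  refine (mul_le_mul_of_nonneg_left (hq.fishR_noise_le hqd hb0.le hl hl1.le) (by positivity)).trans ?_
  rw [div_mul_div_comm, one_mul]
  refine div_le_div_of_nonneg_left (Nat.cast_nonneg n) hT ?_
  rw [mul_add, hb, mul_div_cancel₀ _ hc.ne']
  linarith

namespace Fin1

theorem psi_out_le (e0 : 0 < η) (e1 : η < 1) (hp : Fin1 R p) (hq : Fin1 R q) (hqd : Decr q)
    {lam : ℝ} (hl : 0 < lam) (hl1 : lam < 1) {T₁ T₂ : ℝ} (h1 : 0 < T₁) (h12 : T₁ ≤ T₂) :
    psi (bsOut η p q) T₂ lam ≤
      psi (bsOut η p q) T₁ lam + n * (Real.log T₂ - Real.log T₁) := by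
  have hC : Fin1 (2 * R) (bsOut η p q) :=
    ⟨bsOut_inBox η hp.inBox hq.inBox, bsOut_nonneg hp.inBox hq.inBox hp.nonneg hq.nonneg η, by
      rw [bsOut_mass e0.le e1.le hp.inBox hq.inBox, hp.mass, hq.mass, one_mul]⟩
  have i1 := hC.intervalIntegrable_fishR' hl hl1 h1.le
  have i2 := hC.intervalIntegrable_fishR' hl hl1 (h1.le.trans h12)
  have i3 : IntervalIntegrable (fun t => fishR (noise t (bsOut η p q)) lam) volume T₁ T₂ :=
    i1.symm.trans i2
  rw [psi, psi, ← intervalIntegral.integral_add_adjacent_intervals i1 i3]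
  refine add_le_add le_rfl ?_
  have hc : ContinuousOn (fun t : ℝ => (n : ℝ) / t) (Set.uIcc T₁ T₂) :=
    continuousOn_const.div (by fun_prop) fun t ht => by
      rw [Set.uIcc_of_le h12] at ht; linarith [ht.1]
  refine (intervalIntegral.integral_mono_on h12 i3 hc.intervalIntegrable
    fun t ht => fishR_out_le e0 e1 hp hq hqd (h1.trans_le ht.1) hl hl1).trans_eq ?_
  rw [intervalIntegral.integral_eq_sub_of_hasDerivAt
    (f := fun t => (n : ℝ) * Real.log t) (fun t ht => ?_) hc.intervalIntegrable]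
  · ring
  · rw [Set.uIcc_of_le h12] at ht
    simpa [div_eq_mul_inv] using (Real.hasDerivAt_log (by linarith [ht.1] : t ≠ 0)).const_mul (n : ℝ)

end Fin1

end Vale.Agent.P369.Diag
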