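import Vale.Agent.P369.Diag.Defs

/-!
The one-mode noise kernel `nz t m k`: recurrence, generating function, normalisation, mean, tail
bound, the cumulative identity behind passivity preservation, and the derivative in `t`.
-/

namespace Vale.Agent.P369.Diag

open Finset Filter Topology

theorem nz_nonneg {t : ℝ} (ht : 0 ≤ t) (m k : ℕ) : 0 ≤ nz t m k :=
  sum_nonneg fun _ _ => by positivity

theorem nz_symm (t : ℝ) (m k : ℕ) : nz t m k = nz t k m := by
  simp only [nz, min_comm m k, Nat.add_comm m k]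
  exact sum_congr rfl fun j _ => by ring

theorem nz_zero (m k : ℕ) : nz 0 m k = if m = k then 1 else 0 := by
  unfold nz
  split_ifs with h
  · subst h
    rw [sum_eq_single m]
    · simp [two_mul]
    · intro j hj hjm
      have : j ≤ min m m := Nat.lt_succ_iff.1 (mem_range.1 hj)
      rw [zero_pow (by omega)]; ring
    · intro h; simp at h
  · refine sum_eq_zero fun j hj => ?_
    have : j ≤ min m k := Nat.lt_succ_iff.1 (mem_range.1 hj)
    rw [zero_pow (by omega)]; ring

theorem nz_zero_left (t : ℝ) (k : ℕ) : nz t 0 k = t ^ k / (1 + t) ^ (k + 1) := by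
  simp [nz]

theorem nz_zero_right (t : ℝ) (m : ℕ) : nz t m 0 = t ^ m / (1 + t) ^ (m + 1) := by
  rw [nz_symm, nz_zero_left]

/-- The polynomial part of the kernel in the variable `x = t⁻²`. -/
noncomputable def nQ (x : ℝ) (m k : ℕ) : ℝ :=
  ∑ j ∈ range (m + 1), (m.choose j : ℝ) * (k.choose j : ℝ) * x ^ j

theorem nQ_eq {x : ℝ} {m k B : ℕ} (hB : min m k < B) :
    ∑ j ∈ range B, (m.choose j : ℝ) * (k.choose j : ℝ) * x ^ j = nQ x m k := by
  have key : ∀ B, min m k < B → ∑ j ∈ range B, (m.choose j : ℝ) * (k.choose j : ℝ) * x ^ j =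
      ∑ j ∈ range (min m k + 1), (m.choose j : ℝ) * (k.choose j : ℝ) * x ^ j := fun B hB =>
    (sum_subset (range_mono (by omega)) fun j _ hj => by
      simp only [mem_range, not_lt] at hj
      rcases le_total m k with h | h
      · rw [Nat.choose_eq_zero_of_lt (show m < j by omega)]; simp
      · rw [Nat.choose_eq_zero_of_lt (show k < j by omega)]; simp).symm
  rw [key B hB, nQ, key (m + 1) (by omega)]

theorem nQ_rec (x : ℝ) (m k : ℕ) :
    nQ x (m + 1) (k + 1) = nQ x (m + 1) k + nQ x m (k + 1) + (x - 1) * nQ x m k := by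
  have h1 := nQ_eq (x := x) (m := m + 1) (k := k + 1) (B := m + 2) (by omega)
  have h2 := nQ_eq (x := x) (m := m + 1) (k := k) (B := m + 2) (by omega)
  have h3 := nQ_eq (x := x) (m := m) (k := k + 1) (B := m + 2) (by omega)
  have h4 := nQ_eq (x := x) (m := m) (k := k) (B := m + 2) (by omega)
  have h5 := nQ_eq (x := x) (m := m) (k := k) (B := m + 1) (by omega)
  rw [sum_range_succ'] at h1 h2 h3 h4
  simp only [Nat.choose_zero_right, Nat.cast_one, pow_zero, mul_one] at h1 h2 h3 h4
  have hx : x * nQ x m k = ∑ j ∈ range (m + 1), (m.choose j : ℝ) * (k.choose j : ℝ) * x ^ (j + 1) := by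
    rw [← h5, mul_sum]
    exact sum_congr rfl fun j _ => by ring
  have hs : ∑ j ∈ range (m + 1), (((m + 1).choose (j + 1) : ℝ) * ((k + 1).choose (j + 1) : ℝ) * x ^ (j + 1)) =
      (∑ j ∈ range (m + 1), ((m + 1).choose (j + 1) : ℝ) * (k.choose (j + 1) : ℝ) * x ^ (j + 1)) +
      (∑ j ∈ range (m + 1), (m.choose (j + 1) : ℝ) * ((k + 1).choose (j + 1) : ℝ) * x ^ (j + 1)) +
      ((∑ j ∈ range (m + 1), (m.choose j : ℝ) * (k.choose j : ℝ) * x ^ (j + 1)) -
      (∑ j ∈ range (m + 1), (m.choose (j + 1) : ℝ) * (k.choose (j + 1) : ℝ) * x ^ (j + 1))) := by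
    simp only [← sum_add_distrib, ← sum_sub_distrib]
    refine sum_congr rfl fun j _ => ?_
    simp only [Nat.choose_succ_succ, Nat.cast_add]
    ring
  linarith [h1, h2, h3, h4, hs, hx]

theorem nz_eq_nQ {t : ℝ} (ht : t ≠ 0) (m k : ℕ) :
    nz t m k = t ^ (m + k) * nQ ((t ^ 2)⁻¹) m k / (1 + t) ^ (m + k + 1) := by
  rw [← nQ_eq (B := min m k + 1) (by omega), mul_sum, sum_div]
  refine sum_congr rfl fun j hj => ?_
  have hj' : j ≤ min m k := Nat.lt_succ_iff.1 (mem_range.1 hj)
  have : t ^ (m + k) = t ^ (m + k - 2 * j) * (t ^ 2) ^ j := by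
    rw [← pow_mul, ← pow_add]; congr 1; omega
  rw [this, inv_pow]
  have h2 : (t ^ 2) ^ j ≠ 0 := by positivity
  field_simp

theorem nz_rec {t : ℝ} (ht : 1 + t ≠ 0) (m k : ℕ) :
    (1 + t) * nz t (m + 1) (k + 1) - t * nz t (m + 1) k =
      t * nz t m (k + 1) + (1 - t) * nz t m k := by
  rcases eq_or_ne t 0 with rfl | h0
  · simp [nz_zero]
  · rw [nz_eq_nQ h0, nz_eq_nQ h0, nz_eq_nQ h0, nz_eq_nQ h0, nQ_rec,
      show m + 1 + (k + 1) = m + k + 2 by omega, show m + 1 + k = m + k + 1 by omega,
      show m + (k + 1) = m + k + 1 by omega]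
    field_simp
    ring

theorem nz_step_zero {t : ℝ} (ht : 1 + t ≠ 0) (m : ℕ) :
    (1 + t) * nz t (m + 1) 0 = t * nz t m 0 := by
  rw [nz_zero_right, nz_zero_right]
  field_simp
  ring

theorem nz_le {t : ℝ} (ht : 0 < t) (m : ℕ) :
    ∃ C, 0 ≤ C ∧ ∀ k, nz t m k ≤ C * ((k : ℝ) + 1) ^ m * (t / (1 + t)) ^ k := by
  refine ⟨t ^ m / (1 + t) ^ (m + 1) * ∑ j ∈ range (m + 1), (m.choose j : ℝ) * ((t ^ 2)⁻¹) ^ j,
    by positivity, fun k => ?_⟩
  have h1 : nQ ((t ^ 2)⁻¹) m k ≤
      (∑ j ∈ range (m + 1), (m.choose j : ℝ) * ((t ^ 2)⁻¹) ^ j) * ((k : ℝ) + 1) ^ m := by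
    rw [nQ, sum_mul]
    refine sum_le_sum fun j hj => ?_
    have h2 : (k.choose j : ℝ) ≤ ((k : ℝ) + 1) ^ m := by
      have : k.choose j ≤ (k + 1) ^ m :=
        (Nat.choose_le_pow k j).trans ((Nat.pow_le_pow_left (Nat.le_succ k) j).trans
          (Nat.pow_le_pow_right (Nat.succ_pos k) (Nat.lt_succ_iff.1 (mem_range.1 hj))))
      exact_mod_cast this
    calc (m.choose j : ℝ) * (k.choose j : ℝ) * ((t ^ 2)⁻¹) ^ j
        = (m.choose j : ℝ) * ((t ^ 2)⁻¹) ^ j * (k.choose j : ℝ) := by ring
      _ ≤ _ := by gcongr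
  rw [nz_eq_nQ ht.ne', mul_comm (t ^ (m + k)), mul_div_assoc]
  refine (mul_le_mul_of_nonneg_right h1 (by positivity)).trans_eq ?_
  rw [div_pow, show m + k + 1 = m + 1 + k by omega, pow_add t m k, pow_add (1 + t) (m + 1) k]
  field_simp

theorem summable_pow_mul_nz {t : ℝ} (ht : 0 ≤ t) (m d : ℕ) :
    Summable fun k : ℕ => ((k : ℝ) + 1) ^ d * nz t m k := by
  rcases eq_or_lt_of_le ht with rfl | h
  · refine summable_of_ne_finset_zero (s := {m}) fun k hk => ?_
    simp only [mem_singleton] at hk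
    rw [nz_zero, if_neg (Ne.symm hk), mul_zero]
  · obtain ⟨C, _, hC⟩ := nz_le h m
    have hr : ‖t / (1 + t)‖ < 1 := by
      rw [Real.norm_eq_abs, abs_of_pos (by positivity), div_lt_one (by positivity)]; linarith
    have hs : Summable fun k : ℕ => C * (((k : ℝ) + 1) ^ (d + m) * (t / (1 + t)) ^ k) := by
      refine Summable.mul_left C ?_
      have hgeo : Summable fun k : ℕ => (k : ℝ) ^ (d + m) * (t / (1 + t)) ^ k :=
        summable_pow_mul_geometric_of_norm_lt_one (d + m) hr
      have hshift : Summable fun k : ℕ => ((k + 1 : ℕ) : ℝ) ^ (d + m) * (t / (1 + t)) ^ (k + 1) :=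
        (summable_nat_add_iff (f := fun k : ℕ => (k : ℝ) ^ (d + m) * (t / (1 + t)) ^ k) 1).2 hgeo
      refine (hshift.mul_left (t / (1 + t))⁻¹).congr fun k => ?_
      have : t / (1 + t) ≠ 0 := by positivity
      push_cast
      rw [pow_succ (t / (1 + t)) k]
      field_simp
    refine Summable.of_nonneg_of_le (fun k => mul_nonneg (by positivity) (nz_nonneg ht m k))
      (fun k => ?_) hs
    refine (mul_le_mul_of_nonneg_left (hC k) (by positivity)).trans_eq ?_
    rw [pow_add]; ring

theorem summable_nz {t : ℝ} (ht : 0 ≤ t) (m : ℕ) : Summable fun k => nz t m k :=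
  (summable_pow_mul_nz ht m 0).congr fun k => by simp

theorem summable_nz_mul_pow {t : ℝ} (ht : 0 ≤ t) (m : ℕ) {z : ℝ} (h0 : 0 ≤ z) (h1 : z ≤ 1) :
    Summable fun k => nz t m k * z ^ k :=
  (summable_nz ht m).of_nonneg_of_le (fun k => mul_nonneg (nz_nonneg ht m k) (pow_nonneg h0 k))
    fun k => mul_le_of_le_one_right (nz_nonneg ht m k) (pow_le_one₀ h0 h1)

/-- The generating function of the kernel. -/
theorem hasSum_nz_mul_pow {t : ℝ} (ht : 0 ≤ t) (m : ℕ) {z : ℝ} (h0 : 0 ≤ z) (h1 : z ≤ 1) :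
    HasSum (fun k => nz t m k * z ^ k)
      ((t + (1 - t) * z) ^ m / (1 + t - t * z) ^ (m + 1)) := by
  have hden : 0 < 1 + t - t * z := by nlinarith
  have ht1 : 1 + t ≠ 0 := by positivity
  induction m with
  | zero =>
    have hr : |t * z / (1 + t)| < 1 := by
      rw [abs_of_nonneg (by positivity), div_lt_one (by positivity)]; nlinarith
    have hg := (hasSum_geometric_of_abs_lt_one hr).mul_left (1 / (1 + t))
    have e : 1 / (1 + t) * (1 - t * z / (1 + t))⁻¹ =
        (t + (1 - t) * z) ^ 0 / (1 + t - t * z) ^ (0 + 1) := by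
      rw [one_sub_div ht1]
      field_simp
      ring
    rw [e] at hg
    refine hg.congr_fun fun k => ?_
    rw [nz_zero_left, div_pow, mul_pow]
    field_simp
    ring
  | succ m ih =>
    obtain ⟨X, hX⟩ := summable_nz_mul_pow ht (m + 1) h0 h1
    have hX' := (hasSum_nat_add_iff' 1).2 hX
    have hY' := (hasSum_nat_add_iff' 1).2 ih
    simp only [sum_range_one, pow_zero, mul_one] at hX' hY'
    have hl := (hX'.mul_left (1 + t)).sub (hX.mul_left (t * z))
    have hr := (hY'.mul_left t).add (ih.mul_left ((1 - t) * z))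
    have he : (fun k => (1 + t) * (nz t (m + 1) (k + 1) * z ^ (k + 1)) -
          t * z * (nz t (m + 1) k * z ^ k)) =
        fun k => t * (nz t m (k + 1) * z ^ (k + 1)) + (1 - t) * z * (nz t m k * z ^ k) := by
      funext k
      linear_combination z ^ (k + 1) * nz_rec ht1 m k
    rw [he] at hl
    have hu := hl.unique hr
    have h2 := nz_step_zero ht1 m
    have hXeq : (1 + t - t * z) * X =
        (t + (1 - t) * z) * ((t + (1 - t) * z) ^ m / (1 + t - t * z) ^ (m + 1)) := by
      linear_combination hu + h2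
    convert hX using 1
    rw [← mul_div_cancel_left₀ X hden.ne', hXeq, pow_succ _ m, pow_succ _ (m + 1)]
    field_simp

theorem hasSum_nz {t : ℝ} (ht : 0 ≤ t) (m : ℕ) : HasSum (fun k => nz t m k) 1 := by
  have := hasSum_nz_mul_pow ht m zero_le_one le_rfl
  simpa using this

theorem tsum_nz {t : ℝ} (ht : 0 ≤ t) (m : ℕ) : ∑' k, nz t m k = 1 := (hasSum_nz ht m).tsum_eq

theorem nz_le_one {t : ℝ} (ht : 0 ≤ t) (m k : ℕ) : nz t m k ≤ 1 :=
  le_hasSum (hasSum_nz ht m) k fun j _ => nz_nonneg ht m j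

theorem summable_mul_nz {t : ℝ} (ht : 0 ≤ t) (m : ℕ) : Summable fun k : ℕ => (k : ℝ) * nz t m k :=
  (summable_pow_mul_nz ht m 1).of_nonneg_of_le
    (fun k => mul_nonneg k.cast_nonneg (nz_nonneg ht m k))
    fun k => mul_le_mul_of_nonneg_right (by simp) (nz_nonneg ht m k)

/-- The mean of the kernel. -/
theorem hasSum_mul_nz {t : ℝ} (ht : 0 ≤ t) (m : ℕ) :
    HasSum (fun k : ℕ => (k : ℝ) * nz t m k) (m + t) := by
  have ht1 : 1 + t ≠ 0 := by positivity
  induction m with
  | zero =>
    have hr : ‖t / (1 + t)‖ < 1 := by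
      rw [Real.norm_eq_abs, abs_of_nonneg (by positivity), div_lt_one (by positivity)]; linarith
    have hg := (hasSum_coe_mul_geometric_of_norm_lt_one hr).mul_left (1 / (1 + t))
    have e : 1 / (1 + t) * (t / (1 + t) / (1 - t / (1 + t)) ^ 2) = ((0 : ℕ) : ℝ) + t := by
      rw [one_sub_div ht1, show 1 + t - t = 1 by ring]
      field_simp
      simp
    rw [e] at hg
    refine hg.congr_fun fun k => ?_
    rw [nz_zero_left, div_pow]
    field_simp
    ring
  | succ m ih =>
    obtain ⟨X, hX⟩ := summable_mul_nz ht (m + 1)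
    have hX' := (hasSum_nat_add_iff' 1).2 hX
    have hY' := (hasSum_nat_add_iff' 1).2 ih
    simp only [sum_range_one, Nat.cast_zero, zero_mul, sub_zero] at hX' hY'
    have hl := (hX'.mul_left (1 + t)).sub ((hX.add (hasSum_nz ht (m + 1))).mul_left t)
    have hr := (hY'.mul_left t).add ((ih.add (hasSum_nz ht m)).mul_left (1 - t))
    have he : (fun k : ℕ => (1 + t) * (((k + 1 : ℕ) : ℝ) * nz t (m + 1) (k + 1)) -
          t * ((k : ℝ) * nz t (m + 1) k + nz t (m + 1) k)) =
        fun k : ℕ => t * (((k + 1 : ℕ) : ℝ) * nz t m (k + 1)) +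
          (1 - t) * ((k : ℝ) * nz t m k + nz t m k) := by
      funext k
      push_cast
      linear_combination ((k : ℝ) + 1) * nz_rec ht1 m k
    rw [he] at hl
    have hu := hl.unique hr
    convert hX using 1
    push_cast
    linarith

theorem tsum_mul_nz {t : ℝ} (ht : 0 ≤ t) (m : ℕ) : ∑' k : ℕ, (k : ℝ) * nz t m k = m + t :=
  (hasSum_mul_nz ht m).tsum_eq

/-- The cumulative identity of the noise kernel. -/
theorem nz_key {t : ℝ} (ht : 1 + t ≠ 0) (m k : ℕ) :
    (1 + t) * nz t m (k + 1) - t * nz t m k = ∑ j ∈ range m, nD t j k := by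
  induction m with
  | zero =>
    rw [nz_zero_left, nz_zero_left, sum_range_zero]
    field_simp
    ring
  | succ m ih =>
    rw [sum_range_succ, ← ih, nD]
    linear_combination nz_rec ht m k

theorem nz_cum_nonneg {t : ℝ} (ht : 0 ≤ t) (m k : ℕ) : 0 ≤ ∑ j ∈ range (m + 1), nD t j k := by
  have ht1 : 1 + t ≠ 0 := by positivity
  have hpos : 0 < 1 + t := by positivity
  induction m with
  | zero =>
    have h := nz_key ht1 0 k
    simp only [sum_range_zero] at h
    have h2 := nz_nonneg ht 0 k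
    simp only [zero_add, sum_range_one, nD]
    nlinarith
  | succ m ih =>
    have h := nz_key ht1 (m + 1) k
    have h2 := nz_nonneg ht (m + 1) k
    rw [sum_range_succ, nD]
    nlinarith [mul_nonneg ht ih]

/-- The generator of the noise semigroup applied to the kernel. -/
noncomputable def nL (t : ℝ) (m k : ℕ) : ℝ :=
  ((k : ℝ) + 1) * nz t m (k + 1) + (k : ℝ) * nz t m (k - 1) - (2 * (k : ℝ) + 1) * nz t m k

/-- The kernel solves the birth–death equation. -/
theorem nz_deriv (m k : ℕ) : ∀ {t : ℝ}, -1 < t → HasDerivAt (fun s => nz s m k) (nL t m k) t := by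
  induction m generalizing k with
  | zero =>
    induction k with
    | zero =>
      intro t ht
      have h1 : 1 + t ≠ 0 := by linarith
      have h := ((hasDerivAt_id' t).const_add (1 : ℝ)).inv h1
      refine (h.congr_of_eventuallyEq (Eventually.of_forall fun s => ?_)).congr_deriv ?_
      · simp [nz_zero_left]
      · simp only [nL, nz_zero_left]
        push_cast
        field_simp
        ring
    | succ k ih =>
      intro t ht
      have h1 : 1 + t ≠ 0 := by linarith
      have hrec : ∀ {s : ℝ}, 1 + s ≠ 0 → ∀ i, (1 + s) * nz s 0 (i + 1) = s * nz s 0 i := by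
        intro s hs i
        rw [nz_zero_left, nz_zero_left]
        field_simp
        ring
      have h := ((hasDerivAt_id' t).mul (ih ht)).div ((hasDerivAt_id' t).const_add (1 : ℝ)) h1
      refine (h.congr_of_eventuallyEq ?_).congr_deriv ?_
      · filter_upwards [Ioi_mem_nhds ht] with s hs
        have hs1 : 1 + s ≠ 0 := by linarith [show -1 < s from hs]
        simp only [Pi.div_apply, Pi.mul_apply]
        rw [eq_div_iff hs1, mul_comm, hrec hs1 k]
      · simp only [Pi.mul_apply, one_mul, mul_one]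
        rw [← hrec h1 k, div_eq_iff (pow_ne_zero 2 h1)]
        rcases k with _ | i
        · simp only [nL]
          push_cast
          linear_combination (1 + t) * (2 * hrec h1 0 - 2 * hrec h1 1)
        · simp only [nL, Nat.add_sub_cancel]
          push_cast
          linear_combination (1 + t) * ((2 * (i : ℝ) + 4) * hrec h1 (i + 1) -
            ((i : ℝ) + 3) * hrec h1 (i + 2) - ((i : ℝ) + 1) * hrec h1 i)
  | succ m ihm =>
    induction k with
    | zero =>
      intro t ht
      have h1 : 1 + t ≠ 0 := by linarith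
      have h := ((hasDerivAt_id' t).mul (ihm 0 ht)).div ((hasDerivAt_id' t).const_add (1 : ℝ)) h1
      refine (h.congr_of_eventuallyEq ?_).congr_deriv ?_
      · filter_upwards [Ioi_mem_nhds ht] with s hs
        have hs1 : 1 + s ≠ 0 := by linarith [show -1 < s from hs]
        simp only [Pi.div_apply, Pi.mul_apply]
        rw [eq_div_iff hs1, mul_comm, nz_step_zero hs1 m]
      · simp only [Pi.mul_apply, one_mul, mul_one]
        rw [← nz_step_zero h1 m, div_eq_iff (pow_ne_zero 2 h1)]
        simp only [nL]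
        push_cast
        linear_combination -(1 + t) * nz_rec h1 m 0
    | succ k ih =>
      intro t ht
      have h1 : 1 + t ≠ 0 := by linarith
      have h := ((((hasDerivAt_id' t).mul (ih ht)).add ((hasDerivAt_id' t).mul (ihm (k + 1) ht))).add
        (((hasDerivAt_id' t).const_sub (1 : ℝ)).mul (ihm k ht))).div
        ((hasDerivAt_id' t).const_add (1 : ℝ)) h1
      refine (h.congr_of_eventuallyEq ?_).congr_deriv ?_
      · filter_upwards [Ioi_mem_nhds ht] with s hs
        have hs1 : 1 + s ≠ 0 := by linarith [show -1 < s from hs]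
        simp only [Pi.div_apply, Pi.mul_apply, Pi.add_apply]
        rw [eq_div_iff hs1]
        linarith [nz_rec hs1 m k]
      · simp only [Pi.mul_apply, Pi.add_apply, one_mul, mul_one]
        have e : t * nz t (m + 1) k + t * nz t m (k + 1) + (1 - t) * nz t m k =
            (1 + t) * nz t (m + 1) (k + 1) := by linarith [nz_rec h1 m k]
        rw [e, div_eq_iff (pow_ne_zero 2 h1)]
        rcases k with _ | i
        · simp only [nL]
          push_cast
          linear_combination (1 + t) * (2 * nz_rec h1 m 0 - 2 * nz_rec h1 m 1)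
        · simp only [nL, Nat.add_sub_cancel]
          push_cast
          linear_combination (1 + t) * ((2 * (i : ℝ) + 4) * nz_rec h1 m (i + 1) -
            ((i : ℝ) + 3) * nz_rec h1 m (i + 2) - ((i : ℝ) + 1) * nz_rec h1 m i)

end Vale.Agent.P369.Diag
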