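import Vale.Agent.P369.Diag.Noise
import Vale.Agent.P369.Diag.Jensen

/-!
The noise channel on finitely supported coordinatewise decreasing weights: monotonicity and the
Stam inequality against a thermal noise.
-/

namespace Vale.Agent.P369.Diag

open Finset

/-- Products of nonnegative summable families on tuples. -/
theorem hasSum_pi_prod {κ : Type} : ∀ {n : ℕ} {f : Fin n → κ → ℝ} {s : Fin n → ℝ},
    (∀ i x, 0 ≤ f i x) → (∀ i, HasSum (f i) (s i)) →
      HasSum (fun x : Fin n → κ => ∏ i, f i (x i)) (∏ i, s i) := by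
  intro n
  induction n with
  | zero =>
    intro f s _ _
    simp only [Finset.univ_eq_empty, prod_empty]
    simp
  | succ n ih =>
    intro f s h0 h
    have h2 := ih (fun i x => h0 i.succ x) fun i => h i.succ
    set G : (Fin n → κ) → ℝ := fun x => ∏ i : Fin n, f i.succ (x i) with hG
    have hG0 : 0 ≤ G := fun x => prod_nonneg fun i _ => h0 i.succ (x i)
    have hs : Summable fun y : κ × (Fin n → κ) => f 0 y.1 * G y.2 :=
      (h 0).summable.mul_of_nonneg h2.summable (show 0 ≤ f 0 from h0 0) hG0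
    have h3 := (h 0).mul h2 hs
    rw [Fin.prod_univ_succ]
    refine (Equiv.hasSum_iff (Fin.consEquiv fun _ : Fin (n + 1) => κ)).1 (h3.congr_fun fun y => ?_)
    simp [Fin.prod_univ_succ, Fin.consEquiv, hG]

theorem inBox_summable {n R : ℕ} {p : (Fin n → ℕ) → ℝ} (hp : InBox R p) : Summable p :=
  summable_of_ne_finset_zero hp

/-- The product noise kernel. -/
noncomputable def nprod {n : ℕ} (t : ℝ) (m k : Fin n → ℕ) : ℝ := ∏ i, nz t (m i) (k i)

theorem nprod_nonneg {n : ℕ} {t : ℝ} (ht : 0 ≤ t) (m k : Fin n → ℕ) : 0 ≤ nprod t m k :=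
  prod_nonneg fun i _ => nz_nonneg ht _ _

theorem hasSum_nprod {n : ℕ} {t : ℝ} (ht : 0 ≤ t) (m : Fin n → ℕ) :
    HasSum (fun k => nprod t m k) 1 := by
  have h := hasSum_pi_prod (f := fun i x => nz t (m i) x) (fun i x => nz_nonneg ht _ _)
    fun i => hasSum_nz ht (m i)
  simpa [nprod] using h

theorem noise_eq {n R : ℕ} (t : ℝ) {p : (Fin n → ℕ) → ℝ} (hp : InBox R p) (k : Fin n → ℕ) :
    noise t p k = ∑ m ∈ box n R, p m * ∏ i, nz t (m i) (k i) :=
  tsum_eq_sum fun m hm => by rw [hp m hm, zero_mul]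

theorem noise_nonneg {n : ℕ} {t : ℝ} (ht : 0 ≤ t) {p : (Fin n → ℕ) → ℝ} (hp : ∀ m, 0 ≤ p m)
    (k : Fin n → ℕ) : 0 ≤ noise t p k :=
  tsum_nonneg fun m => mul_nonneg (hp m) (nprod_nonneg ht m k)

theorem noise_zero {n : ℕ} (p : (Fin n → ℕ) → ℝ) : noise 0 p = p := by
  funext k
  unfold noise
  rw [tsum_eq_single k]
  · simp [nz_zero]
  · intro m hm
    obtain ⟨i, hi⟩ := Function.ne_iff.1 hm
    rw [prod_eq_zero (mem_univ i) (by rw [nz_zero, if_neg hi]), mul_zero]

/-- The product kernel of the modes other than `i`. -/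
noncomputable def nOther {n : ℕ} (t : ℝ) (i : Fin n) (m k : Fin n → ℕ) : ℝ :=
  ∏ j ∈ univ.erase i, nz t (m j) (k j)

theorem nOther_nonneg {n : ℕ} {t : ℝ} (ht : 0 ≤ t) (i : Fin n) (m k : Fin n → ℕ) :
    0 ≤ nOther t i m k :=
  prod_nonneg fun _ _ => nz_nonneg ht _ _

theorem nprod_split {n : ℕ} (t : ℝ) (i : Fin n) (m k : Fin n → ℕ) :
    nprod t m k = nz t (m i) (k i) * nOther t i m k :=
  (mul_prod_erase univ (fun j => nz t (m j) (k j)) (mem_univ i)).symm

theorem nOther_update {n : ℕ} (t : ℝ) (i : Fin n) (m k : Fin n → ℕ) (s : ℕ) :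
    nOther t i (Function.update m i s) k = nOther t i m k :=
  prod_congr rfl fun j hj => by rw [Function.update_of_ne (ne_of_mem_erase hj)]

theorem nOther_up {n : ℕ} (t : ℝ) (i : Fin n) (m k : Fin n → ℕ) :
    nOther t i m (up i k) = nOther t i m k :=
  prod_congr rfl fun j hj => by rw [up, Function.update_of_ne (ne_of_mem_erase hj)]

/-- The weighted differenced kernel seen from the input. -/
noncomputable def nPush {n : ℕ} (t : ℝ) (i : Fin n) (k m : Fin n → ℕ) : ℝ :=
  ((k i : ℝ) + 1) * (nD t (m i) (k i) * nOther t i m k)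

theorem cumLe_nPush {n : ℕ} (t : ℝ) (i : Fin n) (k m : Fin n → ℕ) :
    cumLe i (nPush t i k) m =
      ((k i : ℝ) + 1) * (∑ s ∈ range (m i + 1), nD t s (k i)) * nOther t i m k := by
  simp only [cumLe, nPush, nOther_update, Function.update_self, mul_sum, sum_mul]
  exact sum_congr rfl fun s _ => by ring

theorem cumLt_nPush {n : ℕ} {t : ℝ} (ht : 1 + t ≠ 0) (i : Fin n) (k m : Fin n → ℕ) :
    cumLt i (nPush t i k) m =
      ((k i : ℝ) + 1) * ((1 + t) * nprod t m (up i k) - t * nprod t m k) := by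
  have h := nz_key ht (m i) (k i)
  simp only [cumLt, nPush, nOther_update, Function.update_self, nprod_split t i, nOther_up]
  rw [← mul_sum, ← sum_mul, ← h]
  simp only [up, Function.update_self]
  ring

theorem nPush_eq {n : ℕ} (t : ℝ) (i : Fin n) (k m : Fin n → ℕ) :
    nPush t i k m = ((k i : ℝ) + 1) * (nprod t m k - nprod t m (up i k)) := by
  simp only [nPush, nD, nprod_split t i, nOther_up]
  simp only [up, Function.update_self]
  ring

theorem hasSum_succ_mul_nD {t : ℝ} (ht : 0 ≤ t) (j : ℕ) :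
    HasSum (fun k : ℕ => ((k : ℝ) + 1) * nD t j k) 1 := by
  have h1 := (hasSum_mul_nz ht j).add (hasSum_nz ht j)
  have h2 := (hasSum_nat_add_iff' 1).2 (hasSum_mul_nz ht j)
  simp only [sum_range_one, Nat.cast_zero, zero_mul, sub_zero] at h2
  have h := h1.sub h2
  rw [add_sub_cancel_left] at h
  refine h.congr_fun fun k => ?_
  rw [nD]
  push_cast
  ring

theorem push_noise {n R : ℕ} {t : ℝ} (ht : 0 ≤ t) {p : (Fin n → ℕ) → ℝ} (hp : InBox R p)
    (hp0 : ∀ m, 0 ≤ p m) (hd : Decr p) (i : Fin n) : Push R i p (nPush t i) 1 where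
  inBox := hp
  nonneg := hp0
  decr := hd
  cum_nonneg k m _ := by
    rw [cumLe_nPush]
    exact mul_nonneg (mul_nonneg (by positivity) (nz_cum_nonneg ht _ _)) (nOther_nonneg ht i m k)
  mass s m _ := by
    set g : Fin n → ℕ → ℝ := fun j x =>
      if j = i then ((x : ℝ) + 1) * ∑ r ∈ range (m i + 1), nD t r x else nz t (m j) x with hg
    have g0 : ∀ j x, 0 ≤ g j x := fun j x => by
      simp only [hg]
      split_ifs
      · exact mul_nonneg (by positivity) (nz_cum_nonneg ht _ _)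
      · exact nz_nonneg ht _ _
    have gs : ∀ j, HasSum (g j) (if j = i then (m i : ℝ) + 1 else 1) := fun j => by
      by_cases h : j = i
      · have hh : g j = fun x : ℕ => ∑ r ∈ range (m i + 1), ((x : ℝ) + 1) * nD t r x := by
          funext x; simp only [hg, if_pos h, mul_sum]
        rw [hh, if_pos h]
        simpa using hasSum_sum (s := range (m i + 1)) fun r _ => hasSum_succ_mul_nD ht r
      · have hh : g j = fun x => nz t (m j) x := by funext x; simp only [hg, if_neg h]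
        rw [hh, if_neg h]
        exact hasSum_nz ht (m j)
    have hsum := hasSum_pi_prod g0 gs
    simp only [prod_ite_eq', mem_univ, if_true] at hsum
    have e : ∀ k : Fin n → ℕ, cumLe i (nPush t i k) m = ∏ j, g j (k j) := fun k => by
      rw [cumLe_nPush, ← mul_prod_erase univ (fun j => g j (k j)) (mem_univ i)]
      have : ∏ j ∈ univ.erase i, g j (k j) = nOther t i m k :=
        prod_congr rfl fun j hj => by simp [hg, ne_of_mem_erase hj]
      rw [this]
      simp [hg]
    rw [sum_congr rfl fun k _ => e k, one_mul]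
    exact sum_le_hasSum s (fun k _ => prod_nonneg fun j _ => g0 j _) hsum

theorem sum_nPush {n R : ℕ} (t : ℝ) {p : (Fin n → ℕ) → ℝ} (hp : InBox R p) (i : Fin n)
    (k : Fin n → ℕ) :
    ∑ m ∈ box n R, p m * nPush t i k m =
      ((k i : ℝ) + 1) * (noise t p k - noise t p (up i k)) := by
  simp only [noise_eq t hp, ← sum_sub_distrib, nPush_eq, mul_sum]
  exact sum_congr rfl fun m _ => by simp only [nprod]; ring

theorem sum_cumLt_nPush {n R : ℕ} {t : ℝ} (ht : 1 + t ≠ 0) {p : (Fin n → ℕ) → ℝ}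
    (hp : InBox R p) (i : Fin n) (k : Fin n → ℕ) :
    ∑ m ∈ box n R, p m * cumLt i (nPush t i k) m =
      ((k i : ℝ) + 1) * ((1 + t) * noise t p (up i k) - t * noise t p k) := by
  simp only [noise_eq t hp, cumLt_nPush ht, mul_sum, ← sum_sub_distrib]
  exact sum_congr rfl fun m _ => by simp only [nprod]; ring

/-- The noise channel preserves coordinatewise decreasing weights. -/
theorem noise_decr {n R : ℕ} {t : ℝ} (ht : 0 ≤ t) {p : (Fin n → ℕ) → ℝ} (hp : InBox R p)
    (hp0 : ∀ m, 0 ≤ p m) (hd : Decr p) : Decr (noise t p) := by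
  intro i k
  have h := (push_noise ht hp hp0 hd i).diff_nonneg k
  rw [sum_nPush t hp] at h
  exact sub_nonneg.1 (nonneg_of_mul_nonneg_right (by linarith) (by positivity : (0:ℝ) < (k i : ℝ) + 1))

/-- One edge of the output in terms of the push-forward. -/
theorem fterm_noise {n R : ℕ} {t : ℝ} (ht : 0 ≤ t) {p : (Fin n → ℕ) → ℝ} (hp : InBox R p)
    (lam : ℝ) (i : Fin n) (k : Fin n → ℕ) :
    fterm (noise t p) lam i k = (∑ m ∈ box n R, p m * nPush t i k m) ^ 2 /
      ((∑ m ∈ box n R, p m * cumLt i (nPush t i k) m) +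
        (t + lam) * ∑ m ∈ box n R, p m * nPush t i k m) := by
  have hk : (0 : ℝ) < (k i : ℝ) + 1 := by positivity
  have hden : (∑ m ∈ box n R, p m * cumLt i (nPush t i k) m) +
      (t + lam) * ∑ m ∈ box n R, p m * nPush t i k m =
      ((k i : ℝ) + 1) * den (noise t p) lam i k := by
    rw [sum_nPush t hp, sum_cumLt_nPush (by positivity) hp, den]; ring
  rw [hden, sum_nPush t hp, fterm, mul_pow, sq ((k i : ℝ) + 1), mul_assoc,
    mul_div_mul_left _ _ hk.ne']

theorem noise_box_zero {n R : ℕ} {p : (Fin n → ℕ) → ℝ} (hp : InBox R p) (hp0 : ∀ m, 0 ≤ p m)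
    (hd : Decr p) {t δ : ℝ} (ht : 0 ≤ t) (_hδ : 0 ≤ δ) (htδ : 0 < t + δ)
    (s : Finset (Fin n → ℕ)) :
    ∑ i, ∑ k ∈ s, fterm (noise t p) δ i k ≤ (n : ℝ) * (∑ m ∈ box n R, p m) / (t + δ) := by
  rw [mul_div_assoc, show (n : ℝ) * ((∑ m ∈ box n R, p m) / (t + δ)) =
    ∑ _i : Fin n, (∑ m ∈ box n R, p m) / (t + δ) by simp]
  refine sum_le_sum fun i _ => ?_
  have hP := push_noise ht hp hp0 hd i
  refine le_trans (sum_le_sum fun k _ => ?_)
    ((sum_div s _ (t + δ)).symm.le.trans (div_le_div_of_nonneg_right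
      ((hP.sum_diff_le s).trans_eq (one_mul _)) htδ.le))
  rw [fterm_noise ht hp]
  set X := ∑ m ∈ box n R, p m * nPush t i k m
  set A := ∑ m ∈ box n R, p m * cumLt i (nPush t i k) m
  have hX : 0 ≤ X := hP.diff_nonneg k
  have hA : 0 ≤ A := hP.rest_nonneg k
  rcases hX.eq_or_lt with h | h
  · rw [← h]; simp
  · rw [div_le_div_iff₀ (by positivity) htδ]
    nlinarith [mul_nonneg hA h.le]

/-- Stam's inequality against thermal noise. -/
theorem noise_box {n R : ℕ} {p : (Fin n → ℕ) → ℝ} (hp : InBox R p) (hp0 : ∀ m, 0 ≤ p m)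
    (hd : Decr p) {t μ δ π : ℝ} (ht : 0 ≤ t) (hμ : 0 < μ) (_hδ : 0 ≤ δ) (htδ : 0 < t + δ)
    (_h0 : 0 ≤ π) (_h1 : π ≤ 1) (s : Finset (Fin n → ℕ)) :
    ∑ i, ∑ k ∈ s, fterm (noise t p) (μ + δ) i k ≤
      π ^ 2 * bfish R p μ + (n : ℝ) * (1 - π) ^ 2 * (∑ m ∈ box n R, p m) / (t + δ) := by
  rw [show (n : ℝ) * (1 - π) ^ 2 * (∑ m ∈ box n R, p m) / (t + δ) =
    ∑ _i : Fin n, (1 - π) ^ 2 / (t + δ) * ∑ m ∈ box n R, p m by simp; ring,
    bfish, mul_sum, ← sum_add_distrib]
  refine sum_le_sum fun i _ => ?_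
  have hP := push_noise ht hp hp0 hd i
  have key : ∀ k, fterm (noise t p) (μ + δ) i k ≤
      π ^ 2 * ((∑ m ∈ box n R, p m * nPush t i k m) ^ 2 /
        (μ * (∑ m ∈ box n R, p m * nPush t i k m) +
          ∑ m ∈ box n R, p m * cumLt i (nPush t i k) m)) +
      (1 - π) ^ 2 / (t + δ) * ∑ m ∈ box n R, p m * nPush t i k m := by
    intro k
    rw [fterm_noise ht hp]
    set X := ∑ m ∈ box n R, p m * nPush t i k m
    set A := ∑ m ∈ box n R, p m * cumLt i (nPush t i k) m
    have hX : 0 ≤ X := hP.diff_nonneg k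
    have hA : 0 ≤ A := hP.rest_nonneg k
    have hx : μ * X + A = 0 → π * X = 0 := fun h => by
      have : μ * X = 0 := by linarith [mul_nonneg hμ.le hX]
      simp [(mul_eq_zero.1 this).resolve_left hμ.ne']
    have hy : (t + δ) * X = 0 → (1 - π) * X = 0 := fun h => by
      simp [(mul_eq_zero.1 h).resolve_left htδ.ne']
    calc X ^ 2 / (A + (t + (μ + δ)) * X)
        = (π * X + (1 - π) * X) ^ 2 / (μ * X + A + (t + δ) * X) := by ring_nf
      _ ≤ (π * X) ^ 2 / (μ * X + A) + ((1 - π) * X) ^ 2 / ((t + δ) * X) :=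
          engel_two (by positivity) (by positivity) hx hy
      _ = _ := by
          rcases hX.eq_or_lt with h | h
          · rw [← h]; simp
          · field_simp
  refine (sum_le_sum fun k _ => key k).trans ?_
  rw [sum_add_distrib, ← mul_sum, ← mul_sum]
  refine add_le_add (mul_le_mul_of_nonneg_left ?_ (sq_nonneg π))
    (mul_le_mul_of_nonneg_left ((hP.sum_diff_le s).trans_eq (one_mul _)) (by positivity))
  exact (hP.fish_le hμ s).trans_eq (by simp only [fterm, one_mul])

end Vale.Agent.P369.Diag
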