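import Vale.Agent.P369.Diag.BeamBox
import Vale.Agent.P369.Diag.Bessel
import Vale.Agent.P369.Diag.Fisher

/-!
Stam's inequality with two parameters for an arbitrary weight and a decreasing weight, valid when
the parameter of the arbitrary weight is the larger one.
-/

namespace Vale.Agent.P369.Diag

open Finset

variable {n R : ℕ} {η : ℝ} {p q : (Fin n → ℕ) → ℝ}

/-- The test function pushed to one pair of inputs. -/
noncomputable def eP (η : ℝ) (i : Fin n) (s : Finset (Fin n → ℕ)) (Y : (Fin n → ℕ) → ℝ)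
    (m l : Fin n → ℕ) : ℝ :=
  ∑ k ∈ s, Y k * ((k i : ℝ) + 1) * kdiff η i m l k

/-- The slice average of a test function. -/
noncomputable def ybar (η : ℝ) (i : Fin n) (s : Finset (Fin n → ℕ)) (Y : (Fin n → ℕ) → ℝ)
    (m l : Fin n → ℕ) (x : ℕ) : ℝ :=
  ∑ k ∈ s with k i = x, kOther η i m l k * Y k

lemma sum_kOther_le (e0 : 0 ≤ η) (e1 : η ≤ 1) (i : Fin n) (s : Finset (Fin n → ℕ))
    (m l : Fin n → ℕ) (x : ℕ) : ∑ k ∈ s with k i = x, kOther η i m l k ≤ 1 := by
  classical
  set f : Fin n → ℕ → ℝ := fun j y =>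
    if j = i then (if y = x then 1 else 0) else kerN η (m j) (l j) y with hf
  have h := hasSum_prod (f := f) (a := fun _ => 1)
    (fun j y => by
      simp only [hf]
      split_ifs <;> first | exact zero_le_one | exact le_rfl | exact kerN_nonneg _ _ _ _)
    (fun j => by
      simp only [hf]
      split_ifs with hj
      · simpa using hasSum_ite_eq x (1 : ℝ)
      · exact hasSum_kerN e0 e1 (m j) (l j))
  rw [prod_const_one] at h
  refine le_trans (le_of_eq (sum_congr rfl fun k hk => ?_))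
    (sum_le_hasSum (s.filter fun k => k i = x) (fun k _ => prod_nonneg fun j _ => by
      simp only [hf]
      split_ifs <;> first | exact zero_le_one | exact le_rfl | exact kerN_nonneg _ _ _ _) h)
  rw [← mul_prod_erase univ (fun j => f j (k j)) (mem_univ i)]
  simp only [hf, if_true, (mem_filter.1 hk).2, one_mul]
  exact prod_congr rfl fun j hj => (by rw [if_neg (ne_of_mem_erase hj)])

/-- The bound on the inputs of a finite set of outputs. -/
def bnd (i : Fin n) (s : Finset (Fin n → ℕ)) : ℕ := s.sup (fun k => k i) + 1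

lemma mem_bnd (i : Fin n) {s : Finset (Fin n → ℕ)} {k : Fin n → ℕ} (hk : k ∈ s) :
    k i ∈ range (bnd i s) :=
  mem_range.2 (Nat.lt_succ_of_le (le_sup (f := fun k : Fin n → ℕ => k i) hk))

lemma cumLe_eP_fst (η : ℝ) (i : Fin n) (s : Finset (Fin n → ℕ)) (Y : (Fin n → ℕ) → ℝ)
    (m l : Fin n → ℕ) (r : ℕ) :
    ∑ u ∈ range r, eP η i s Y (Function.update m i u) l =
      gA η (bnd i s) (ybar η i s Y m l) r (l i) := by
  simp only [eP, kdiff, kOther_update_fst, Function.update_self, gA, ybar]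
  rw [sum_comm, ← sum_fiberwise_of_maps_to (g := fun k => k i) fun k hk => mem_bnd i hk]
  refine sum_congr rfl fun x _ => ?_
  rw [sum_mul, sum_mul]
  refine sum_congr rfl fun k hk => ?_
  rw [(mem_filter.1 hk).2, mul_sum]
  exact sum_congr rfl fun u _ => by ring

lemma cumLe_eP_snd (η : ℝ) (i : Fin n) (s : Finset (Fin n → ℕ)) (Y : (Fin n → ℕ) → ℝ)
    (m l : Fin n → ℕ) (r : ℕ) :
    ∑ u ∈ range r, eP η i s Y m (Function.update l i u) =
      gB η (bnd i s) (ybar η i s Y m l) (m i) r := by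
  simp only [eP, kdiff, kOther_update_snd, Function.update_self, gB, ybar]
  rw [sum_comm, ← sum_fiberwise_of_maps_to (g := fun k => k i) fun k hk => mem_bnd i hk]
  refine sum_congr rfl fun x _ => ?_
  rw [sum_mul, sum_mul]
  refine sum_congr rfl fun k hk => ?_
  rw [(mem_filter.1 hk).2, mul_sum]
  exact sum_congr rfl fun u _ => by ring

lemma ybar_sq_le (e0 : 0 ≤ η) (e1 : η ≤ 1) (i : Fin n) (s : Finset (Fin n → ℕ))
    (Y : (Fin n → ℕ) → ℝ) (m l : Fin n → ℕ) (x : ℕ) :
    ybar η i s Y m l x ^ 2 ≤ ∑ k ∈ s with k i = x, kOther η i m l k * Y k ^ 2 := by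
  have h := sum_sq_le_sum_mul_sum_of_sq_le_mul (s.filter fun k => k i = x)
    (r := fun k => kOther η i m l k * Y k) (f := fun k => kOther η i m l k)
    (g := fun k => kOther η i m l k * Y k ^ 2) (fun k _ => kOther_nonneg η i m l k)
    (fun k _ => mul_nonneg (kOther_nonneg η i m l k) (sq_nonneg _)) (fun k _ => le_of_eq (by ring))
  exact h.trans (mul_le_of_le_one_left
    (sum_nonneg fun k _ => mul_nonneg (kOther_nonneg η i m l k) (sq_nonneg _))
    (sum_kOther_le e0 e1 i s m l x))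

lemma slice_le (e0 : 0 ≤ η) (e1 : η ≤ 1) (i : Fin n) (s : Finset (Fin n → ℕ))
    (Y : (Fin n → ℕ) → ℝ) (m l : Fin n → ℕ) {d : ℕ → ℝ} (hd : ∀ x, 0 ≤ d x) :
    ∑ x ∈ range (bnd i s), ybar η i s Y m l x ^ 2 * d x ≤
      ∑ k ∈ s, Y k ^ 2 * (d (k i) * kOther η i m l k) := by
  rw [← sum_fiberwise_of_maps_to (g := fun k => k i) (t := range (bnd i s))
    (s := s) fun k hk => mem_bnd i hk]
  refine sum_le_sum fun x _ => (mul_le_mul_of_nonneg_right (ybar_sq_le e0 e1 i s Y m l x)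
    (hd x)).trans_eq ?_
  rw [sum_mul]
  exact sum_congr rfl fun k hk => by rw [(mem_filter.1 hk).2]; ring

/-- Bessel's inequality for raising, several modes. -/
lemma eP_bessel_out (e0 : 0 ≤ η) (e1 : η ≤ 1) (i : Fin n) (s : Finset (Fin n → ℕ))
    (Y : (Fin n → ℕ) → ℝ) (m l : Fin n → ℕ) :
    η * cumLe i (fun m' => eP η i s Y m' l) m ^ 2 / ((m i : ℝ) + 1) +
        (1 - η) * cumLe i (fun l' => eP η i s Y m l') l ^ 2 / ((l i : ℝ) + 1) ≤
      ∑ k ∈ s, Y k ^ 2 * (((k i : ℝ) + 1) * kprod η m l k) := by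
  simp only [cumLe, cumLe_eP_fst, cumLe_eP_snd]
  refine (bessel_out e0 e1 (m i) (l i) _ _).trans ((slice_le e0 e1 i s Y m l
    (d := fun x => ((x : ℝ) + 1) * kerN η (m i) (l i) x)
    (fun x => mul_nonneg (by positivity) (kerN_nonneg _ _ _ _))).trans_eq ?_)
  exact sum_congr rfl fun k _ => by rw [kprod_split η i]; ring

/-- Bessel's inequality for lowering, several modes. -/
lemma eP_bessel_in (e0 : 0 ≤ η) (e1 : η ≤ 1) (i : Fin n) (s : Finset (Fin n → ℕ))
    (Y : (Fin n → ℕ) → ℝ) (m l : Fin n → ℕ) :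
    η * cumLt i (fun m' => eP η i s Y m' l) m ^ 2 / (m i : ℝ) +
        (1 - η) * cumLt i (fun l' => eP η i s Y m l') l ^ 2 / (l i : ℝ) ≤
      ∑ k ∈ s, Y k ^ 2 * (((k i : ℝ) + 1) * kprod η m l (up i k)) := by
  simp only [cumLt, cumLe_eP_fst, cumLe_eP_snd]
  refine (bessel_in e0 e1 (m i) (l i) _ _).trans ((slice_le e0 e1 i s Y m l
    (d := fun x => ((x : ℝ) + 1) * kerN η (m i) (l i) (x + 1))
    (fun x => mul_nonneg (by positivity) (kerN_nonneg _ _ _ _))).trans_eq ?_)
  refine sum_congr rfl fun k _ => ?_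
  rw [kprod_split η i, kOther_up]
  simp only [up, Function.update_self]
  ring

/-- Reindexing squares of cumulative sums against the mixed weight. -/
lemma sum_den_sq (i : Fin n) (p f : (Fin n → ℕ) → ℝ) (hp : InBox R p) (a : ℝ) :
    ∑ m ∈ box n R, den p a i m * (cumLe i f m ^ 2 / ((m i : ℝ) + 1)) =
      ∑ m ∈ box n R, p m * (a * (cumLe i f m ^ 2 / ((m i : ℝ) + 1)) +
        (1 - a) * (cumLt i f m ^ 2 / (m i : ℝ))) := by
  set g := fun m => cumLe i f m ^ 2 / ((m i : ℝ) + 1) - cumLt i f m ^ 2 / (m i : ℝ) with hg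
  have hlt : ∀ m, cumLt i g m = cumLt i f m ^ 2 / (m i : ℝ) := by
    intro m
    set φ : ℕ → ℝ := fun u => (∑ x ∈ range u, f (Function.update m i x)) ^ 2 / (u : ℝ) with hφ
    have : ∀ u, g (Function.update m i u) = φ (u + 1) - φ u := fun u => by
      simp [hg, hφ, cumLe, cumLt, Function.update_idem]
    simp only [cumLt, this, sum_range_sub φ]
    simp [hφ]
  have hle : ∀ m, cumLe i g m = cumLe i f m ^ 2 / ((m i : ℝ) + 1) := fun m => by
    rw [cumLe_eq, hlt]; simp [hg]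
  have h := sum_up_mul i p g hp
  simp only [hle, hlt] at h
  calc ∑ m ∈ box n R, den p a i m * (cumLe i f m ^ 2 / ((m i : ℝ) + 1))
      = a * (∑ m ∈ box n R, p m * (cumLe i f m ^ 2 / ((m i : ℝ) + 1))) +
          (1 - a) * ∑ m ∈ box n R, p (up i m) * (cumLe i f m ^ 2 / ((m i : ℝ) + 1)) := by
        rw [mul_sum, mul_sum, ← sum_add_distrib]
        exact sum_congr rfl fun m _ => by rw [den]; ring
    _ = _ := by
        rw [h, mul_sum, mul_sum, ← sum_add_distrib]
        exact sum_congr rfl fun m _ => by ring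

/-- The interpolation between the three corner cases. -/
lemma corners {α β A A' T V V' W W' O I x : ℝ} (e0 : 0 ≤ η) (e1 : η ≤ 1) (hβ : 0 ≤ β) (hβα : β ≤ α)
    (hα : α ≤ 1) (hx : 0 ≤ x) (hO : η * (V / (x + 1)) + (1 - η) * W ≤ O)
    (hI : η * (V' / x) + (1 - η) * W' ≤ I) (hA : A ^ 2 ≤ V) (hA' : A' ^ 2 ≤ V')
    (hsum : A = A' + T) (hT : T ^ 2 ≤ W - W') (h0 : x = 0 → A' = 0) :
    η * (α * (A ^ 2 / (x + 1)) + (1 - α) * (A' ^ 2 / x)) + (1 - η) * (β * W + (1 - β) * W') ≤
      (η * α + (1 - η) * β) * O + (1 - (η * α + (1 - η) * β)) * I := by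
  have hx1 : 0 < x + 1 := by linarith
  have a1 : η * (A ^ 2 / (x + 1)) ≤ η * (V / (x + 1)) :=
    mul_le_mul_of_nonneg_left (div_le_div_of_nonneg_right hA hx1.le) e0
  have a0 : η * (A' ^ 2 / x) ≤ η * (V' / x) :=
    mul_le_mul_of_nonneg_left (div_le_div_of_nonneg_right hA' hx) e0
  have k10 : η * (A ^ 2 / (x + 1)) + (1 - η) * W' ≤ η * O + (1 - η) * I := by
    have ht : A ^ 2 / (x + 1) ≤ A' ^ 2 / x + T ^ 2 := by
      rcases hx.eq_or_lt with h | h
      · have hz := h0 h.symm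
        rw [hz, zero_add] at hsum
        simp [← h, hz, hsum]
      · have := engel_two (x := A') (y := T) (u := x) (v := 1) hx zero_le_one
          (fun h' => absurd h' h.ne') (fun h' => absurd h' one_ne_zero)
        rwa [← hsum, div_one] at this
    have b1 := mul_le_mul_of_nonneg_left hO e0
    have b2 := mul_le_mul_of_nonneg_left hI (sub_nonneg.2 e1)
    have b3 := mul_le_mul_of_nonneg_left (show A ^ 2 / (x + 1) ≤ A' ^ 2 / x + (W - W') by linarith)
      (mul_nonneg e0 (sub_nonneg.2 e1))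
    nlinarith [mul_le_mul_of_nonneg_left a1 e0, mul_le_mul_of_nonneg_left a0 (sub_nonneg.2 e1)]
  nlinarith [mul_le_mul_of_nonneg_left k10 (sub_nonneg.2 hβα),
    mul_le_mul_of_nonneg_left (show η * (A ^ 2 / (x + 1)) + (1 - η) * W ≤ O by linarith) hβ,
    mul_le_mul_of_nonneg_left (show η * (A' ^ 2 / x) + (1 - η) * W' ≤ I by linarith)
      (sub_nonneg.2 hα)]

lemma sq_sum_le {ι : Type} (s : Finset ι) (w x : ι → ℝ) (hw : ∀ j ∈ s, 0 ≤ w j)
    (h1 : ∑ j ∈ s, w j ≤ 1) : (∑ j ∈ s, w j * x j) ^ 2 ≤ ∑ j ∈ s, w j * x j ^ 2 :=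
  (sum_sq_le_sum_mul_sum_of_sq_le_mul s (r := fun j => w j * x j) (f := w)
    (g := fun j => w j * x j ^ 2) hw (fun j hj => mul_nonneg (hw j hj) (sq_nonneg _))
    (fun j _ => le_of_eq (by ring))).trans
    (mul_le_of_le_one_left (sum_nonneg fun j hj => mul_nonneg (hw j hj) (sq_nonneg _)) h1)

/-- The quadratic inequality at one value of the arbitrary input. -/
lemma fibre_le {α β : ℝ} (e0 : 0 ≤ η) (e1 : η ≤ 1) (hβ : 0 ≤ β) (hβα : β ≤ α) (hα : α ≤ 1)
    (hq : InBox R q) (hq0 : ∀ l, 0 ≤ q l) (hqd : Decr q) (hQ : ∑ l ∈ box n R, q l ≤ 1)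
    (i : Fin n) (s : Finset (Fin n → ℕ)) (Y : (Fin n → ℕ) → ℝ) (m : Fin n → ℕ) :
    η * (α * (cumLe i (fun m' => ∑ l ∈ box n R, q l * eP η i s Y m' l) m ^ 2 / ((m i : ℝ) + 1)) +
        (1 - α) * (cumLt i (fun m' => ∑ l ∈ box n R, q l * eP η i s Y m' l) m ^ 2 / (m i : ℝ))) +
      (1 - η) * ∑ l ∈ box n R,
        den q β i l * (cumLe i (fun l' => eP η i s Y m l') l ^ 2 / ((l i : ℝ) + 1)) ≤
      ∑ l ∈ box n R, q l * ∑ k ∈ s, Y k ^ 2 * (((k i : ℝ) + 1) *
        ((η * α + (1 - η) * β) * kprod η m l k +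
          (1 - (η * α + (1 - η) * β)) * kprod η m l (up i k))) := by
  set μ := η * α + (1 - η) * β with hμ
  set GB := fun l => cumLe i (fun l' => eP η i s Y m l') l with hGB
  set GB' := fun l => cumLt i (fun l' => eP η i s Y m l') l with hGB'
  set GA := fun l => cumLe i (fun m' => eP η i s Y m' l) m with hGA
  set GA' := fun l => cumLt i (fun m' => eP η i s Y m' l) m with hGA'
  have cA : cumLe i (fun m' => ∑ l ∈ box n R, q l * eP η i s Y m' l) m = ∑ l ∈ box n R, q l * GA l := by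
    simp only [hGA, cumLe, mul_sum]; exact sum_comm
  have cA' : cumLt i (fun m' => ∑ l ∈ box n R, q l * eP η i s Y m' l) m =
      ∑ l ∈ box n R, q l * GA' l := by
    simp only [hGA', cumLt, mul_sum]; exact sum_comm
  have hden : ∑ l ∈ box n R, den q β i l * (GB l ^ 2 / ((l i : ℝ) + 1)) =
      β * (∑ l ∈ box n R, q l * (GB l ^ 2 / ((l i : ℝ) + 1))) +
        (1 - β) * ∑ l ∈ box n R, q l * (GB' l ^ 2 / (l i : ℝ)) := by
    rw [sum_den_sq i q _ hq, mul_sum, mul_sum, ← sum_add_distrib]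
    exact sum_congr rfl fun l _ => by ring
  have hdiff : (∑ l ∈ box n R, q l * (GB l ^ 2 / ((l i : ℝ) + 1))) -
      (∑ l ∈ box n R, q l * (GB' l ^ 2 / (l i : ℝ))) =
      ∑ l ∈ box n R, (q l - q (up i l)) * (GB l ^ 2 / ((l i : ℝ) + 1)) := by
    have h := sum_den_sq i q (fun l' => eP η i s Y m l') hq 0
    simp only [den, zero_mul, add_zero, zero_add, sub_zero, one_mul] at h
    rw [← h, ← sum_sub_distrib]
    exact sum_congr rfl fun l _ => by simp only [hGB]; ring
  have hT : (∑ l ∈ box n R, q l * eP η i s Y m l) ^ 2 ≤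
      (∑ l ∈ box n R, q l * (GB l ^ 2 / ((l i : ℝ) + 1))) -
        (∑ l ∈ box n R, q l * (GB' l ^ 2 / (l i : ℝ))) := by
    rw [hdiff, ← abel i q _ hq]
    have hΔ : ∀ l ∈ box n R, 0 ≤ q l - q (up i l) := fun l _ => sub_nonneg.2 (hqd i l)
    refine (sum_sq_le_sum_mul_sum_of_sq_le_mul (box n R)
      (r := fun l => (q l - q (up i l)) * GB l)
      (f := fun l => ((l i : ℝ) + 1) * (q l - q (up i l)))
      (g := fun l => (q l - q (up i l)) * (GB l ^ 2 / ((l i : ℝ) + 1)))
      (fun l hl => mul_nonneg (by positivity) (hΔ l hl))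
      (fun l hl => mul_nonneg (hΔ l hl) (by positivity))
      (fun l _ => le_of_eq (by field_simp))).trans ?_
    rw [sum_succ_mul i q hq]
    exact mul_le_of_le_one_left (sum_nonneg fun l hl => mul_nonneg (hΔ l hl) (by positivity)) hQ
  have hO : η * ((∑ l ∈ box n R, q l * GA l ^ 2) / ((m i : ℝ) + 1)) +
      (1 - η) * (∑ l ∈ box n R, q l * (GB l ^ 2 / ((l i : ℝ) + 1))) ≤
      ∑ l ∈ box n R, q l * ∑ k ∈ s, Y k ^ 2 * (((k i : ℝ) + 1) * kprod η m l k) := by
    rw [sum_div, mul_sum, mul_sum, ← sum_add_distrib]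
    refine sum_le_sum fun l _ => le_trans (le_of_eq ?_)
      (mul_le_mul_of_nonneg_left (eP_bessel_out e0 e1 i s Y m l) (hq0 l))
    simp only [hGA, hGB]; ring
  have hI : η * ((∑ l ∈ box n R, q l * GA' l ^ 2) / (m i : ℝ)) +
      (1 - η) * (∑ l ∈ box n R, q l * (GB' l ^ 2 / (l i : ℝ))) ≤
      ∑ l ∈ box n R, q l * ∑ k ∈ s, Y k ^ 2 * (((k i : ℝ) + 1) * kprod η m l (up i k)) := by
    rw [sum_div, mul_sum, mul_sum, ← sum_add_distrib]
    refine sum_le_sum fun l _ => le_trans (le_of_eq ?_)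
      (mul_le_mul_of_nonneg_left (eP_bessel_in e0 e1 i s Y m l) (hq0 l))
    simp only [hGA', hGB']; ring
  rw [cA, cA', hden]
  refine (corners e0 e1 hβ hβα hα (Nat.cast_nonneg _) hO hI
    (sq_sum_le _ q GA (fun l _ => hq0 l) hQ) (sq_sum_le _ q GA' (fun l _ => hq0 l) hQ)
    (T := ∑ l ∈ box n R, q l * eP η i s Y m l) ?_ hT ?_).trans_eq ?_
  · rw [← sum_add_distrib]
    exact sum_congr rfl fun l _ => by simp only [hGA, hGA', cumLe_eq]; ring
  · intro h
    have h' : m i = 0 := by exact_mod_cast h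
    simp [hGA', cumLt, h']
  · simp only [hμ, mul_sum, ← sum_add_distrib]
    exact sum_congr rfl fun l _ => sum_congr rfl fun k _ => by ring

lemma young {d c a x π : ℝ} (hc : 0 < c) (hd : 0 ≤ d) (hz : d = 0 → x = 0) (ha : 0 < a) (G : ℝ) :
    2 * π * (x * G) - c * (d * (G ^ 2 / a)) ≤ π ^ 2 / c * (a * x ^ 2 / d) := by
  rcases hd.eq_or_lt with h | h
  · simp [← h, hz h.symm]
  · have key : π ^ 2 / c * (a * x ^ 2 / d) - (2 * π * (x * G) - c * (d * (G ^ 2 / a))) =
        (π * a * x - c * d * G) ^ 2 / (c * d * a) := by field_simp; ring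
    have : 0 ≤ (π * a * x - c * d * G) ^ 2 / (c * d * a) := by positivity
    linarith

/-- Stam's inequality with an arbitrary first weight and a decreasing second weight. -/
theorem stam_mixed {α β π : ℝ} (e0 : 0 < η) (e1 : η < 1) (hβ : 0 < β) (hβα : β ≤ α) (hα : α < 1)
    (hp : InBox R p) (hq : InBox R q) (hp0 : ∀ m, 0 ≤ p m) (hq0 : ∀ m, 0 ≤ q m) (hqd : Decr q)
    (hP : ∑ m ∈ box n R, p m ≤ 1) (hQ : ∑ m ∈ box n R, q m ≤ 1) (s : Finset (Fin n → ℕ)) :
    ∑ i, ∑ k ∈ s, fterm (bsOut η p q) (η * α + (1 - η) * β) i k ≤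
      π ^ 2 / η * bfish R p α + (1 - π) ^ 2 / (1 - η) * bfish R q β := by
  set μ := η * α + (1 - η) * β with hμ
  have hc : 0 < 1 - η := by linarith
  rw [bfish, bfish, mul_sum univ, mul_sum univ, ← sum_add_distrib]
  refine sum_le_sum fun i _ => ?_
  set C := bsOut η p q with hC
  set Y := fun k => (C k - C (up i k)) / den C μ i k with hY
  set f := fun m => ∑ l ∈ box n R, q l * eP η i s Y m l with hf
  set g := fun l => ∑ m ∈ box n R, p m * eP η i s Y m l with hg
  set S := ∑ k ∈ s, fterm C μ i k with hS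
  have hL : ∑ m ∈ box n R, p m * f m = S := by
    have e : ∀ k, fterm C μ i k = Y k * ((k i : ℝ) + 1) * (C k - C (up i k)) := fun k => by
      simp only [fterm, hY]; ring
    rw [hS, sum_congr rfl fun k _ => e k]
    simp only [hf, eP, hC, bsOut_eq η hp hq, ← sum_sub_distrib, kdiff_eq, mul_sum]
    rw [sum_comm (s := s)]
    refine sum_congr rfl fun m _ => ?_
    rw [sum_comm (s := s)]
    exact sum_congr rfl fun l _ => sum_congr rfl fun k _ => by ring
  have hLA : ∑ m ∈ box n R, (p m - p (up i m)) * cumLe i f m = S := by rw [abel i p f hp, hL]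
  have hLB : ∑ l ∈ box n R, (q l - q (up i l)) * cumLe i g l = S := by
    rw [abel i q g hq, ← hL]
    simp only [hf, hg, mul_sum]
    rw [sum_comm]
    exact sum_congr rfl fun m _ => sum_congr rfl fun l _ => by ring
  have hμ0 : 0 < μ := by rw [hμ]; exact add_pos (mul_pos e0 (hβ.trans_le hβα)) (mul_pos hc hβ)
  have hQd : ∑ m ∈ box n R, p m * (∑ l ∈ box n R, q l * ∑ k ∈ s, Y k ^ 2 * (((k i : ℝ) + 1) *
      (μ * kprod η m l k + (1 - μ) * kprod η m l (up i k)))) = S := by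
    have e : ∀ k, fterm C μ i k = Y k ^ 2 * (((k i : ℝ) + 1) * (μ * C k + (1 - μ) * C (up i k))) := by
      intro k
      have hd : μ * C k + (1 - μ) * C (up i k) = den C μ i k := by rw [den]; ring
      rw [hd]
      simp only [fterm, hY]
      rcases eq_or_ne (den C μ i k) 0 with h | h
      · simp [h]
      · field_simp
    rw [hS, sum_congr rfl fun k _ => e k]
    simp only [hC, bsOut_eq η hp hq, mul_sum, ← sum_add_distrib]
    rw [sum_comm (s := s)]
    refine sum_congr rfl fun m _ => ?_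
    rw [sum_comm (s := s)]
    exact sum_congr rfl fun l _ => sum_congr rfl fun k _ => by ring
  have hquad : η * (∑ m ∈ box n R, den p α i m * (cumLe i f m ^ 2 / ((m i : ℝ) + 1))) +
      (1 - η) * (∑ l ∈ box n R, den q β i l * (cumLe i g l ^ 2 / ((l i : ℝ) + 1))) ≤ S := by
    rw [sum_den_sq i p f hp]
    have hB : ∑ l ∈ box n R, den q β i l * (cumLe i g l ^ 2 / ((l i : ℝ) + 1)) ≤
        ∑ m ∈ box n R, p m * ∑ l ∈ box n R,
          den q β i l * (cumLe i (fun l' => eP η i s Y m l') l ^ 2 / ((l i : ℝ) + 1)) := by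
      simp only [mul_sum]
      rw [sum_comm]
      refine sum_le_sum fun l _ => ?_
      have hc' : cumLe i g l = ∑ m ∈ box n R, p m * cumLe i (fun l' => eP η i s Y m l') l := by
        simp only [hg, cumLe, mul_sum]; exact sum_comm
      rw [hc']
      refine (mul_le_mul_of_nonneg_left (div_le_div_of_nonneg_right
        (sq_sum_le _ p _ (fun m _ => hp0 m) hP) (by positivity))
        (den_nonneg hq0 hqd hβ.le i l)).trans_eq ?_
      rw [sum_div, mul_sum]
      exact sum_congr rfl fun m _ => by ring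
    refine le_trans (add_le_add le_rfl (mul_le_mul_of_nonneg_left hB hc.le)) ?_
    rw [← hQd, mul_sum, mul_sum, ← sum_add_distrib]
    refine sum_le_sum fun m _ => le_trans (le_of_eq ?_) (mul_le_mul_of_nonneg_left
      (fibre_le e0.le e1.le hβ.le hβα hα.le hq hq0 hqd hQ i s Y m) (hp0 m))
    simp only [hf]; ring
  have hA : 2 * π * S - η * (∑ m ∈ box n R, den p α i m * (cumLe i f m ^ 2 / ((m i : ℝ) + 1))) ≤
      π ^ 2 / η * ∑ m ∈ box n R, fterm p α i m := by
    rw [← hLA, mul_sum, mul_sum, mul_sum, ← sum_sub_distrib]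
    refine sum_le_sum fun m _ => young e0 (den_nonneg_of_le_one hp0 (hβ.le.trans hβα) hα.le i m)
      (fun h => ?_) (by positivity) _
    have e : den p α i m = α * p m + (1 - α) * p (up i m) := by rw [den]; ring
    rw [e] at h
    have h1 := (add_eq_zero_iff_of_nonneg (mul_nonneg (hβ.le.trans hβα) (hp0 m))
      (mul_nonneg (by linarith) (hp0 _))).1 h
    rw [(mul_eq_zero.1 h1.1).resolve_left (hβ.trans_le hβα).ne',
      (mul_eq_zero.1 h1.2).resolve_left (by linarith), sub_zero]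
  have hB : 2 * (1 - π) * S -
      (1 - η) * (∑ l ∈ box n R, den q β i l * (cumLe i g l ^ 2 / ((l i : ℝ) + 1))) ≤
      (1 - π) ^ 2 / (1 - η) * ∑ l ∈ box n R, fterm q β i l := by
    rw [← hLB, mul_sum, mul_sum, mul_sum, ← sum_sub_distrib]
    exact sum_le_sum fun l _ => young hc (den_nonneg hq0 hqd hβ.le i l)
      (fun h => diff_zero_of_den hq0 hqd hβ h) (by positivity) _
  show S ≤ _
  linarith

end Vale.Agent.P369.Diag
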